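import Vale.Agent.P354YI.Jet
import Vale.Agent.P354XD.Base
import Vale.Agent.P354XE.Defs

/-!
Jets of metrics, inverses, Christoffel symbols and pull backs; isometries between close metrics
are close.
-/

set_option maxSynthPendingDepth 3

open scoped ContDiff
open Set Filter Topology

noncomputable section

namespace Vale.Agent.P354YI

open Vale.Agent.P354n (R4)
open Vale.Agent.P354R (Met Pull)
open Vale.Agent.P354RC (B2 bs cv Gm C1 Rp sum_bs Gm_add1 Gm_add2 Gm_smul1 Gm_smul2 Gm_pb)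
open Vale.Agent.P354XD (tb rp_tb)
open Vale.Agent.P354XE (Tw Bd)
open ContinuousLinearMap (compL)

section inv
variable {J E V W : Type} [NormedAddCommGroup E] [NormedSpace ℝ E] [NormedAddCommGroup V]
  [NormedSpace ℝ V] [CompleteSpace V] [NormedAddCommGroup W] [NormedSpace ℝ W] {x : J → E}
  {A A' : J → E → V →L[ℝ] W} {μ : J → ℝ} {m : ℕ}

omit [NormedSpace ℝ E] in
theorem ev_inv {A : E → V →L[ℝ] W} {x : E} (h : ContinuousAt A x) (hi : (A x).IsInvertible) :
    ∀ᶠ y in 𝓝 x, (A y).IsInvertible :=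
  h.eventually (ContinuousLinearEquiv.isOpen.mem_nhds hi)

theorem fd_inv {A : E → V →L[ℝ] W} {x : E} (h : ContDiffAt ℝ ∞ A x) (hi : (A x).IsInvertible) :
    fderiv ℝ (fun y => (A y).inverse) =ᶠ[𝓝 x] fun y => -((compL ℝ W W V (A y).inverse).comp
      (((compL ℝ W V W).flip (A y).inverse).comp (fderiv ℝ A y))) := by
  filter_upwards [ev_dif h, ev_inv h.continuousAt hi] with y h1 h2
  have h3 : DifferentiableAt ℝ (fun y => (A y).inverse) y :=
    ((h2.contDiffAt_map_inverse (n := 1)).differentiableAt (by simp)).comp y h1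
  have h4 : (fun z => (A z).comp (A z).inverse) =ᶠ[𝓝 y] fun _ => .id ℝ W := by
    filter_upwards [ev_inv h1.continuousAt h2] with z hz using hz.self_comp_inverse
  have h5 := h4.fderiv_eq (𝕜 := ℝ)
  rw [fderiv_clm_comp h1 h3, fderiv_fun_const] at h5
  ext v w
  have h6 := congrArg (fun T => (A y).inverse (T v w)) h5
  simp only [add_apply, ContinuousLinearMap.comp_apply, ContinuousLinearMap.compL_apply,
    ContinuousLinearMap.flip_apply, map_add, h2.inverse_apply_self, Pi.zero_apply,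
    zero_apply, map_zero] at h6
  simpa using eq_neg_of_add_eq_zero_left h6

theorem Oj.inv (hi : ∀ j, (A j (x j)).IsInvertible) (hb : ∃ C, ∀ j, ‖(A j (x j)).inverse‖ ≤ C)
    (h : Oj m x A 1) : Oj m x (fun j y => (A j y).inverse) 1 := by
  have h0 : Oj 0 x (fun j y => (A j y).inverse) 1 :=
    .zero (fun j => at_comp (hi j).contDiffAt_map_inverse (h.sm j)) h.nn (by simpa using hb)
  induction m with
  | zero => exact h0
  | succ m ih =>
    have k := ih h.pred
    exact h0.succ ((((k.clm (compL ℝ W W V)).cl ((k.clm (compL ℝ W V W).flip).cl h.fd)).neg).congr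
      fun j => fd_inv (h.sm j) (hi j))

theorem Oj.inv_sub (hi : ∀ j, (A j (x j)).IsInvertible) (hi' : ∀ j, (A' j (x j)).IsInvertible)
    (hs : ∀ j, ContDiffAt ℝ ∞ (A j) (x j)) (hs' : ∀ j, ContDiffAt ℝ ∞ (A' j) (x j))
    (h : Oj m x (fun j y => (A j y).inverse) 1) (h' : Oj m x (fun j y => (A' j y).inverse) 1)
    (d : Oj m x (fun j y => A j y - A' j y) μ) :
    Oj m x (fun j y => (A j y).inverse - (A' j y).inverse) μ :=
  (h.cr (d.symm.cl h')).congr fun j => by
    filter_upwards [ev_inv (hs j).continuousAt (hi j), ev_inv (hs' j).continuousAt (hi' j)]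
      with y h1 h2
    rw [ContinuousLinearMap.sub_comp, ContinuousLinearMap.comp_sub, h2.self_comp_inverse,
      ← ContinuousLinearMap.comp_assoc, h1.inverse_comp_self, ContinuousLinearMap.comp_id,
      ContinuousLinearMap.id_comp]

end inv

/-- Connections as fields of continuous bilinear maps. -/
abbrev C3 : Type := R4 →L[ℝ] R4 →L[ℝ] R4

/-- The bilinear map with one component. -/
def el (V : Type) [NormedAddCommGroup V] [NormedSpace ℝ V] (a b : Fin 4) :
    V →L[ℝ] R4 →L[ℝ] R4 →L[ℝ] V :=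
  (ContinuousLinearMap.smulRightL ℝ R4 (R4 →L[ℝ] V) (cv a)).comp
    (ContinuousLinearMap.smulRightL ℝ R4 V (cv b))

/-- The Christoffel map. -/
def GM (h : R4 → B2) (y : R4) : C3 := ∑ a, ∑ b, el R4 a b (Gm h y (bs a) (bs b))

theorem GM_ap (h : R4 → B2) (y a b : R4) : GM h y a b = Gm h y a b := by
  conv_rhs => rw [← sum_bs a, ← sum_bs b]
  simp only [GM, el, Fin.sum_univ_four, Gm_add1, Gm_add2, Gm_smul1, Gm_smul2,
    add_apply, ContinuousLinearMap.comp_apply,
    ContinuousLinearMap.smulRightL_apply_apply, ContinuousLinearMap.smulRight_apply,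
    smul_apply, smul_add]
  module

/-- The Christoffel symbols of the first kind as a linear function of the derivative. -/
def cL (a b : R4) : (R4 →L[ℝ] B2) →L[ℝ] R4 →L[ℝ] ℝ :=
  (1 / 2 : ℝ) • ((ContinuousLinearMap.apply ℝ _ b).comp (ContinuousLinearMap.apply ℝ B2 a) +
    (ContinuousLinearMap.apply ℝ _ a).comp (ContinuousLinearMap.apply ℝ B2 b) -
    compL ℝ R4 B2 ℝ ((ContinuousLinearMap.apply ℝ ℝ b).comp (ContinuousLinearMap.apply ℝ _ a)))

theorem GM_eq (h : R4 → B2) (y : R4) :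
    GM h y = ∑ a, ∑ b, el R4 a b ((h y).inverse (cL (bs a) (bs b) (fderiv ℝ h y))) := rfl

theorem tb_eq (g : Tw) (y : R4) : tb g y = ∑ a, ∑ b, el ℝ a b (g y (bs a) (bs b)) := by
  refine Finset.sum_congr rfl fun a _ => Finset.sum_congr rfl fun b _ => ?_
  refine ContinuousLinearMap.ext fun v => ContinuousLinearMap.ext fun w => ?_
  simp [el, mul_comm, mul_left_comm]

theorem norm_bs (a : Fin 4) : ‖bs a‖ = 1 := by
  fin_cases a <;> simp [bs, Prod.norm_def]

section met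
variable {J : Type} {m : ℕ} {x : J → R4} {h h' : J → R4 → B2} {μ : J → ℝ} {g g' : J → Tw}
  {f f' : J → R4 → R4}

theorem Oj.gm (hi : Oj m x (fun j y => (h j y).inverse) 1) (hh : Oj (m + 1) x h μ) :
    Oj m x (fun j => GM (h j)) μ :=
  (Oj.sum _ hh.nn fun a _ => Oj.sum _ hh.nn fun b _ =>
    (hi.apr (hh.fd.clm (cL (bs a) (bs b)))).clm (el R4 a b)).congr' fun _ _ => GM_eq _ _

theorem Oj.gm_sub (hi : Oj m x (fun j y => (h j y).inverse) 1) (hh' : Oj (m + 1) x h' 1)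
    (di : Oj m x (fun j y => (h j y).inverse - (h' j y).inverse) μ)
    (hs : ∀ j, ContDiffAt ℝ ∞ (h j) (x j)) (d : Oj (m + 1) x (fun j y => h j y - h' j y) μ) :
    Oj m x (fun j y => GM (h j) y - GM (h' j) y) μ :=
  (Oj.sum Finset.univ d.nn fun a _ => Oj.sum Finset.univ d.nn fun b _ =>
    ((hi.apr (d.fd.clm (cL (bs a) (bs b)))).add
      (di.apl (hh'.fd.clm (cL (bs a) (bs b))))).clm (el R4 a b)).congr fun j => by
    filter_upwards [ev_dif (hs j), ev_dif (hh'.sm j)] with y h1 h2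
    simp only [GM_eq, ← Finset.sum_sub_distrib, ← map_sub, fderiv_fun_sub h1 h2]
    simp only [map_sub, sub_apply, sub_add_sub_cancel]

/-- From the components to the field of forms. -/
theorem Oj.tb (hs : ∀ j v w, ContDiffAt ℝ ∞ (fun y => g j y v w) (x j))
    (hb : ∀ j, Bd m (g j) (x j) (μ j)) : Oj m x (fun j => tb (g j)) μ :=
  have k : ∀ a b, Oj m x (fun j y => g j y (bs a) (bs b)) μ := fun a b =>
    .of (fun j => hs j _ _) fun j k hk => by simpa [norm_bs] using hb j k hk (bs a) (bs b)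
  (Oj.sum _ (k 0 0).nn fun a _ => Oj.sum _ (k 0 0).nn fun b _ => (k a b).clm (el ℝ a b)).congr'
    fun _ _ => tb_eq _ _

theorem tb_sub (g g' : Tw) (y : R4) : tb (g - g') y = tb g y - tb g' y := by
  simp only [tb_eq, Pi.sub_apply, map_sub, Finset.sum_sub_distrib]

/-- From the field of forms to the components. -/
theorem Oj.bd' (hh : Oj m x h μ) (e : ∀ j, ∀ᶠ y in 𝓝 (x j), ∀ v w, g j y v w = h j y v w) :
    ∃ C, 0 ≤ C ∧ ∀ j, Bd m (g j) (x j) (C * μ j) := by
  obtain ⟨C, c0, hC⟩ := hh.bd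
  refine ⟨C, c0, fun j k hk v w => ?_⟩
  let L : B2 →L[ℝ] ℝ := (ContinuousLinearMap.apply ℝ ℝ w).comp (ContinuousLinearMap.apply ℝ _ v)
  have hL : ‖L‖ ≤ ‖v‖ * ‖w‖ := L.opNorm_le_bound (by positivity) fun T =>
    (T.le_opNorm₂ v w).trans_eq (by ring)
  refine (((hC j).clm L (hh.sm j)).congr ((e j).mono fun y hy => hy v w) k hk).trans ?_
  rw [mul_comm]
  exact mul_le_mul_of_nonneg_left hL (hC j).nonneg

/-- The pull back of a form by two linear maps. -/
def pl (T : B2) (P Q : R4 →L[ℝ] R4) : B2 := ((T.comp P).flip.comp Q).flip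

theorem Oj.flip {V : Type} [NormedAddCommGroup V] [NormedSpace ℝ V]
    {T : J → R4 → R4 →L[ℝ] R4 →L[ℝ] V} (h : Oj m x T μ) : Oj m x (fun j y => (T j y).flip) μ :=
  h.clm (ContinuousLinearMap.flipₗᵢ ℝ R4 R4 V).toContinuousLinearEquiv.toContinuousLinearMap

theorem Oj.pb (hs : ∀ j, ContDiffAt ℝ ∞ (f j) (x j)) (hf : Oj m x (fun j => fderiv ℝ (f j)) 1)
    (hh : Oj m (fun j => f j (x j)) h μ) : Oj m x (fun j => P354RC.pb (h j) (f j)) μ :=
  (((Oj.comp hs m (hf.le (by omega)) hh).cl hf).flip.cl hf).flip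

/-- Lipschitz dependence of the pull back on the map. -/
theorem Oj.pb_lip (hs : ∀ j, ContDiffAt ℝ ∞ (f j) (x j)) (hs' : ∀ j, ContDiffAt ℝ ∞ (f' j) (x j))
    {S : J → Set R4} (hS : ∀ j, segment ℝ (f j (x j)) (f' j (x j)) ⊆ S j)
    (hf : Oj m x (fun j => fderiv ℝ (f j)) 1) (hf' : Oj m x (fun j => fderiv ℝ (f' j)) 1)
    (d : Oj (m + 1) x (fun j y => f j y - f' j y) μ) (hh : Os (m + 1) S h 1) :
    Oj m x (fun j y => P354RC.pb (h j) (f j) y - P354RC.pb (h j) (f' j) y) μ := by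
  have a := Oj.lip hs hs' hS m (hf.le (by omega)) (hf'.le (by omega)) d.pred hh
  rw [one_mul] at a
  have b : Oj m x (fun j y => h j (f' j y)) 1 := Oj.comp hs' m (hf'.le (by omega))
    (hh.at id fun j => hS j (right_mem_segment ℝ _ _)).pred
  refine ((((a.cl hf).flip.cl hf).flip.add ((Oj.cr b d.fd).flip.cl hf).flip).add
    (Oj.cr (Oj.cl b hf').flip d.fd).flip).congr fun j => ?_
  filter_upwards [ev_dif (hs j), ev_dif (hs' j)] with y h1 h2
  refine ContinuousLinearMap.ext fun v => ContinuousLinearMap.ext fun w => ?_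
  simp [P354RC.pb_ap, fderiv_fun_sub h1 h2]

end met

/-- The map f is affine for the connections Γ and Γ' at y. -/
def Af (Γ Γ' : R4 → C3) (f : R4 → R4) (y : R4) : Prop :=
  ContDiffAt ℝ ∞ f y ∧ ∀ᶠ z in 𝓝 y, fderiv ℝ (fderiv ℝ f) z =
    (compL ℝ R4 R4 R4 (fderiv ℝ f z)).comp (Γ z) -
      (((Γ' (f z)).comp (fderiv ℝ f z)).flip.comp (fderiv ℝ f z)).flip

theorem af_of_pull {f : R4 → R4} {g g' : Tw} {D D' : Set R4} (p : Pull f g' D' g D) {y : R4}
    (hy : y ∈ D') : Af (GM (tb g')) (GM (tb g)) f y := by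
  refine ⟨P354RC.p_at p hy, ?_⟩
  have r := rp_tb p.isOpen p.met
  have r1 := P354RC.rp_pb p r
  have r2 := rp_tb p.open' r1.met
  filter_upwards [p.open'.mem_nhds hy] with z hz
  have e : tb g' =ᶠ[𝓝 z] P354RC.pb (tb g) f := by
    filter_upwards [p.open'.mem_nhds hz] with u hu
    refine ContinuousLinearMap.ext fun v => ContinuousLinearMap.ext fun w => ?_
    rw [← r2.eq u hu, r1.eq u hu]
  refine ContinuousLinearMap.ext fun a => ContinuousLinearMap.ext fun b => ?_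
  have k := Gm_pb p r hz a b
  simp only [sub_apply, ContinuousLinearMap.comp_apply, ContinuousLinearMap.compL_apply,
    ContinuousLinearMap.flip_apply, GM_ap]
  rw [Gm, C1, e.fderiv_eq, e.eq_of_nhds, ← C1, ← Gm, k, add_sub_cancel_left]

section rig
variable {J : Type} {x : J → R4} {Γ1 Γ2 Γ1' Γ2' : J → R4 → C3} {μ : J → ℝ} {f f' : J → R4 → R4}

/-- The jets of an affine map. -/
theorem Oj.af (a : ∀ j, Af (Γ1 j) (Γ2 j) (f j) (x j)) (h0 : Oj 0 x (fun j => fderiv ℝ (f j)) 1)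
    (m : ℕ) (h1 : Oj m x Γ1 1) (h2 : Oj m (fun j => f j (x j)) Γ2 1) :
    Oj (m + 1) x (fun j => fderiv ℝ (f j)) 1 := by
  have st : ∀ m, Oj m x (fun j => fderiv ℝ (f j)) 1 → Oj m x Γ1 1 →
      Oj m (fun j => f j (x j)) Γ2 1 → Oj (m + 1) x (fun j => fderiv ℝ (f j)) 1 :=
    fun m k h1 h2 => h0.succ ((((k.clm _).cl h1).sub (((Oj.comp (fun j => (a j).1) m
      (k.le (by omega)) h2).cl k).flip.cl k).flip).congr fun j => (a j).2)
  induction m with
  | zero => exact st 0 h0 h1 h2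
  | succ m ih => exact st _ (ih h1.pred h2.pred) h1 h2

/-- The second derivative of the difference of two affine maps. -/
theorem Oj.af_st (a : ∀ j, Af (Γ1 j) (Γ2 j) (f j) (x j)) (a' : ∀ j, Af (Γ1' j) (Γ2' j) (f' j) (x j))
    {S : J → Set R4} (hS : ∀ j, segment ℝ (f j (x j)) (f' j (x j)) ⊆ S j) {m : ℕ}
    (k : Oj m x (fun j => fderiv ℝ (f j)) 1) (k' : Oj m x (fun j => fderiv ℝ (f' j)) 1)
    (h1 : Oj m x Γ1 1) (d1 : Oj m x (fun j y => Γ1 j y - Γ1' j y) μ)
    (h2 : Os (m + 1) S Γ2' 1) (d2 : Oj m (fun j => f j (x j)) (fun j y => Γ2 j y - Γ2' j y) μ)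
    (d : Oj (m + 1) x (fun j y => f j y - f' j y) μ) :
    Oj m x (fun j => fderiv ℝ (fderiv ℝ fun y => f j y - f' j y)) μ := by
  have s := fun j => (a j).1
  have s' := fun j => (a' j).1
  have b1 := Oj.lip s s' hS m (k.le (by omega)) (k'.le (by omega)) d.pred h2
  rw [one_mul] at b1
  have b2 := (Oj.comp s m (k.le (by omega)) d2).add b1
  have b3 : Oj m x (fun j y => Γ2' j (f' j y)) 1 := Oj.comp s' m (k'.le (by omega))
    (h2.at id fun j => hS j (right_mem_segment ℝ _ _)).pred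
  refine ((((d.fd.clm (compL ℝ R4 R4 R4)).cl h1).add ((k'.clm (compL ℝ R4 R4 R4)).cr d1)).sub
    ((((b2.cl k).flip.cl k).flip.add ((Oj.cr b3 d.fd).flip.cl k).flip).add
    (Oj.cr (Oj.cl b3 k').flip d.fd).flip)).congr fun j => ?_
  have e : (fderiv ℝ fun y => f j y - f' j y) =ᶠ[𝓝 (x j)] fun y =>
      fderiv ℝ (f j) y - fderiv ℝ (f' j) y := by
    filter_upwards [ev_dif (s j), ev_dif (s' j)] with y h1 h2 using fderiv_fun_sub h1 h2
  filter_upwards [e.eventually_nhds, ev_dif (at_fd (s j)), ev_dif (at_fd (s' j)), (a j).2,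
    (a' j).2] with y h1 h2 h3 h4 h5
  rw [EventuallyEq.fderiv_eq h1, fderiv_fun_sub h2 h3, h4, h5, h1.self_of_nhds]
  refine ContinuousLinearMap.ext fun v => ContinuousLinearMap.ext fun w => ?_
  simp
  abel

/-- Gronwall along a segment. -/
theorem gron_seg {V : Type} [NormedAddCommGroup V] [NormedSpace ℝ V] {u : R4 → V} {p q : R4}
    {L C c δ : ℝ} (hC : 0 < C) (hc : 0 ≤ c) (hL : ‖p - q‖ ≤ L) (h0 : ‖u q‖ ≤ δ)
    (h : ∀ z ∈ segment ℝ q p, DifferentiableAt ℝ u z ∧ ‖fderiv ℝ u z‖ ≤ C * (‖u z‖ + c)) :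
    ‖u p‖ ≤ Real.exp (C * (L + 1)) * (δ + c) := by
  have L0 := (norm_nonneg _).trans hL
  have m : ∀ t ∈ Icc (0 : ℝ) 1, q + t • (p - q) ∈ segment ℝ q p := fun t ht => by
    rw [segment_eq_image']
    exact ⟨t, ht, rfl⟩
  have d : ∀ t ∈ Icc (0 : ℝ) 1, HasDerivAt (fun t : ℝ => u (q + t • (p - q)))
      (fderiv ℝ u (q + t • (p - q)) (p - q)) t := fun t ht =>
    (h _ (m t ht)).1.hasFDerivAt.comp_hasDerivAt t (by
      simpa using ((hasDerivAt_id t).smul_const (p - q)).const_add q)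
  have k := norm_le_gronwallBound_of_norm_deriv_right_le (K := C * (L + 1))
    (ε := C * (L + 1) * c) (δ := δ) (fun t ht => (d t ht).continuousAt.continuousWithinAt)
    (fun t ht => (d t (Ico_subset_Icc_self ht)).hasDerivWithinAt) (by simpa using h0)
    (fun t ht => by
      have a := (h _ (m t (Ico_subset_Icc_self ht))).2
      refine ((ContinuousLinearMap.le_opNorm _ _).trans (mul_le_mul a (hL.trans
        (le_add_of_nonneg_right zero_le_one)) (norm_nonneg _) (by positivity))).trans_eq ?_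
      ring) 1 (right_mem_Icc.2 zero_le_one)
  rw [gronwallBound_of_K_ne_0 (by positivity), mul_div_cancel_left₀ _ (by positivity)] at k
  simp only [one_smul, add_sub_cancel, sub_zero, mul_one] at k
  nlinarith

/-- RIGq: affine maps between close connections, which are close to first order at the base
points, are close. -/
theorem rigq {m : ℕ} {Ω S : J → Set R4} (π : J → R4 → R4) {L : ℝ}
    (hπ : ∀ j, ∀ p ∈ Ω j, segment ℝ (π j p) p ⊆ Ω j ∧ ‖p - π j p‖ ≤ L)
    (a : ∀ j, ∀ p ∈ Ω j, Af (Γ1 j) (Γ2 j) (f j) p) (a' : ∀ j, ∀ p ∈ Ω j, Af (Γ1' j) (Γ2' j) (f' j) p)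
    (hS : ∀ j, ∀ p ∈ Ω j, segment ℝ (f j p) (f' j p) ⊆ S j)
    (k : Os 0 Ω (fun j => fderiv ℝ (f j)) 1) (k' : Os 0 Ω (fun j => fderiv ℝ (f' j)) 1)
    (h1 : Os m Ω Γ1 1) (h1' : Os m Ω Γ1' 1) (d1 : Os m Ω (fun j y => Γ1 j y - Γ1' j y) μ)
    (h2 : Os m S Γ2 1) (h2' : Os (m + 1) S Γ2' 1) (d2 : Os m S (fun j y => Γ2 j y - Γ2' j y) μ)
    (d0 : Oj 1 (fun i : {i : J × R4 // i.2 ∈ Ω i.1} => π i.1.1 i.1.2)
      (fun i y => f i.1.1 y - f' i.1.1 y) fun i => μ i.1.1) :
    Os (m + 2) Ω (fun j y => f j y - f' j y) μ := by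
  let I := {i : J × R4 // i.2 ∈ Ω i.1}
  have A := fun i : I => a _ _ i.2
  have A' := fun i : I => a' _ _ i.2
  have hl := fun i : I => hS _ _ i.2 (left_mem_segment ℝ _ _)
  have hr := fun i : I => hS _ _ i.2 (right_mem_segment ℝ _ _)
  have K := Oj.af A k m h1 (h2.at _ hl)
  have K' := Oj.af A' k' m h1' (h2'.at _ hr).pred
  have H2 : ∀ n ≤ m, Os (n + 1) (fun i : I => S i.1.1) (fun i => Γ2' i.1.1) 1 := fun n hn =>
    (h2'.at (fun i : {i : I × R4 // i.2 ∈ S i.1.1.1} => i.1.1.1.1) fun i => i.2).le (by omega)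
  have sm : ∀ i : I, ContDiffAt ℝ ∞ (fun y => f i.1.1 y - f' i.1.1 y) i.1.2 :=
    fun i => (A i).1.sub (A' i).1
  let u : J → R4 → R4 × (R4 →L[ℝ] R4) := fun j y =>
    (f j y - f' j y, fderiv ℝ (fun y => f j y - f' j y) y)
  have us : ∀ i : I, ContDiffAt ℝ ∞ (u i.1.1) i.1.2 := fun i => (sm i).prodMk (at_fd (sm i))
  let ν : I → ℝ := fun i => ‖u i.1.1 i.1.2‖ + μ i.1.1
  have l : ∀ i : I, μ i.1.1 ≤ ν i := fun i => le_add_of_nonneg_left (norm_nonneg _)
  have l' : ∀ i : I, ‖u i.1.1 i.1.2‖ ≤ ν i := fun i => le_add_of_nonneg_right (d1.nn i)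
  have e1 : Oj 1 (fun i : I => i.1.2) (fun i y => f i.1.1 y - f' i.1.1 y) ν :=
    .of sm fun i => .succ ((norm_fst_le (u i.1.1 i.1.2)).trans (l' i))
      (.of_zero ((norm_snd_le (u i.1.1 i.1.2)).trans (l' i)))
  have e2 := Oj.af_st A A' (fun i => hS _ _ i.2) k k' (h1.le m.zero_le) (d1.mono m.zero_le l)
    (H2 0 m.zero_le) ((d2.at _ hl).mono m.zero_le l) e1
  have e3 : Oj 1 (fun i : I => i.1.2) (fun i => u i.1.1) ν := e1.pair (e1.fd.succ e2)
  obtain ⟨C, c0, hC⟩ := e3.fd.val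
  obtain ⟨B, b0, hB⟩ := (d0.pred.pair d0.fd).val
  have e4 : Oj 0 (fun i : I => i.1.2) (fun i => u i.1.1) fun i => μ i.1.1 := by
    refine .zero us d1.nn ⟨Real.exp ((C + 1) * (L + 1)) * (B + 1), fun i => ?_⟩
    refine (gron_seg (by positivity : 0 < C + 1) (d1.nn i) (hπ _ _ i.2).2 (hB i)
      fun z hz => ?_).trans_eq (by ring)
    let i' : I := ⟨(i.1.1, z), (hπ _ _ i.2).1 hz⟩
    exact ⟨(us i').differentiableAt (by simp), (hC i').trans
      (mul_le_mul_of_nonneg_right (by linarith) (e1.nn i'))⟩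
  have e5 := e4.clm (.fst ℝ _ _)
  have e6 := e4.clm (.snd ℝ _ _)
  have st : ∀ n ≤ m + 1, Oj (n + 1) (fun i : I => i.1.2) (fun i y => f i.1.1 y - f' i.1.1 y)
      fun i => μ i.1.1 := by
    intro n hn
    induction n with
    | zero => exact e5.succ e6
    | succ n ih =>
      exact e5.succ (e6.succ (Oj.af_st A A' (fun i => hS _ _ i.2) (K.le (by omega))
        (K'.le (by omega)) (h1.le (by omega)) (d1.le (by omega)) (H2 n (by omega))
        ((d2.at _ hl).le (by omega)) (ih (by omega))))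
  exact st _ le_rfl

end rig

end Vale.Agent.P354YI
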