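import Vale.Agent.P354YI.Defs

/-!
The metric on the collar which INIT delivers, and the properties of the gauge which it uses.
-/

open scoped ContDiff
open Set Filter Topology

noncomputable section

namespace Vale.Agent.P354YI

open Vale.Agent.P354n (R4)
open Vale.Agent.P354I (rp)
open Vale.Agent.P354R (Pull)
open Vale.Agent.P354XE (Tw rd gin Lo En ka)
open Vale.Agent.P354XV (Lv Spl Gq jet Jet Col)
open Vale.Agent.P354YR (DI)
open Vale.Agent.P354YT (Pm)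

/-- The slice T = 0 in the ingoing chart. -/
def Sig0 (M a : ℝ) : Set R4 := {p | rp M a < rd p ∧ p.1 = P354YT.tb M a (rd p)}

/-- The closed band between the bottom of the end and the top of the collar. -/
def Ab (c : Pm) (θ : ℝ) : Set R4 := {p | p ∈ En c.M c.a c.r1 θ ∧ c.psi p ≤ 1}

/-- The good metrics on the collar; W is the initial velocity. -/
structure Cg (c : Pm) (N : P354XV.Nat) (k : ℕ) (W : R4 × Jet k → R4) (θ θ1 : ℝ) (m : ℕ) (e : ℝ)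
    (gc : Tw) : Prop where
  lv : ∃ W0, Lv gc W0 ∧ Ab c θ ⊆ W0
  col : Col N c.sc gc
  sml : ∀ p ∈ Ab c θ, Sm m e (gc - gin c.M c.a) p
  gau : ∀ p ∈ Ab c θ, 3 / 2 * θ1 ≤ Real.exp (ka c.M c.a * p.1) → ∀ᶠ x in 𝓝 p, Gq N x gc c.X x
  ini : ∀ p ∈ Sig0 c.M c.a, 3 / 2 * θ1 ≤ Real.exp (ka c.M c.a * p.1) →
    c.X p = W (p, jet k gc p) ∧
      (c.R1 + 2 ≤ rd p → ∀ v, gc p (Lo c.M c.a p) v = gin c.M c.a p (Lo c.M c.a p) v)

/-- What INIT uses of the gauge N and of the initial velocity W, which is smooth on U. -/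
structure Nk (c : Pm) (N : P354XV.Nat) (k : ℕ) (U : Set (R4 × Jet k)) (W : R4 × Jet k → R4) :
    Prop where
  is : N.Is
  ker : ∀ p ∈ DI c.M c.a, Gq N p (gin c.M c.a) c.X p ∧
    (p, jet N.m (gin c.M c.a) p, c.X p) ∈ interior N.Mg
  far : ∀ z : R4 × Jet N.m × R4, c.R1 + 2 ≤ rd z.1 → z ∈ N.Mg ∧ N.F z = 0
  opn : IsOpen U
  sm : ContDiffOn ℝ ∞ W U
  kw : ∀ p ∈ Sig0 c.M c.a, (p, jet k (gin c.M c.a) p) ∈ U ∧ W (p, jet k (gin c.M c.a) p) = c.X p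
  nat : ∀ b g' D' g D, Pull b g' D' g D → Lv g D → ∀ p ∈ D', p ∈ Sig0 c.M c.a →
    0 < LinearMap.det (fderiv ℝ b p : R4 →ₗ[ℝ] R4) → (∀ᶠ x in 𝓝 p, x ∈ Sig0 c.M c.a → b x = x) →
    (p, jet k g p) ∈ U → fderiv ℝ b p (W (p, jet k g' p)) = W (p, jet k g p)
  wfar : ∀ g D, Lv g D → ∀ p ∈ D, p ∈ Sig0 c.M c.a → c.R1 + 2 ≤ rd p →
    Spl g (fun x => x.1 - P354YT.tb c.M c.a (rd x)) p →
    (W (p, jet k g p) = Lo c.M c.a p ↔
      ∀ v, g p (Lo c.M c.a p) v = gin c.M c.a p (Lo c.M c.a p) v)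

/-- The parameters which INIT accepts. -/
def Ad (c : Pm) (R0 : ℝ) : Prop := c.Ok ∧ R0 ≤ c.R1 ∧ c.R1 + 2 ≤ c.Rb ∧ R0 * c.del ≤ 1

end Vale.Agent.P354YI
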