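import Mathlib

/-!
Calculus of jets for families of smooth maps, with hidden uniform constants.
-/

set_option maxSynthPendingDepth 3

open scoped ContDiff
open Set Filter Topology

namespace Vale.Agent.P354YI

section point
variable {E V W : Type} [NormedAddCommGroup E] [NormedSpace ℝ E] [NormedAddCommGroup V]
  [NormedSpace ℝ V] [NormedAddCommGroup W] [NormedSpace ℝ W]

/-- The derivatives of f of order at most m at x are at most c. -/
def Jb (m : ℕ) (f : E → V) (x : E) (c : ℝ) : Prop := ∀ k ≤ m, ‖iteratedFDeriv ℝ k f x‖ ≤ c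

variable {m m' : ℕ} {f g : E → V} {x : E} {c c' : ℝ}

theorem Jb.mono (h : Jb m f x c) (hm : m' ≤ m) (hc : c ≤ c') : Jb m' f x c' :=
  fun k hk => (h k (hk.trans hm)).trans hc

theorem Jb.zero (h : Jb m f x c) : ‖f x‖ ≤ c := by
  simpa using h 0 (Nat.zero_le _)

theorem Jb.nonneg (h : Jb m f x c) : 0 ≤ c := (norm_nonneg _).trans h.zero

theorem Jb.fd (h : Jb (m + 1) f x c) : Jb m (fderiv ℝ f) x c := fun k hk => by
  rw [norm_iteratedFDeriv_fderiv]
  exact h _ (by omega)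

theorem Jb.of_zero (h : ‖f x‖ ≤ c) : Jb 0 f x c := fun k hk => by
  obtain rfl := Nat.le_zero.1 hk
  simpa using h

theorem Jb.succ (h0 : ‖f x‖ ≤ c) (h : Jb m (fderiv ℝ f) x c) : Jb (m + 1) f x c := fun k hk => by
  cases k with
  | zero => simpa using h0
  | succ k =>
    rw [← norm_iteratedFDeriv_fderiv]
    exact h k (by omega)

theorem Jb.congr (h : Jb m f x c) (e : g =ᶠ[𝓝 x] f) : Jb m g x c := fun k hk => by
  rw [(e.iteratedFDeriv ℝ k).eq_of_nhds]
  exact h k hk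

theorem le_inf (k : ℕ) : (k : WithTop ℕ∞) ≤ ∞ := by exact_mod_cast le_top

theorem Jb.add (h : Jb m f x c) (h' : Jb m g x c') (hf : ContDiffAt ℝ ∞ f x)
    (hg : ContDiffAt ℝ ∞ g x) : Jb m (fun y => f y + g y) x (c + c') := fun k hk => by
  rw [fun_iteratedFDeriv_add_apply (hf.of_le (le_inf k)) (hg.of_le (le_inf k))]
  exact (norm_add_le _ _).trans (add_le_add (h k hk) (h' k hk))

theorem Jb.clm (L : V →L[ℝ] W) (h : Jb m f x c) (hf : ContDiffAt ℝ ∞ f x) :
    Jb m (fun y => L (f y)) x (‖L‖ * c) := fun k hk =>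
  (L.norm_iteratedFDeriv_comp_left hf (le_inf k)).trans
    (mul_le_mul_of_nonneg_left (h k hk) (norm_nonneg _))

theorem jb_const (m : ℕ) (v : V) (x : E) : Jb m (fun _ => v) x ‖v‖ := fun k _ => by
  cases k with
  | zero => simp
  | succ k => simp [iteratedFDeriv_succ_const]

theorem at_fd (hf : ContDiffAt ℝ ∞ f x) : ContDiffAt ℝ ∞ (fderiv ℝ f) x :=
  hf.fderiv_right (m := ∞) (by exact_mod_cast le_top)

theorem at_bil {U : Type} [NormedAddCommGroup U] [NormedSpace ℝ U] (L : V →L[ℝ] W →L[ℝ] U)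
    {g : E → W} (hf : ContDiffAt ℝ ∞ f x) (hg : ContDiffAt ℝ ∞ g x) :
    ContDiffAt ℝ ∞ (fun y => L (f y) (g y)) x := (L.contDiff.contDiffAt.comp x hf).clm_apply hg

theorem at_comp {G : V → W} (hG : ContDiffAt ℝ ∞ G (f x)) (hf : ContDiffAt ℝ ∞ f x) :
    ContDiffAt ℝ ∞ (fun y => G (f y)) x := hG.comp x hf

theorem ev_dif (hf : ContDiffAt ℝ ∞ f x) : ∀ᶠ y in 𝓝 x, DifferentiableAt ℝ f y :=
  ((hf.of_le (le_inf 1)).eventually (by simp)).mono fun _ h => h.differentiableAt (by simp)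

theorem at_iter (hf : ContDiffAt ℝ ∞ f x) (k : ℕ) : ContinuousAt (iteratedFDeriv ℝ k f) x :=
  (hf.iteratedFDeriv_right (m := 0) (by exact_mod_cast le_top)).continuousAt

/-- Smooth functions have bounded jets on compact sets. -/
theorem ex_jb (m : ℕ) {K : Set E} (hK : IsCompact K) (hf : ∀ x ∈ K, ContDiffAt ℝ ∞ f x) :
    ∃ c, 0 ≤ c ∧ ∀ x ∈ K, Jb m f x c := by
  choose b hb using fun k : ℕ => hK.exists_bound_of_continuousOn
    (f := iteratedFDeriv ℝ k f) fun x hx => (at_iter (hf x hx) k).continuousWithinAt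
  refine ⟨∑ k ∈ Finset.range (m + 1), |b k|, by positivity, fun x hx k hk => ?_⟩
  exact ((hb k x hx).trans (le_abs_self _)).trans (Finset.single_le_sum
    (f := fun k => |b k|) (fun _ _ => abs_nonneg _) (Finset.mem_range.2 (by omega)))

end point

theorem jb_bil {E : Type} [NormedAddCommGroup E] [NormedSpace ℝ E] (m : ℕ) :
    ∀ {V W U : Type} [NormedAddCommGroup V] [NormedSpace ℝ V] [NormedAddCommGroup W]
      [NormedSpace ℝ W] [NormedAddCommGroup U] [NormedSpace ℝ U] (L : V →L[ℝ] W →L[ℝ] U)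
      {f : E → V} {g : E → W} {x : E} {c c' : ℝ}, Jb m f x c → Jb m g x c' →
      ContDiffAt ℝ ∞ f x → ContDiffAt ℝ ∞ g x →
      Jb m (fun y => L (f y) (g y)) x (2 ^ m * ‖L‖ * (c * c')) := by
  induction m with
  | zero =>
    intro V W U _ _ _ _ _ _ L f g x c c' h h' _ _
    refine .of_zero ((L.le_opNorm₂ _ _).trans ?_)
    rw [pow_zero, one_mul, mul_assoc]
    exact mul_le_mul_of_nonneg_left (mul_le_mul h.zero h'.zero (norm_nonneg _) h.nonneg)
      (norm_nonneg _)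
  | succ m ih =>
    intro V W U _ _ _ _ _ _ L f g x c c' h h' hf hg
    have k0 := mul_nonneg h.nonneg h'.nonneg
    have k1 := mul_nonneg (norm_nonneg L) k0
    refine .succ ((L.le_opNorm₂ _ _).trans ?_) ?_
    · rw [mul_assoc, mul_assoc]
      exact (mul_le_mul_of_nonneg_left (mul_le_mul h.zero h'.zero (norm_nonneg _) h.nonneg)
        (norm_nonneg _)).trans (le_mul_of_one_le_left k1 (one_le_pow₀ one_le_two))
    have a := ih (L.precompR E) (h.mono (Nat.le_succ m) le_rfl) h'.fd hf (at_fd hg)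
    have b := ih (L.precompL E) h.fd (h'.mono (Nat.le_succ m) le_rfl) (at_fd hf) hg
    refine ((a.add b (at_bil _ hf (at_fd hg)) (at_bil _ (at_fd hf) hg)).congr ?_).mono le_rfl ?_
    · filter_upwards [ev_dif hf, ev_dif hg] with y h1 h2 using L.fderiv_of_bilinear h1 h2
    · have p : (0 : ℝ) ≤ 2 ^ m := by positivity
      have e1 := mul_le_mul_of_nonneg_right
        (mul_le_mul_of_nonneg_left (L.norm_precompR_le E) p) k0
      have e2 := mul_le_mul_of_nonneg_right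
        (mul_le_mul_of_nonneg_left (L.norm_precompL_le E) p) k0
      rw [pow_succ]
      linarith

section family
variable {J E V W U : Type} [NormedAddCommGroup E] [NormedSpace ℝ E] [NormedAddCommGroup V]
  [NormedSpace ℝ V] [NormedAddCommGroup W] [NormedSpace ℝ W] [NormedAddCommGroup U]
  [NormedSpace ℝ U]

/-- The jets of order m of the maps f j at the points x j are O(μ j), uniformly in j. -/
structure Oj (m : ℕ) (x : J → E) (f : J → E → V) (μ : J → ℝ) : Prop where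
  sm : ∀ j, ContDiffAt ℝ ∞ (f j) (x j)
  nn : ∀ j, 0 ≤ μ j
  bd : ∃ C, 0 ≤ C ∧ ∀ j, Jb m (f j) (x j) (C * μ j)

variable {m m' : ℕ} {x : J → E} {f g : J → E → V} {μ ν : J → ℝ}

theorem Oj.of (hs : ∀ j, ContDiffAt ℝ ∞ (f j) (x j)) (h : ∀ j, Jb m (f j) (x j) (μ j)) :
    Oj m x f μ := ⟨hs, fun j => (h j).nonneg, 1, zero_le_one, fun j => (one_mul (μ j)).symm ▸ h j⟩

theorem Oj.of1 {B : ℝ} (hs : ∀ j, ContDiffAt ℝ ∞ (f j) (x j)) (h : ∀ j, Jb m (f j) (x j) B) :
    Oj m x f 1 := ⟨hs, fun _ => zero_le_one, |B|, abs_nonneg _, fun j =>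
      (h j).mono le_rfl ((le_abs_self B).trans (mul_one _).ge)⟩

theorem Oj.mono (h : Oj m x f μ) (hm : m' ≤ m) (hμ : ∀ j, μ j ≤ ν j) : Oj m' x f ν :=
  let ⟨C, c0, hC⟩ := h.bd
  ⟨h.sm, fun j => (h.nn j).trans (hμ j), C, c0, fun j =>
    (hC j).mono hm (mul_le_mul_of_nonneg_left (hμ j) c0)⟩

theorem Oj.le (h : Oj m x f μ) (hm : m' ≤ m) : Oj m' x f μ := h.mono hm fun _ => le_rfl

theorem Oj.pred (h : Oj (m + 1) x f μ) : Oj m x f μ := h.le (Nat.le_succ m)

/-- The weight may be changed by a constant factor. -/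
theorem Oj.wt (h : Oj m x f μ) {c : ℝ} (hν : ∀ j, 0 ≤ ν j) (hμ : ∀ j, μ j ≤ c * ν j) :
    Oj m x f ν :=
  let ⟨C, c0, hC⟩ := h.bd
  ⟨h.sm, hν, C * |c|, by positivity, fun j => (hC j).mono le_rfl (by
    rw [mul_assoc]
    exact mul_le_mul_of_nonneg_left ((hμ j).trans
      (mul_le_mul_of_nonneg_right (le_abs_self c) (hν j))) c0)⟩

theorem Oj.congr (h : Oj m x f μ) (e : ∀ j, g j =ᶠ[𝓝 (x j)] f j) : Oj m x g μ :=
  let ⟨C, c0, hC⟩ := h.bd
  ⟨fun j => (h.sm j).congr_of_eventuallyEq (e j), h.nn, C, c0, fun j => (hC j).congr (e j)⟩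

theorem Oj.congr' (h : Oj m x f μ) (e : ∀ j y, g j y = f j y) : Oj m x g μ :=
  h.congr fun j => .of_forall (e j)

/-- Change of the index set. -/
theorem Oj.ix {I : Type} (h : Oj m x f μ) (φ : I → J) :
    Oj m (fun i => x (φ i)) (fun i => f (φ i)) fun i => μ (φ i) :=
  let ⟨C, c0, hC⟩ := h.bd
  ⟨fun _ => h.sm _, fun _ => h.nn _, C, c0, fun _ => hC _⟩

theorem Oj.val (h : Oj m x f μ) : ∃ C, 0 ≤ C ∧ ∀ j, ‖f j (x j)‖ ≤ C * μ j :=
  let ⟨C, c0, hC⟩ := h.bd
  ⟨C, c0, fun j => (hC j).zero⟩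

theorem Oj.fd (h : Oj (m + 1) x f μ) : Oj m x (fun j => fderiv ℝ (f j)) μ :=
  let ⟨C, c0, hC⟩ := h.bd
  ⟨fun j => at_fd (h.sm j), h.nn, C, c0, fun j => (hC j).fd⟩

theorem Oj.zero (hs : ∀ j, ContDiffAt ℝ ∞ (f j) (x j)) (hμ : ∀ j, 0 ≤ μ j)
    (h : ∃ C, ∀ j, ‖f j (x j)‖ ≤ C * μ j) : Oj 0 x f μ :=
  let ⟨C, hC⟩ := h
  ⟨hs, hμ, |C|, abs_nonneg _, fun j => .of_zero ((hC j).trans
    (mul_le_mul_of_nonneg_right (le_abs_self C) (hμ j)))⟩

theorem Oj.succ (h0 : Oj 0 x f μ) (h : Oj m x (fun j => fderiv ℝ (f j)) μ) :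
    Oj (m + 1) x f μ :=
  let ⟨C, c0, hC⟩ := h0.val
  let ⟨C', _, hC'⟩ := h.bd
  ⟨h0.sm, h.nn, max C C', le_max_of_le_left c0, fun j => .succ
    ((hC j).trans (mul_le_mul_of_nonneg_right (le_max_left _ _) (h.nn j)))
    ((hC' j).mono le_rfl (mul_le_mul_of_nonneg_right (le_max_right _ _) (h.nn j)))⟩

theorem Oj.add (h : Oj m x f μ) (h' : Oj m x g μ) : Oj m x (fun j y => f j y + g j y) μ :=
  let ⟨C, c0, hC⟩ := h.bd
  let ⟨C', c0', hC'⟩ := h'.bd
  ⟨fun j => (h.sm j).add (h'.sm j), h.nn, C + C', add_nonneg c0 c0', fun j =>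
    add_mul C C' _ ▸ (hC j).add (hC' j) (h.sm j) (h'.sm j)⟩

theorem Oj.clm (L : V →L[ℝ] W) (h : Oj m x f μ) : Oj m x (fun j y => L (f j y)) μ :=
  let ⟨C, c0, hC⟩ := h.bd
  ⟨fun j => L.contDiff.contDiffAt.comp _ (h.sm j), h.nn, ‖L‖ * C, by positivity, fun j =>
    mul_assoc ‖L‖ C _ ▸ (hC j).clm L (h.sm j)⟩

theorem Oj.neg (h : Oj m x f μ) : Oj m x (fun j y => -f j y) μ :=
  h.clm (-ContinuousLinearMap.id ℝ V)

theorem Oj.sub (h : Oj m x f μ) (h' : Oj m x g μ) : Oj m x (fun j y => f j y - g j y) μ :=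
  (h.add h'.neg).congr' fun _ _ => sub_eq_add_neg _ _

theorem Oj.symm (h : Oj m x (fun j y => f j y - g j y) μ) :
    Oj m x (fun j y => g j y - f j y) μ := h.neg.congr' fun _ _ => (neg_sub _ _).symm

theorem Oj.tri {k : J → E → V} (h : Oj m x (fun j y => f j y - g j y) μ)
    (h' : Oj m x (fun j y => g j y - k j y) μ) : Oj m x (fun j y => f j y - k j y) μ :=
  (h.add h').congr' fun _ _ => (sub_add_sub_cancel _ _ _).symm

theorem Oj.const {v : J → V} (hμ : ∀ j, 0 ≤ μ j) (h : ∃ C, ∀ j, ‖v j‖ ≤ C * μ j) :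
    Oj m x (fun j _ => v j) μ :=
  let ⟨C, hC⟩ := h
  ⟨fun _ => contDiffAt_const, hμ, |C|, abs_nonneg _, fun j => (jb_const m (v j) _).mono le_rfl
    ((hC j).trans (mul_le_mul_of_nonneg_right (le_abs_self C) (hμ j)))⟩

theorem Oj.cst (v : V) : Oj m x (fun _ _ => v) 1 :=
  .const (fun _ => zero_le_one) ⟨‖v‖, fun _ => (mul_one _).ge⟩

theorem Oj.sum {ι : Type} (s : Finset ι) {F : ι → J → E → V} (hμ : ∀ j, 0 ≤ μ j)
    (h : ∀ i ∈ s, Oj m x (F i) μ) : Oj m x (fun j y => ∑ i ∈ s, F i j y) μ := by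
  classical
  induction s using Finset.induction_on with
  | empty => exact (Oj.const (v := fun _ => 0) hμ ⟨0, by simp⟩).congr' (by simp)
  | insert a s ha ih =>
    exact ((h a (Finset.mem_insert_self _ _)).add
      (ih fun i hi => h i (Finset.mem_insert_of_mem hi))).congr' fun _ _ => Finset.sum_insert ha

theorem Oj.bil (L : V →L[ℝ] W →L[ℝ] U) {g : J → E → W} (h : Oj m x f μ) (h' : Oj m x g ν) :
    Oj m x (fun j y => L (f j y) (g j y)) (μ * ν) :=
  let ⟨C, c0, hC⟩ := h.bd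
  let ⟨C', c0', hC'⟩ := h'.bd
  ⟨fun j => (L.contDiff.contDiffAt.comp _ (h.sm j)).clm_apply (h'.sm j),
    fun j => mul_nonneg (h.nn j) (h'.nn j), 2 ^ m * ‖L‖ * (C * C'), by positivity, fun j =>
    (jb_bil m L (hC j) (hC' j) (h.sm j) (h'.sm j)).mono le_rfl (le_of_eq (by
      simp only [Pi.mul_apply]
      ring))⟩

theorem Oj.ap {A : J → E → V →L[ℝ] W} (h : Oj m x A μ) (h' : Oj m x f ν) :
    Oj m x (fun j y => A j y (f j y)) (μ * ν) := h.bil (.id ℝ _) h'

theorem Oj.apl {A : J → E → V →L[ℝ] W} (h : Oj m x A μ) (h' : Oj m x f 1) :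
    Oj m x (fun j y => A j y (f j y)) μ := by simpa using h.ap h'

theorem Oj.apr {A : J → E → V →L[ℝ] W} (h : Oj m x A 1) (h' : Oj m x f μ) :
    Oj m x (fun j y => A j y (f j y)) μ := by simpa using h.ap h'

theorem Oj.cl {A : J → E → W →L[ℝ] U} {B : J → E → V →L[ℝ] W} (h : Oj m x A μ) (h' : Oj m x B 1) :
    Oj m x (fun j y => (A j y).comp (B j y)) μ := by
  simpa using h.bil (ContinuousLinearMap.compL ℝ V W U) h'

theorem Oj.cr {A : J → E → W →L[ℝ] U} {B : J → E → V →L[ℝ] W} (h : Oj m x A 1) (h' : Oj m x B μ) :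
    Oj m x (fun j y => (A j y).comp (B j y)) μ := by
  simpa using h.bil (ContinuousLinearMap.compL ℝ V W U) h'

theorem Oj.smull {a : J → E → ℝ} (h : Oj m x a μ) (h' : Oj m x f 1) :
    Oj m x (fun j y => a j y • f j y) μ := by
  simpa using h.bil (ContinuousLinearMap.lsmul ℝ ℝ) h'

theorem Oj.smulr {a : J → E → ℝ} (h : Oj m x a 1) (h' : Oj m x f μ) :
    Oj m x (fun j y => a j y • f j y) μ := by
  simpa using h.bil (ContinuousLinearMap.lsmul ℝ ℝ) h'

theorem Oj.pair {g : J → E → W} (h : Oj m x f μ) (h' : Oj m x g μ) :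
    Oj m x (fun j y => (f j y, g j y)) μ :=
  ((h.clm (.inl ℝ V W)).add (h'.clm (.inr ℝ V W))).congr' (by simp)

/-- A fixed smooth function near a compact set. -/
theorem Oj.fix {K : Set E} (hK : IsCompact K) {F : E → V} (hF : ∀ y ∈ K, ContDiffAt ℝ ∞ F y)
    (hx : ∀ j, x j ∈ K) : Oj m x (fun _ => F) 1 :=
  let ⟨_, _, hc⟩ := ex_jb m hK hF
  .of1 (fun j => hF _ (hx j)) fun j => hc _ (hx j)

/-- Maps with bounded derivative. -/
theorem Oj.idm {y : J → E} (h : ∃ C, ∀ j, ‖x j - y j‖ ≤ C) : Oj m x (fun j z => z - y j) 1 := by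
  have s : ∀ j, ContDiffAt ℝ ∞ (fun z => z - y j) (x j) := fun _ => contDiffAt_id.sub contDiffAt_const
  have h0 : Oj 0 x (fun j z => z - y j) 1 := .zero s (fun _ => zero_le_one) (by simpa using h)
  cases m with
  | zero => exact h0
  | succ m => exact h0.succ ((Oj.cst (.id ℝ E)).congr' fun j z => by rw [fderiv_sub_const, fderiv_fun_id])

end family

section comp
variable {J E V : Type} [NormedAddCommGroup E] [NormedSpace ℝ E] [NormedAddCommGroup V]
  [NormedSpace ℝ V] {x : J → E} {f f' : J → E → V} {μ : J → ℝ}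

theorem fd_comp {W : Type} [NormedAddCommGroup W] [NormedSpace ℝ W] {G : V → W} {f : E → V}
    {x : E} (hG : ContDiffAt ℝ ∞ G (f x)) (hf : ContDiffAt ℝ ∞ f x) :
    fderiv ℝ (fun y => G (f y)) =ᶠ[𝓝 x] fun y => (fderiv ℝ G (f y)).comp (fderiv ℝ f y) := by
  filter_upwards [ev_dif hf, hf.continuousAt.eventually (ev_dif hG)] with y h1 h2 using
    fderiv_comp y h2 h1

/-- Composition; only the derivative of the inner map has to be bounded. -/
theorem Oj.comp (hs : ∀ j, ContDiffAt ℝ ∞ (f j) (x j)) (m : ℕ) :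
    ∀ {W : Type} [NormedAddCommGroup W] [NormedSpace ℝ W] {G : J → V → W},
      Oj (m - 1) x (fun j => fderiv ℝ (f j)) 1 → Oj m (fun j => f j (x j)) G μ →
      Oj m x (fun j y => G j (f j y)) μ := by
  induction m with
  | zero =>
    intro W _ _ G _ hG
    exact .zero (fun j => (hG.sm j).comp _ (hs j)) hG.nn (hG.val.imp fun _ h => h.2)
  | succ m ih =>
    intro W _ _ G hf hG
    exact Oj.succ (.zero (fun j => (hG.sm j).comp _ (hs j)) hG.nn (hG.val.imp fun _ h => h.2))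
      (((ih (hf.le (by omega)) hG.fd).cl hf).congr fun j => fd_comp (hG.sm j) (hs j))

/-- The jets are O(μ j) at all points of the sets S j. -/
abbrev Os {W : Type} [NormedAddCommGroup W] [NormedSpace ℝ W] (m : ℕ) (S : J → Set V)
    (G : J → V → W) (μ : J → ℝ) : Prop :=
  Oj m (fun i : {i : J × V // i.2 ∈ S i.1} => i.1.2) (fun i => G i.1.1) fun i => μ i.1.1

theorem Os.at {W I : Type} [NormedAddCommGroup W] [NormedSpace ℝ W] {m : ℕ} {S : J → Set V}
    {G : J → V → W} (h : Os m S G μ) (φ : I → J) {y : I → V} (hy : ∀ i, y i ∈ S (φ i)) :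
    Oj m y (fun i => G (φ i)) fun i => μ (φ i) := h.ix fun i => ⟨(φ i, y i), hy i⟩

theorem Os.of {W : Type} [NormedAddCommGroup W] [NormedSpace ℝ W] {m : ℕ} {S : J → Set V}
    {G : J → V → W} (hs : ∀ j, ∀ y ∈ S j, ContDiffAt ℝ ∞ (G j) y)
    (h : ∀ j, ∀ y ∈ S j, Jb m (G j) y (μ j)) : Os m S G μ :=
  Oj.of (fun i => hs _ _ i.2) fun i => h _ _ i.2

theorem Os.bd {W : Type} [NormedAddCommGroup W] [NormedSpace ℝ W] {m : ℕ} {S : J → Set V}
    {G : J → V → W} (h : Os m S G μ) : ∃ C, 0 ≤ C ∧ ∀ j, ∀ y ∈ S j, Jb m (G j) y (C * μ j) :=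
  let ⟨C, c0, hC⟩ := Oj.bd h
  ⟨C, c0, fun j y hy => hC ⟨(j, y), hy⟩⟩

/-- Lipschitz dependence on the inner map. -/
theorem Oj.lip (hs : ∀ j, ContDiffAt ℝ ∞ (f j) (x j)) (hs' : ∀ j, ContDiffAt ℝ ∞ (f' j) (x j))
    {S : J → Set V} (hS : ∀ j, segment ℝ (f j (x j)) (f' j (x j)) ⊆ S j) {ν : J → ℝ} (m : ℕ) :
    ∀ {W : Type} [NormedAddCommGroup W] [NormedSpace ℝ W] {G : J → V → W},
      Oj (m - 1) x (fun j => fderiv ℝ (f j)) 1 → Oj (m - 1) x (fun j => fderiv ℝ (f' j)) 1 →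
      Oj m x (fun j y => f j y - f' j y) μ → Os (m + 1) S G ν →
      Oj m x (fun j y => G j (f j y) - G j (f' j y)) (ν * μ) := by
  have l := fun j => hS j (left_mem_segment ℝ _ _)
  have r := fun j => hS j (right_mem_segment ℝ _ _)
  have base : ∀ {W : Type} [NormedAddCommGroup W] [NormedSpace ℝ W] {G : J → V → W} {m n : ℕ},
      Oj n x (fun j y => f j y - f' j y) μ → Os (m + 1) S G ν →
      Oj 0 x (fun j y => G j (f j y) - G j (f' j y)) (ν * μ) := by
    intro W _ _ G m n h hG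
    obtain ⟨C, c0, hC⟩ := h.val
    obtain ⟨B, b0, hB⟩ := hG.bd
    have n0 : ∀ j, 0 ≤ ν j := (hG.at id l).nn
    refine .zero (fun j => (at_comp ((hG.at id l).sm j) (hs j)).sub
      (at_comp ((hG.at id r).sm j) (hs' j))) (fun j => mul_nonneg (n0 j) (h.nn j))
      ⟨B * C, fun j => ?_⟩
    refine ((convex_segment _ _).norm_image_sub_le_of_norm_fderiv_le (𝕜 := ℝ) (f := G j)
      (C := B * ν j) (fun z hz => (hG.sm ⟨(j, z), hS j hz⟩).differentiableAt (by simp))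
      (fun z hz => (hB j z (hS j hz)).fd.zero) (right_mem_segment _ _ _)
      (left_mem_segment _ _ _)).trans ?_
    exact (mul_le_mul_of_nonneg_left (hC j) (mul_nonneg b0 (n0 j))).trans_eq (by
      simp only [Pi.mul_apply]
      ring)
  induction m with
  | zero => exact fun _ _ h hG => base h hG
  | succ m ih =>
    intro W _ _ G hf hf' h hG
    have a := (ih (G := fun j => fderiv ℝ (G j)) (hf.le (by omega)) (hf'.le (by omega)) h.pred
      hG.fd).cl hf
    have b := (Oj.comp hs' m (hf'.le (by omega)) (hG.at id r).fd.pred).bil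
      (ContinuousLinearMap.compL ℝ E V W) h.fd
    have sl := (hG.at id l).sm
    have sr := (hG.at id r).sm
    refine (base h hG).succ ((a.add b).congr fun j => ?_)
    filter_upwards [fd_comp (sl j) (hs j), fd_comp (sr j) (hs' j), ev_dif (at_comp (sl j) (hs j)),
      ev_dif (at_comp (sr j) (hs' j)), ev_dif (hs j), ev_dif (hs' j)] with y h1 h2 h3 h4 h5 h6
    simp only [id] at h1 h2 h3 h4 ⊢
    rw [fderiv_fun_sub h3 h4, h1, h2, fderiv_fun_sub h5 h6, ContinuousLinearMap.compL_apply,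
      ContinuousLinearMap.sub_comp, ContinuousLinearMap.comp_sub, sub_add_sub_cancel]

end comp

end Vale.Agent.P354YI
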