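import Vale.Agent.P354YI.Jet
import Vale.Agent.P354XV.Cont
import Vale.Agent.P354YT.Defs
import Vale.Agent.P354XD.Base

/-!
The pieces of INIT: one step of local existence near a reference solution, stability for a finite
time, the core, the change of gauge, the far band. Exact statements.
-/

set_option maxSynthPendingDepth 3

open scoped ContDiff
open Set Filter Topology

noncomputable section

namespace Vale.Agent.P354YI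

open Vale.Agent.P354n (R4)
open Vale.Agent.P354I (X Dat)
open Vale.Agent.P354R (Pull chr)
open Vale.Agent.P354XS (BA)
open Vale.Agent.P354XD (tb)
open Vale.Agent.P354XE (Tw pt xs rd eT Bd pb gin Lo)
open Vale.Agent.P354XV (Lv Nice In0 CnAt Spl Gq jet)
open Vale.Agent.P354YR (gK DK DE ci)

/-- The data are smooth and symmetric, and solve the constraints at y. -/
structure Gd (d : Dat) (y : X) : Prop where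
  sm : ∀ i j, ContDiffAt ℝ ∞ (fun z => d.h z i j) y ∧ ContDiffAt ℝ ∞ (fun z => d.K z i j) y
  sy : (d.h y).IsSymm ∧ (d.K y).IsSymm
  cn : CnAt d y

/-- The data are close at y. -/
def Cls (m : ℕ) (ε : ℝ) (d d' : Dat) (y : X) : Prop :=
  ∀ i j, Jb m (fun z => d.h z i j - d'.h z i j) y ε ∧ Jb m (fun z => d.K z i j - d'.K z i j) y ε

/-- INDL: the induced data depend Lipschitz continuously on the metric. -/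
def INDL : Prop :=
  ∀ (m : ℕ) (B : ℝ), ∃ C, ∀ g D g0 D0 d d0 (U : Set X) ε, IsOpen U → Lv g D → Lv g0 D0 →
    (∀ y ∈ U, pt 0 y ∈ D ∧ pt 0 y ∈ D0 ∧ In0 g d y ∧ In0 g0 d0 y ∧
      Nice (m + 1) B g Prod.fst (pt 0 y) ∧ Nice (m + 1) B g0 Prod.fst (pt 0 y) ∧
      Bd (m + 1) (g - g0) (pt 0 y) ε) → ∀ y ∈ U, Gd d y ∧ Cls m (C * ε) d d0 y

/-- A reference solution g0 with the data d0 and a lid function Φ, with bounds. -/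
structure Ref (m : ℕ) (B a : ℝ) (K U : Set X) (g0 : Tw) (D0 : Set R4) (Φ : R4 → ℝ) (d0 : Dat) :
    Prop where
  lv : Lv g0 D0
  sm : ContDiff ℝ ∞ Φ
  base : ∀ y ∈ K, pt 0 y ∈ D0 ∧ Nice m B g0 Prod.fst (pt 0 y) ∧ In0 g0 d0 y
  jb : ∀ p : R4, p.1 ∈ Icc 0 a → xs p ∈ U → Jb m Φ p B
  mono : ∀ p : R4, p.1 ∈ Icc 0 a → Φ p ≤ a → ∀ s ∈ Icc 0 p.1, Φ (s, p.2) ≤ Φ p
  lid : ∀ p : R4, p.1 ∈ Icc 0 a → Φ p ≤ a → Metric.closedBall (xs p) a ⊆ U ∧ p ∈ D0 ∧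
    Nice m B g0 Prod.fst p ∧ 1 ≤ B * fderiv ℝ Φ p eT ∧
    ∀ v, g0 p v v ≤ 0 → 0 ≤ v.1 → ‖v‖ ≤ B * fderiv ℝ Φ p v

/-- S0: one step. The height δ does not depend on the order k, and the estimate is linear. -/
def S0 : Prop :=
  ∀ (B a : ℝ) (K U : Set X), 0 < a → IsCompact K → IsOpen U → closure U ⊆ interior K →
    ∃ δ ∈ Ioc 0 a, ∀ k, ∃ m, ∀ B' : ℝ, ∀ μ > 0, ∃ η > 0, ∃ C : ℝ, ∀ g0 D0 Φ d0 d ε,
      Ref 14 B a K U g0 D0 Φ d0 → Ref m B' a K U g0 D0 Φ d0 → ε ≤ η →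
      (∀ y, Φ (pt 0 y) < 0 → Gd d y ∧ Cls m ε d d0 y) →
      ∃ g D, Lv g D ∧ (∀ p : R4, p.1 ∈ Icc 0 δ → Φ p ≤ -μ → p ∈ D ∧ Bd k (g - g0) p (C * ε)) ∧
        ∀ y, Φ (pt 0 y) ≤ -μ → In0 g d y

/-- FTS: stability for a finite time. -/
def FTS : Prop :=
  ∀ g0 D0 (Φ : R4 → ℝ) (T : ℝ) d0, Lv g0 D0 → ContDiff ℝ ∞ Φ → 0 ≤ T →
    IsCompact {p : R4 | p.1 ∈ Icc 0 (T + 1) ∧ Φ p ≤ 1} →
    (∀ p : R4, p.1 ∈ Icc 0 (T + 1) → Φ p ≤ 1 → p ∈ D0 ∧ Spl g0 Prod.fst p ∧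
      0 < fderiv ℝ Φ p eT ∧ ∀ v, g0 p v v ≤ 0 → 0 < v.1 → 0 < fderiv ℝ Φ p v) →
    (∀ y, pt 0 y ∈ D0 → Φ (pt 0 y) ≤ 1 → In0 g0 d0 y) →
    ∀ k, ∀ ε > 0, ∃ m, ∃ η > 0, ∀ d, (∀ y, Φ (pt 0 y) < 1 → Gd d y ∧ Cls m η d d0 y) →
      ∃ g D, Lv g D ∧ (∀ p : R4, p.1 ∈ Icc 0 T → Φ p ≤ 0 → p ∈ D ∧ Bd k (g - g0) p ε) ∧
        ∀ y, Φ (pt 0 y) ≤ 0 → In0 g d y

/-- CORE: stability of compact parts of the future of T = 0, in the Kruskal chart. -/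
def CORE : Prop :=
  ∀ M a : ℝ, |a| < M → ∀ K, IsCompact K → (∀ p ∈ K, p ∈ DK M a ∧ 0 ≤ p.1) → ∀ N, ∀ ε > 0,
    ∃ m, ∃ η > 0, ∀ d ∈ BA M a m η, ∃ g D, Lv g D ∧
      (∀ p ∈ K, p ∈ D ∧ Bd N (g - gK M a) p ε) ∧ ∀ y, pt 0 y ∈ K → In0 g d.1 y

/-- The hypotheses of REG: g0 is in the gauge along f eT near A, g is close to g0 on the part
t ≥ 0 of a tube around A, and w0 is close to f eT on the base. -/
structure RgIn (N : P354XV.Nat) (m : ℕ) (B r ε : ℝ) (A O D : Set R4) (g0 g : Tw) (f : R4 → ℝ)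
    (π w0 : R4 → R4) : Prop where
  lv0 : Lv g0 D
  lv : Lv g D
  opn : IsOpen O
  sm : ContDiffOn ℝ ∞ f O ∧ ContDiffOn ℝ ∞ π O ∧ ContDiffOn ℝ ∞ w0 O
  star : P354XU.Star A
  sub : A ⊆ O
  gau : ∀ z ∈ A, ∀ᶠ x in 𝓝 z, Gq N (π x) g0 (fun x => f x • eT) x
  bd : ∀ z ∈ A, z.1 ∈ Icc 0 B ∧ 1 ≤ B * f z ∧ Jb m f z B ∧ Jb m (fderiv ℝ π) z B ∧
    (z.1 = 0 → Jb m (fun x => w0 x - f x • eT) z ε)
  tube : ∀ z ∈ A, ∀ q, dist q z ≤ r → 0 ≤ q.1 →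
    q ∈ D ∧ Bd m g0 q B ∧ ‖(tb g0 q).inverse‖ ≤ B ∧ Bd m (g - g0) q ε
  nat : ∀ z ∈ A, ∀ x, dist x (π z, jet N.m g0 z, f z • eT) ≤ r → x ∈ N.U ∧ Jb m N.F x B

/-- REG: a map close to the identity puts g into the gauge. -/
def REG : Prop :=
  ∀ N : P354XV.Nat, N.Is → ∀ k, ∃ m, ∀ B : ℝ, ∀ r > 0, ∃ η > 0, ∃ C : ℝ,
    ∀ ε A O D g0 g f π w0, RgIn N m B r ε A O D g0 g f π w0 → ε ≤ η →
      ∃ W b, IsOpen W ∧ A ⊆ W ∧ W ⊆ O ∧ Pull b (pb b g) W g D ∧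
        (∀ z ∈ W, 0 < LinearMap.det (fderiv ℝ b z : R4 →ₗ[ℝ] R4) ∧
          Gq N (π z) (pb b g) (fun x => f x • eT) z ∧
          (z.1 = 0 → b z = z ∧ fderiv ℝ b z (f z • eT) = w0 z)) ∧
        ∀ z ∈ A, Jb k (fun x => b x - x) z (C * ε) ∧ 0 ≤ (b z).1

/-- The far band of height δ r over the slice T = 0, in the ingoing chart. -/
def Fb (M a R δ : ℝ) : Set R4 :=
  {p | R ≤ rd p ∧ p.1 - P354YT.tb M a (rd p) ∈ Icc 0 (δ * rd p)}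

/-- Weighted smallness. -/
def Sm (m : ℕ) (e : ℝ) (h : Tw) (p : R4) : Prop :=
  ∀ j ≤ m, ∀ v w : R4, ‖iteratedFDeriv ℝ j (fun x => h x v w) p‖ ≤
    e / (1 + rd p) ^ (j + 1) * (‖v‖ * ‖w‖)

/-- A vacuum metric near A which induces d, for which Lo is geodesic, and dual to the Kerr form on
the slice. -/
structure Fg (M a : ℝ) (d : Dat) (A W : Set R4) (g : Tw) : Prop where
  lv : Lv g W
  sub : A ⊆ W
  geo : ∀ p ∈ W, ∀ c,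
    g p (fderiv ℝ (Lo M a) p (Lo M a p)) c + chr g p (Lo M a p) (Lo M a p) c = 0
  flat : ∀ p ∈ W, p.1 = P354YT.tb M a (rd p) → ∀ v, g p (Lo M a p) v = gin M a p (Lo M a p) v
  ind : ∀ y, pt 0 y ∈ DE M a true → ci M a true (pt 0 y) ∈ A → In0 (pb (ci M a true) g) d y

/-- FARW: the far band. -/
def FARW : Prop :=
  ∀ M a : ℝ, |a| < M → ∃ R0, ∃ δ0 > 0, ∀ m, ∀ e > 0, ∃ m', ∃ η > 0, ∀ d ∈ BA M a m' η, ∃ W g,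
    Fg M a d.1 (Fb M a R0 δ0) W g ∧ (∀ p ∈ W, ∀ v, g p (Lo M a p) v = gin M a p (Lo M a p) v) ∧
      ∀ p ∈ Fb M a R0 δ0, Sm m e (g - gin M a) p

/-- AGR: uniqueness in the far band. -/
def AGR : Prop :=
  ∀ M a : ℝ, |a| < M → ∃ R0, ∃ δ0 > 0, ∃ c0 > 0, ∀ ρ ≥ R0, ∀ δ ∈ Ioc 0 δ0, ∀ d W W' g g',
    Fg M a d {p ∈ Fb M a ρ δ | rd p ≤ 4 * ρ} W g → Fg M a d {p ∈ Fb M a ρ δ | rd p ≤ 4 * ρ} W' g' →
    (∀ p ∈ Fb M a ρ δ, rd p ≤ 4 * ρ → ∀ v, |g p v v - gin M a p v v| ≤ c0 * ‖v‖ ^ 2) →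
    ∀ p ∈ Fb M a (2 * ρ) (δ / 2), rd p ≤ 3 * ρ → g =ᶠ[𝓝 p] g'

end Vale.Agent.P354YI
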