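import Vale.Agent.P354YI.Met
import Vale.Agent.P354YI.Defs
import Vale.Agent.P354XV.C4
import Vale.Agent.P354XA.Data

/-!
Small lemmas on metrics which are close to a given metric.
-/

set_option maxSynthPendingDepth 3

open scoped ContDiff
open Set Filter Topology

noncomputable section

namespace Vale.Agent.P354YI

open Vale.Agent.P354n (R4)
open Vale.Agent.P354I (X Dat)
open Vale.Agent.P354R (Met Pull)
open Vale.Agent.P354RC (B2 Rp)
open Vale.Agent.P354XD (tb rp_tb)
open Vale.Agent.P354XE (Tw pt xs eT Bd)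
open Vale.Agent.P354XV

variable {g g' g0 : Tw} {D D0 : Set R4} {p : R4} {k : ℕ} {B η : ℝ} {Φ : R4 → ℝ}

theorem Lv.at (l : Lv g D) (hp : p ∈ D) (v w : R4) : ContDiffAt ℝ ∞ (fun x => g x v w) p :=
  (l.met.smooth v w).contDiffAt (l.isOpen.mem_nhds hp)

theorem bd_zero (h : Bd k g p η) (v w : R4) : |g p v w| ≤ η * (‖v‖ * ‖w‖) := by
  simpa using h 0 k.zero_le v w

theorem bd_le {k' : ℕ} {η' : ℝ} (h : Bd k g p η) (e : k' ≤ k) (e' : η ≤ η') : Bd k' g p η' :=
  fun j hj v w => (h j (hj.trans e) v w).trans (mul_le_mul_of_nonneg_right e' (by positivity))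

theorem bd_congr (h : Bd k g p η) (e : g' =ᶠ[𝓝 p] g) : Bd k g' p η := fun j hj v w => by
  have : (fun x => g' x v w) =ᶠ[𝓝 p] fun x => g x v w := e.mono fun x k => by simp only [k]
  rw [(this.iteratedFDeriv ℝ j).eq_of_nhds]
  exact h j hj v w

theorem bd_add {η' : ℝ} (h : Bd k g p η) (h' : Bd k g' p η')
    (s : ∀ v w, ContDiffAt ℝ ∞ (fun x => g x v w) p)
    (s' : ∀ v w, ContDiffAt ℝ ∞ (fun x => g' x v w) p) : Bd k (g + g') p (η + η') :=
  fun j hj v w => by
    have := (Jb.add (m := k) (fun j hj => h j hj v w) (fun j hj => h' j hj v w) (s v w) (s' v w))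
      j hj
    rw [← add_mul] at this
    exact this

theorem bd_shift {a : R4} : Bd k (fun x => g (x + a)) p η ↔ Bd k g (p + a) η := by
  refine forall₄_congr fun j _ v w => ?_
  rw [iteratedFDeriv_comp_add_right (f := fun z => g z v w)]

/-- Bounds pass to the closure. -/
theorem bd_cl {S : Set R4} (s : ∀ v w, ContDiffAt ℝ ∞ (fun x => g x v w) p) (hp : p ∈ closure S)
    (h : ∀ q ∈ S, Bd k g q η) : Bd k g p η := fun j hj v w =>
  ContinuousWithinAt.closure_le hp (at_iter (s v w) j).norm.continuousWithinAt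
    continuousWithinAt_const fun q hq => h q hq j hj v w

theorem nice_near (l : Lv g D) (l0 : Lv g0 D0) (hp : p ∈ D) (hp0 : p ∈ D0)
    (n : Nice k B g0 Prod.fst p) (h : Bd k (g - g0) p η) (e : η * (1 + B) ^ 3 ≤ min B (1 / 2)) :
    Nice k (2 * B) g Prod.fst p := by
  have b := n.pos
  obtain ⟨e1, e2⟩ := le_min_iff.1 e
  have z := fun v w => abs_le.1 (bd_zero h v w)
  have η0 : 0 ≤ η := by simpa [norm_eT] using (abs_nonneg _).trans (bd_zero h eT eT)
  have e3 : η ≤ B := by nlinarith [pow_pos b 2, pow_pos b 3]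
  have e4 : η * B ≤ 1 / 2 := by nlinarith [pow_pos b 2, pow_pos b 3]
  have e5 : η * B ^ 3 ≤ 1 / 2 := by nlinarith [pow_pos b 2]
  refine ⟨?_, fun v hv => ?_, ?_⟩
  · have := bd_add h n.bd (fun v w => (Lv.at l hp v w).sub (Lv.at l0 hp0 v w)) (Lv.at l0 hp0)
    rw [sub_add_cancel] at this
    exact bd_le this le_rfl (by linarith)
  · have a := n.sp v hv
    have c := (z v v).1
    simp only [Pi.sub_apply] at c
    nlinarith [mul_le_mul_of_nonneg_left c b.le, mul_nonneg (norm_nonneg v) (norm_nonneg v)]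
  · obtain ⟨u, u1, u2⟩ := n.tl
    have c := (z u u).2
    simp only [Pi.sub_apply] at c
    have := mul_le_mul u1 u1 (norm_nonneg _) b.le
    exact ⟨u, by linarith, by
      nlinarith [mul_le_mul_of_nonneg_left c b.le, mul_le_mul_of_nonneg_left this η0]⟩

theorem inv_le (n : Nice k B g Prod.fst p) (l : Lv g D) (hp : p ∈ D) :
    (tb g p).IsInvertible ∧ ‖(tb g p).inverse‖ ≤ 2 * B * (1 + B) * (1 + 3 * B) := by
  have r := rp_tb l.isOpen l.met
  have n0 := n.n0 r hp
  have b := n.pos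
  refine ⟨P354RC.inv_of_inj (r.nd p hp), ContinuousLinearMap.opNorm_le_bound _ (by positivity)
    fun ξ => ?_⟩
  have := n0.nd ((tb g p).inverse ξ)
  rwa [r.inv hp] at this

/-- An isometry between close forms which fixes the slice is close to the identity. -/
theorem iso_near {H H1 : B2} (n : N0 B H) {A : R4 →L[ℝ] R4} {K : ℝ} (hK : ‖A‖ ≤ K)
    (e : ∀ v w, H1 v w = H (A v) (A w)) (s : ∀ v : R4, v.1 = 0 → A v = v) (t : 0 < (A eT).1)
    (d : ∀ v w, |H1 v w - H v w| ≤ η * (‖v‖ * ‖w‖)) :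
    ‖A - .id ℝ R4‖ ≤ 2 * B * (1 + B) * (1 + 3 * B) * (3 + K) * η := by
  have b := n.nn
  have η0 : 0 ≤ η := by simpa [norm_eT] using (abs_nonneg _).trans (d eT eT)
  have K0 := (norm_nonneg _).trans hK
  have u : ‖A eT‖ ≤ K := by simpa [norm_eT] using A.le_of_opNorm_le hK eT
  have k : ‖H (A eT - eT)‖ ≤ (3 + K) * η := by
    refine ContinuousLinearMap.opNorm_le_bound _ (by positivity) fun v => ?_
    have h0 : 1 ≤ (A eT + eT).1 := by simp only [Prod.fst_add, eT] at t ⊢; linarith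
    obtain ⟨l, w, hl, hw, hv⟩ : ∃ (l : ℝ) (w : R4), |l| ≤ ‖v‖ ∧ w.1 = 0 ∧
        w = v - l • (A eT + eT) := ⟨v.1 / (A eT + eT).1, _, by
      rw [abs_div, abs_of_pos (one_pos.trans_le h0)]
      exact (div_le_self (abs_nonneg _) h0).trans (norm_fst_le v), by
      rw [Prod.fst_sub, Prod.smul_fst, smul_eq_mul, div_mul_cancel₀ _ (one_pos.trans_le h0).ne',
        sub_self], rfl⟩
    have nw : ‖w‖ ≤ (2 + K) * ‖v‖ := by
      rw [hv]
      refine (norm_sub_le _ _).trans ?_
      rw [norm_smul, Real.norm_eq_abs]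
      have := mul_le_mul hl ((norm_add_le _ _).trans (add_le_add u norm_eT.le)) (norm_nonneg _)
        (norm_nonneg v)
      linarith
    have h1 := d eT w
    have h2 := d eT eT
    rw [e, s w hw, norm_eT, one_mul] at h1
    rw [e, norm_eT, mul_one, mul_one] at h2
    have h3 : H (A eT - eT) v = l * (H (A eT) (A eT) - H eT eT) + (H (A eT) w - H eT w) := by
      simp only [hv, map_sub, map_add, map_smul, sub_apply, smul_eq_mul, n.sy eT (A eT)]
      ring
    rw [Real.norm_eq_abs, h3]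
    refine (abs_add_le _ _).trans ?_
    rw [abs_mul]
    nlinarith [mul_le_mul hl h2 (abs_nonneg _) (norm_nonneg v), mul_le_mul_of_nonneg_left nw η0]
  refine ContinuousLinearMap.opNorm_le_bound _ (by positivity) fun v => ?_
  have h4 : (A - .id ℝ R4) v = v.1 • (A eT - eT) := by
    have := s (v - v.1 • eT) (by simp [eT])
    rw [map_sub, map_smul] at this
    simp only [sub_apply, ContinuousLinearMap.id_apply, smul_sub]
    linear_combination (exp := 1) this
  rw [h4, norm_smul, mul_comm]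
  refine mul_le_mul ((n.nd _).trans ?_) (norm_fst_le v) (norm_nonneg _) (by positivity)
  rw [mul_assoc _ (3 + K)]
  exact mul_le_mul_of_nonneg_left k (by positivity)

/-- The points near which G is a vacuum metric. -/
def vd (G : Tw) : Set R4 := {p | ∃ g' D', Lv g' D' ∧ p ∈ D' ∧ G =ᶠ[𝓝 p] g'}

theorem lv_vd (G : Tw) : Lv G (vd G) :=
  lv_local (isOpen_iff_mem_nhds.2 fun _ ⟨g', D', l, hp, e⟩ =>
    ((l.isOpen.eventually_mem hp).and e.eventually_nhds).mono fun _ h => ⟨g', D', l, h.1, h.2⟩)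
    fun _ h => h

theorem in0_congr {d : Dat} {y : X} (h : In0 g d y) (e : g' =ᶠ[𝓝 (pt 0 y)] g) : In0 g' d y := by
  obtain ⟨n, a, b, c⟩ := h
  exact ⟨n, e.eq_of_nhds ▸ a, b, fun i k => by
    rw [chr_congr e, e.eq_of_nhds]
    exact c i k⟩

/-- A function which increases in time below a level is monotone there. -/
theorem mono_of {T c : ℝ} (hΦ : Differentiable ℝ Φ)
    (h : ∀ p : R4, p.1 ∈ Icc 0 T → Φ p ≤ c → 0 < fderiv ℝ Φ p eT) (hp : p.1 ≤ T) (hc : Φ p ≤ c)
    {s : ℝ} (hs : s ∈ Icc 0 p.1) : Φ (s, p.2) ≤ Φ p := by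
  have d : ∀ u, HasDerivAt (fun u => Φ (p.1 - u, p.2)) (-fderiv ℝ Φ (p.1 - u, p.2) eT) u :=
    fun u => ((ln_fd (z := p) (hΦ (p.1 - u, p.2))).comp_of_eq u
      ((hasDerivAt_id u).const_sub p.1) rfl).congr_deriv (mul_neg_one _)
  have := image_le_of_deriv_right_lt_deriv_boundary (a := 0) (b := p.1) (B := fun _ => Φ p)
    (B' := fun _ => 0) (fun u _ => (d u).continuousAt.continuousWithinAt)
    (fun u _ => (d u).hasDerivWithinAt) (by simp) (fun u => hasDerivAt_const u _)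
    (fun u hu e => neg_neg_of_pos (h _ ⟨by linarith [hu.2], by linarith [hu.1]⟩ (e.trans_le hc)))
    (x := p.1 - s) ⟨by linarith [hs.2], by linarith [hs.1]⟩
  simpa using this

/-- Uniform form of the statement that the gradient of Φ is timelike. -/
theorem cau_cpt (l : Lv g0 D0) (hΦ : ContDiff ℝ ∞ Φ) {Q : Set R4} (hQ : IsCompact Q)
    (h : ∀ p ∈ Q, p ∈ D0 ∧ Spl g0 Prod.fst p ∧ 0 < fderiv ℝ Φ p eT ∧
      ∀ v, g0 p v v ≤ 0 → 0 < v.1 → 0 < fderiv ℝ Φ p v) :
    ∃ c > 0, ∀ p ∈ Q, c ≤ fderiv ℝ Φ p eT ∧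
      ∀ v, g0 p v v ≤ c * ‖v‖ ^ 2 → 0 ≤ v.1 → c * ‖v‖ ≤ fderiv ℝ Φ p v := by
  have r := rp_tb l.isOpen l.met
  have cΦ := hΦ.continuous_fderiv (by simp)
  have k : IsCompact (Q ×ˢ (Metric.sphere (0 : R4) 1 ∩ {v | 0 ≤ v.1})) :=
    hQ.prod ((isCompact_sphere _ _).inter_right (isClosed_le continuous_const continuous_fst))
  obtain ⟨c, c0, hc⟩ := k.exists_forall_le' (a := 0) (f := fun z : R4 × R4 =>
    min (fderiv ℝ Φ z.1 eT) (max (tb g0 z.1 z.2 z.2) (fderiv ℝ Φ z.1 z.2)))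
    (fun z hz => by
      have := ((r.at (h _ hz.1).1).continuousAt.comp (f := Prod.fst) continuousAt_fst)
      exact ContinuousAt.continuousWithinAt
        (((cΦ.comp continuous_fst).clm_apply continuous_const).continuousAt.min
        (((this.clm_apply continuousAt_snd).clm_apply continuousAt_snd).max
          ((cΦ.comp continuous_fst).clm_apply continuous_snd).continuousAt)))
    fun z hz => by
      obtain ⟨a1, a2, a3, a4⟩ := h _ hz.1
      refine lt_min a3 ((lt_or_ge 0 (g0 z.1 z.2 z.2)).elim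
        (fun e => lt_max_of_lt_left (r.eq _ a1 _ _ ▸ e)) fun e => lt_max_of_lt_right (a4 _ e ?_))
      refine lt_of_le_of_ne hz.2.2 fun e' => e.not_gt (a2 _ (fun e0 => ?_) ?_)
      · simpa [e0] using hz.2.1
      · rw [fderiv_fst]; exact e'.symm
  refine ⟨c / 2, half_pos c0, fun p hp => ⟨(half_le_self c0.le).trans
    (le_min_iff.1 (hc (p, eT) ⟨hp, by simp [norm_eT], by simp [eT]⟩)).1, fun v hv v0 => ?_⟩⟩
  rcases eq_or_ne v 0 with rfl | n
  · simp
  have n0 := norm_pos_iff.2 n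
  have := (le_min_iff.1 (hc (p, ‖v‖⁻¹ • v) ⟨hp, by simp [norm_smul, n0.ne'], by
    simp only [mem_ofPred_eq, Prod.smul_fst, smul_eq_mul]; positivity⟩)).2
  simp only [map_smul, smul_apply, smul_eq_mul, ← r.eq p (h p hp).1] at this
  rcases le_max_iff.1 this with e | e
  · have : c * ‖v‖ ^ 2 ≤ g0 p v v := by
      have := mul_le_mul_of_nonneg_right e (sq_nonneg ‖v‖)
      refine this.trans_eq ?_
      field_simp
    nlinarith [pow_pos n0 2]
  · rw [← div_eq_inv_mul, le_div_iff₀ n0] at e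
    nlinarith

end Vale.Agent.P354YI
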