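import Vale.Agent.P354YI.Near
import Vale.Agent.P354YQ.Rg

/-!
Interpolation between two developments of the same data which are close to a reference metric.
-/

set_option maxSynthPendingDepth 3

open scoped ContDiff
open Set Filter Topology

noncomputable section

namespace Vale.Agent.P354YI

open Vale.Agent.P354n (R4)
open Vale.Agent.P354I (X Dat)
open Vale.Agent.P354R (Met Pull)
open Vale.Agent.P354RC (B2 Rp)
open Vale.Agent.P354XD (tb rp_tb)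
open Vale.Agent.P354XE (Tw pt xs eT Bd pb)
open Vale.Agent.P354XU (lens)
open Vale.Agent.P354XV
open Vale.Agent.P354UG (ol ol_open ol_sub lens_sub)

section fam
variable {J : Type} {m : ℕ} {B : ℝ} {x : J → R4} {g g' : J → Tw} {D D' : J → Set R4} {μ : J → ℝ}

theorem oj_nice (l : ∀ j, Lv (g j) (D j) ∧ x j ∈ D j ∧ Nice m B (g j) Prod.fst (x j)) :
    Oj m x (fun j => tb (g j)) 1 ∧ Oj m x (fun j y => (tb (g j) y).inverse) 1 :=
  have h := P354XA.oj_tb fun j => ⟨(l j).1.isOpen, (l j).1.met, (l j).2.1, (l j).2.2.bd⟩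
  ⟨h, Oj.inv (fun j => (inv_le (l j).2.2 (l j).1 (l j).2.1).1)
    ⟨_, fun j => (inv_le (l j).2.2 (l j).1 (l j).2.1).2⟩ h⟩

theorem oj_gm (l : ∀ j, Lv (g j) (D j) ∧ x j ∈ D j ∧ Nice (m + 1) B (g j) Prod.fst (x j)) :
    Oj m x (fun j => GM (tb (g j))) 1 := Oj.gm (oj_nice l).2.pred (oj_nice l).1

theorem oj_sub (l : ∀ j, Lv (g j) (D j) ∧ x j ∈ D j) (l' : ∀ j, Lv (g' j) (D' j) ∧ x j ∈ D' j)
    (h : ∀ j, Bd m (g j - g' j) (x j) (μ j)) :
    Oj m x (fun j y => tb (g j) y - tb (g' j) y) μ :=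
  (Oj.tb (fun j v w => (Lv.at (l j).1 (l j).2 v w).sub (Lv.at (l' j).1 (l' j).2 v w)) h).congr'
    fun _ _ => (tb_sub _ _ _).symm

theorem oj_gm_sub (l : ∀ j, Lv (g j) (D j) ∧ x j ∈ D j ∧ Nice (m + 1) B (g j) Prod.fst (x j))
    (l' : ∀ j, Lv (g' j) (D' j) ∧ x j ∈ D' j ∧ Nice (m + 1) B (g' j) Prod.fst (x j))
    (h : ∀ j, Bd (m + 1) (g j - g' j) (x j) (μ j)) :
    Oj m x (fun j y => GM (tb (g j)) y - GM (tb (g' j)) y) μ := by
  have d := oj_sub (fun j => ⟨(l j).1, (l j).2.1⟩) (fun j => ⟨(l' j).1, (l' j).2.1⟩) h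
  exact Oj.gm_sub (oj_nice l).2.pred (oj_nice l').1
    (Oj.inv_sub (fun j => (inv_le (l j).2.2 (l j).1 (l j).2.1).1)
      (fun j => (inv_le (l' j).2.2 (l' j).1 (l' j).2.1).1) (oj_nice l).1.sm (oj_nice l').1.sm
      (oj_nice l).2.pred (oj_nice l').2.pred d.pred) (oj_nice l).1.sm d

/-- The pull back by a map which is close to the identity. -/
theorem oj_pb_id {h : J → R4 → B2} {b : J → R4 → R4} {S : J → Set R4}
    (hS : ∀ j, segment ℝ (b j (x j)) (x j) ⊆ S j) (d : Oj (m + 1) x (fun j y => b j y - y) μ)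
    (hμ : ∃ c, ∀ j, μ j ≤ c) (hh : Os (m + 1) S h 1) :
    Oj m x (fun j y => P354RC.pb (h j) (b j) y - h j y) μ := by
  obtain ⟨c, hc⟩ := hμ
  have s : ∀ j, ContDiffAt ℝ ∞ (b j) (x j) := fun j => by
    simpa using (d.sm j).add contDiffAt_id
  have i : Oj m x (fun _ => fderiv ℝ (id : R4 → R4)) 1 :=
    (Oj.cst (.id ℝ R4)).congr' fun _ _ => fderiv_id
  have k : Oj m x (fun j => fderiv ℝ (b j)) 1 :=
    ((d.fd.wt (c := c) (fun _ => zero_le_one) (by simpa using hc)).add i).congr fun j =>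
      (ev_dif (s j)).mono fun y hy => by
        simp only [show (fun y => b j y - y) = b j - id from rfl,
          fderiv_sub hy differentiableAt_id, sub_add_cancel]
  refine (Oj.pb_lip (f' := fun _ => id) s (fun _ => contDiffAt_id) hS k i d hh).congr'
    fun j y => ?_
  refine ContinuousLinearMap.ext fun v => ContinuousLinearMap.ext fun w => ?_
  simp [P354RC.pb_ap]

end fam

theorem inj_of_near {A : R4 →L[ℝ] R4} (h : ‖A - .id ℝ R4‖ < 1) : Function.Injective A := by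
  refine (injective_iff_map_eq_zero A).2 fun v hv => ?_
  by_contra n
  have := (A - .id ℝ R4).le_opNorm v
  simp only [sub_apply, hv, ContinuousLinearMap.id_apply, zero_sub, norm_neg] at this
  nlinarith [norm_pos_iff.2 n]

/-- The hypotheses of the interpolation. -/
structure It (k : ℕ) (g0 : Tw) (Φ : R4 → ℝ) (r τ : ℝ) (g : Tw) (D : Set R4) (g1 : Tw)
    (D1 : Set R4) (d : Dat) (η : ℝ) : Prop where
  lv : Lv g D
  lv1 : Lv g1 D1
  pos : 0 < η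
  old : ∀ p : R4, p.1 = 0 → Φ p ≤ 0 → ∀ q, dist q p ≤ r → q ∈ D ∧ Bd k (g - g0) q η
  new : ∀ p : R4, p.1 ∈ Icc 0 τ → Φ p ≤ 0 → p ∈ D1 ∧ Bd k (g1 - g0) p η
  ind : ∀ y, Φ (pt 0 y) ≤ 0 → In0 g1 d y ∧ In0 g d y

theorem interp (hG : GUS) {g0 : Tw} {D0 : Set R4} {Φ : R4 → ℝ} {r B c : ℝ} {k : ℕ} (l0 : Lv g0 D0)
    (hΦ : ContDiff ℝ ∞ Φ) (r0 : 0 < r) (c0 : 0 < c) (b0 : 0 < B)
    (cp : IsCompact {p : R4 | p.1 ∈ Icc 0 r ∧ Φ p ≤ 0})
    (mo : ∀ p : R4, p.1 ∈ Icc 0 r → Φ p ≤ 0 → ∀ s ∈ Icc 0 p.1, Φ (s, p.2) ≤ Φ p)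
    (H : ∀ p : R4, p.1 = 0 → Φ p ≤ 0 → ∀ q, dist q p ≤ r → q ∈ D0 ∧
      Nice (k + 2) B g0 Prod.fst q ∧ 0 < fderiv ℝ Φ q eT ∧
      ∀ v, g0 q v v ≤ c * ‖v‖ ^ 2 → 0 < v.1 → 0 < fderiv ℝ Φ q v) :
    ∃ τ ∈ Ioc 0 r, ∀ ε > 0, ∃ η0 > 0, ∀ g D g1 D1 d η, It (k + 2) g0 Φ r τ g D g1 D1 d η → η ≤ η0 →
      ∃ g', Lv g' (ol (fun _ : Unit => Φ) τ) ∧ ∀ p ∈ ol (fun _ : Unit => Φ) τ,
        Bd k (g' - g0) p ε ∧ (p.1 < τ / 3 → g' p = g p) ∧ (2 * τ / 3 < p.1 → g' p = g1 p) := by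
  obtain ⟨K, K0, hK⟩ := hG (2 * B)
  obtain ⟨τ, τ0, τ1, τ2, τ3⟩ : ∃ τ, 0 < τ ∧ τ ≤ r ∧ K * τ ≤ 1 ∧ K * τ ≤ r :=
    ⟨min r (min (1 / K) (r / K)), by positivity, min_le_left _ _,
      (le_div_iff₀' K0).1 ((min_le_right _ _).trans (min_le_left _ _)),
      (le_div_iff₀' K0).1 ((min_le_right _ _).trans (min_le_right _ _))⟩
  refine ⟨τ, ⟨τ0, τ1⟩, fun ε ε0 => ?_⟩
  let φ := fun _ : Unit => Φ
  let η1 := min c (min B (1 / 2) / (1 + B) ^ 3)
  let J := {z : (Tw × Set R4) × (Tw × Set R4) × Dat × ℝ //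
    It (k + 2) g0 Φ r τ z.1.1 z.1.2 z.2.1.1 z.2.1.2 z.2.2.1 z.2.2.2 ∧ z.2.2.2 ≤ η1}
  let S : Set R4 := {q | ∃ p : R4, p.1 = 0 ∧ Φ p ≤ 0 ∧ dist q p ≤ r}
  have ft : ∀ p ∈ clens φ τ, ∀ s ∈ Icc 0 p.1, Φ (s, p.2) ≤ Φ p := fun p hp =>
    mo p ⟨hp.1.1, hp.1.2.trans τ1⟩ (hp.2 ())
  have f0 : ∀ p ∈ clens φ τ, Φ (0, p.2) ≤ 0 := fun p hp =>
    (ft p hp 0 ⟨le_rfl, hp.1.1⟩).trans (hp.2 ())
  have dp : ∀ p ∈ clens φ τ, dist p (0, p.2) ≤ r := fun p hp => by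
    rw [Prod.dist_eq, dist_self, Real.dist_eq, sub_zero, abs_of_nonneg hp.1.1]
    exact max_le (hp.1.2.trans τ1) r0.le
  have HS : ∀ q ∈ S, q ∈ D0 ∧ Nice (k + 2) B g0 Prod.fst q := fun q ⟨p, a, b, e⟩ =>
    ⟨(H p a b q e).1, (H p a b q e).2.1⟩
  have cS : clens φ τ ⊆ S := fun p hp => ⟨(0, p.2), rfl, f0 p hp, dp p hp⟩
  have sm : ∀ j : J, j.1.2.2.2 * (1 + B) ^ 3 ≤ min B (1 / 2) := fun j =>
    (le_div_iff₀ (by positivity)).1 (j.2.2.trans (min_le_right _ _))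
  have n : ∀ (j : J), ∀ q ∈ S, Lv j.1.1.1 j.1.1.2 ∧ q ∈ j.1.1.2 ∧
      Nice (k + 2) (2 * B) j.1.1.1 Prod.fst q := fun j q ⟨p, a, b, e⟩ =>
    ⟨j.2.1.lv, (j.2.1.old p a b q e).1, nice_near j.2.1.lv l0 (j.2.1.old p a b q e).1
      (H p a b q e).1 (H p a b q e).2.1 (j.2.1.old p a b q e).2 (sm j)⟩
  have n1 : ∀ (j : J), ∀ q ∈ clens φ τ, Lv j.1.2.1.1 j.1.2.1.2 ∧ q ∈ j.1.2.1.2 ∧
      Nice (k + 2) (2 * B) j.1.2.1.1 Prod.fst q := fun j q hq =>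
    ⟨j.2.1.lv1, (j.2.1.new q hq.1 (hq.2 ())).1, nice_near j.2.1.lv1 l0
      (j.2.1.new q hq.1 (hq.2 ())).1 (HS q (cS hq)).1 (HS q (cS hq)).2
      (j.2.1.new q hq.1 (hq.2 ())).2 (sm j)⟩
  have n0 : ∀ q ∈ S, Lv g0 D0 ∧ q ∈ D0 ∧ Nice (k + 2) (2 * B) g0 Prod.fst q := fun q hq =>
    ⟨l0, (HS q hq).1, (HS q hq).2.le le_rfl (by linarith)⟩
  have cc : IsCompact (clens φ τ) := cp.of_isClosed_subset
    ((isClosed_Icc.preimage continuous_fst).inter ((congrArg IsClosed (show {p | ∀ i, φ i p ≤ 0} =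
      {p | Φ p ≤ 0} from Set.ext fun p => ⟨fun h => h (), fun h _ => h⟩)).mpr
        (isClosed_le hΦ.continuous continuous_const)))
    fun p hp => ⟨⟨hp.1.1, hp.1.2.trans τ1⟩, hp.2 ()⟩
  choose f O oO lO _ sf mf f1 hf using fun j : J => hK Unit φ τ _ _ _ _ j.1.2.2.1 j.2.1.lv1
    j.2.1.lv τ0 τ2 (fun _ => hΦ.of_le (by simp)) cc (fun p hp => (n1 j p hp).2.1)
    (fun p hp s hs => by
      rw [uIcc_of_le hp.1.1] at hs
      exact ⟨⟨hs.1, hs.2.trans hp.1.2⟩, fun _ => (ft p hp s hs).trans (hp.2 ())⟩)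
    (fun p hp => by
      obtain ⟨-, -, a, b⟩ := H _ rfl (f0 p hp) p (dp p hp)
      refine ⟨(n1 j p hp).2.2.le (by omega) le_rfl, fun _ => ⟨a, fun v hv => b v ?_⟩,
        fun q hq => ?_⟩
      · have := (abs_le.1 (bd_zero (j.2.1.new p hp.1 (hp.2 ())).2 v v)).1
        simp only [Pi.sub_apply] at this
        nlinarith [mul_le_mul_of_nonneg_right (j.2.2.trans (min_le_left _ _)) (sq_nonneg ‖v‖)]
      · have := n j q ⟨_, rfl, f0 p hp, hq.trans τ3⟩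
        exact ⟨this.2.1, this.2.2.le (by omega) le_rfl⟩)
    fun y hy => j.2.1.ind y (hy.2 ())
  let Ω := ol φ τ
  have oΩ : IsOpen Ω := ol_open (fun _ => hΦ.continuous) τ
  have Ωl : Ω ⊆ lens φ τ := ol_sub le_rfl
  have Ωc : Ω ⊆ clens φ τ := Ωl.trans lens_sub
  have P : ∀ j : J, Pull (f j) j.1.2.1.1 Ω j.1.1.1 j.1.1.2 := fun j =>
    ⟨oΩ, j.2.1.lv.isOpen, j.2.1.lv.met, (sf j).mono (Ωl.trans (lO j)),
      (mf j).mono_left (Ωl.trans (lO j)), fun y hy => inj_of_det (hf j y (Ωl hy)).2.2.1.ne',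
      fun y hy => (hf j y (Ωl hy)).2.2.2.2⟩
  have sg : ∀ j : J, ∀ p ∈ Ω, segment ℝ (f j p) p ⊆ S := fun j p hp q hq =>
    ⟨_, rfl, f0 p (Ωc hp), (convex_closedBall _ _).segment_subset (((hf j p (Ωl hp)).1.trans
      (mul_le_mul_of_nonneg_left hp.1.2.le K0.le)).trans τ3) (dp p (Ωc hp)) hq⟩
  let C := 2 * (2 * B) * (1 + 2 * B) * (1 + 3 * (2 * B)) * (3 + K) * 2 + 1
  have bs : ∀ j : J, ∀ p ∈ Ω, ∃ s ∈ Ioc 0 p.1,
      Jb 1 (fun y => f j y - y) (s, p.2) (C * j.1.2.2.2) := fun j p hp => by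
    have l : ((0 : ℝ), p.2) ∈ lens φ τ :=
      ⟨⟨le_rfl, τ0.le⟩, fun _ => (ft p (Ωc hp) 0 ⟨le_rfl, hp.1.1.le⟩).trans_lt (hp.2 ())⟩
    have s := ((sf j).contDiffAt ((oO j).mem_nhds (lO j l))).sub contDiffAt_id
    obtain ⟨a1, a2, a3⟩ := n j _ (cS (lens_sub l))
    obtain ⟨b1, b2, b3⟩ := n1 j _ (lens_sub l)
    have r := rp_tb a1.isOpen a1.met
    have r1 := rp_tb b1.isOpen b1.met
    have df := ((sf j).contDiffAt ((oO j).mem_nhds (lO j l))).differentiableAt (by simp)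
    have e := iso_near (η := j.1.2.2.2 + j.1.2.2.2) (H1 := tb j.1.2.1.1 (0, p.2)) (a3.n0 r a2)
      (hf j _ l).2.1 (fun v w => by
        rw [← r1.eq _ b2, (hf j _ l).2.2.2.2, f1 j _ (lO j l) rfl, r.eq _ a2])
      (fd_slice (oO j) (lO j l) rfl df (f1 j)) ((hf j _ l).2.2.2.1 rfl) fun v w => by
        have u1 := abs_le.1 (bd_zero (j.2.1.new _ l.1 (l.2 ()).le).2 v w)
        have u2 := abs_le.1 (bd_zero (j.2.1.old _ rfl (l.2 ()).le _
          ((dist_self _).trans_le r0.le)).2 v w)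
        simp only [Pi.sub_apply] at u1 u2
        rw [← r1.eq _ b2, ← r.eq _ a2, abs_le]
        constructor <;> linarith [u1.1, u1.2, u2.1, u2.2]
    have t : Tendsto (fun s : ℝ => ((s, p.2) : R4)) (𝓝[>] 0) (𝓝 (0, p.2)) :=
      (Continuous.tendsto' (by fun_prop) _ _ rfl).mono_left nhdsWithin_le_nhds
    have e1 := t.eventually (s.continuousAt.norm.eventually_lt_const (u := C * j.1.2.2.2) (by
      simp only [f1 j _ (lO j l) rfl, id, sub_self, norm_zero]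
      exact mul_pos (by positivity) j.2.1.pos))
    have e2 := t.eventually ((at_fd s).continuousAt.norm.eventually_lt_const
      (u := C * j.1.2.2.2) (by
        simp only [fderiv_fun_sub df differentiableAt_id, fderiv_id]
        refine e.trans_lt ?_
        simp only [C]
        linarith [j.2.1.pos]))
    obtain ⟨s, ⟨u1, u2⟩, u3⟩ := ((e1.and e2).and (Ioc_mem_nhdsGT hp.1.1)).exists
    exact ⟨s, u3, .succ u1.le (.of_zero u2.le)⟩
  choose! σ hσ hσ' using bs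
  have sΩ : ∀ j : J, ∀ p ∈ Ω, segment ℝ (σ j p, p.2) p ⊆ Ω := fun j p hp q hq => by
    rw [show p = (p.1, p.2) from rfl, ← Prod.image_mk_segment_left,
      segment_eq_Icc (hσ j p hp).2] at hq
    obtain ⟨s, hs, rfl⟩ := hq
    have := (hσ j p hp).1.trans_le hs.1
    exact ⟨⟨this, hs.2.trans_lt hp.1.2⟩, fun _ => (ft p (Ωc hp) s ⟨this.le, hs.2⟩).trans_lt (hp.2 ())⟩
  have R := rigq (m := k) (Ω := fun _ : J => Ω) (S := fun _ => S) (f' := fun _ => id) (L := r)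
    (μ := fun j => j.1.2.2.2) (fun j p => (σ j p, p.2)) (fun j p hp => ⟨sΩ j p hp, by
      rw [Prod.norm_def, Prod.snd_sub, sub_self, norm_zero, Prod.fst_sub, Real.norm_eq_abs,
        abs_of_nonneg (sub_nonneg.2 (hσ j p hp).2)]
      exact max_le (by linarith [(hσ j p hp).1, hp.1.2]) r0.le⟩)
    (fun j p hp => af_of_pull (P j) hp)
    (fun _ p hp => af_of_pull (P354UG.pull_id l0) (HS p (cS (Ωc hp))).1) sg
    (.zero (fun i => at_fd (P354RC.p_at (P _) i.2)) (fun _ => zero_le_one)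
      ⟨K, fun i => by simpa using (hf _ _ (Ωl i.2)).2.1⟩)
    ((Oj.cst (.id ℝ R4)).congr' fun _ _ => fderiv_id)
    (oj_gm fun i => n1 _ _ (Ωc i.2)).pred (oj_gm fun i => n0 _ (cS (Ωc i.2))).pred
    (oj_gm_sub (fun i => n1 _ _ (Ωc i.2)) (fun i => n0 _ (cS (Ωc i.2)))
      fun i => (i.1.1.2.1.new _ (Ωc i.2).1 ((Ωc i.2).2 ())).2).pred
    (oj_gm fun i => n _ _ i.2).pred (oj_gm fun i => n0 _ i.2)
    (oj_gm_sub (fun i => n _ _ i.2) (fun i => n0 _ i.2) fun i =>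
      let ⟨p, a, b, e⟩ := i.2
      (i.1.1.2.1.old p a b _ e).2).pred
    ⟨fun i => (P354RC.p_at (P _) (sΩ _ _ i.2 (left_mem_segment ℝ _ _))).sub contDiffAt_id,
      fun i => i.1.1.2.1.pos.le, |C|, abs_nonneg _, fun i => (hσ' _ _ i.2).mono le_rfl
        (mul_le_mul_of_nonneg_right (le_abs_self _) i.1.1.2.1.pos.le)⟩
  let χ : R4 → ℝ := fun p => Real.smoothTransition (3 / τ * p.1 - 1)
  have sχ : ContDiff ℝ ∞ χ := Real.smoothTransition.contDiff.comp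
    ((contDiff_const.mul contDiff_fst).sub contDiff_const)
  let b : J → R4 → R4 := fun j p => p + χ p • (f j p - p)
  have Rb : Os (k + 1) (fun _ : J => Ω) (fun j y => b j y - y) fun j => j.1.2.2.2 :=
    ((Oj.fix cc (fun _ _ => sχ.contDiffAt) fun i => Ωc i.2).smulr R.pred).congr'
      fun _ _ => add_sub_cancel_left _ _
  have sb : ∀ j : J, ∀ p ∈ Ω, segment ℝ (b j p) p ⊆ S := fun j p hp =>
    ((convex_segment _ _).segment_subset (by
      rw [segment_symm, segment_eq_image']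
      exact ⟨_, ⟨Real.smoothTransition.nonneg _, Real.smoothTransition.le_one _⟩, rfl⟩)
      (right_mem_segment _ _ _)).trans (sg j p hp)
  have Rg := (oj_pb_id (h := fun i : {i : J × R4 // i.2 ∈ Ω} => tb i.1.1.1.1.1) (S := fun _ => S)
    (fun i => sb _ _ i.2) Rb ⟨η1, fun i => i.1.1.2.2⟩
    (oj_nice fun i => n i.1.1.1.1 _ i.2).1.pred).tri (oj_sub (g' := fun _ => g0)
      (fun i => ⟨i.1.1.2.1.lv, (n _ _ (cS (Ωc i.2))).2.1⟩) (fun i => ⟨l0, (HS _ (cS (Ωc i.2))).1⟩) fun i => bd_le (i.1.1.2.1.old _ rfl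
        (f0 _ (Ωc i.2)) _ (dp _ (Ωc i.2))).2 (by omega) le_rfl)
  have bD : ∀ j : J, ∀ p ∈ Ω, b j p ∈ j.1.1.2 := fun j p hp =>
    (n j _ (sb j p hp (left_mem_segment _ _ _))).2.1
  obtain ⟨C1, c1, hC1⟩ := Rg.bd' (g := fun i => pb (b i.1.1) i.1.1.1.1.1 - g0) fun i => by
    filter_upwards [oΩ.mem_nhds i.2] with y hy v w
    have l := i.1.1.2.1.lv
    simp only [Pi.sub_apply, sub_apply, P354RC.pb_ap, pb, (rp_tb l.isOpen l.met).eq _ (bD _ y hy),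
      (rp_tb l0.isOpen l0.met).eq _ (HS y (cS (Ωc hy))).1]
  obtain ⟨C2, c2, hC2⟩ := Rb.fd.val
  refine ⟨min η1 (min (ε / (C1 + 1)) (1 / (C2 + 1))), by positivity,
    fun g D g1 D1 d η h hη => ?_⟩
  obtain ⟨e1, e2⟩ := le_min_iff.1 hη
  obtain ⟨e2, e3⟩ := le_min_iff.1 e2
  rw [le_div_iff₀ (by positivity)] at e2 e3
  let j : J := ⟨((g, D), (g1, D1), d, η), h, e1⟩
  have sj : ∀ p ∈ Ω, ContDiffAt ℝ ∞ (b j) p := fun p hp => by
    simpa using (Rb.sm ⟨(j, p), hp⟩).add contDiffAt_id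
  have Q : Pull (b j) (pb (b j) g) Ω g D := ⟨oΩ, h.lv.isOpen, h.lv.met,
    fun p hp => (sj p hp).contDiffWithinAt, bD j, fun p hp => inj_of_near (by
      have : ‖fderiv ℝ (b j - id) p‖ ≤ C2 * η := hC2 ⟨(j, p), hp⟩
      rw [fderiv_sub ((sj p hp).differentiableAt (by simp)) differentiableAt_id, fderiv_id] at this
      exact this.trans_lt (by nlinarith [h.pos])), fun _ _ _ _ => rfl⟩
  refine ⟨_, h.lv.pull Q, fun p hp => ⟨bd_le (hC1 ⟨(j, p), hp⟩) le_rfl (by nlinarith [h.pos]),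
    fun e => ?_, fun e => ?_⟩⟩
  · have : b j =ᶠ[𝓝 p] id := (continuous_fst.continuousAt.eventually_lt_const e).mono
      fun q hq => by
        simp only [b, χ, Real.smoothTransition.zero_of_nonpos (x := 3 / τ * q.1 - 1) (by
          rw [sub_nonpos, div_mul_eq_mul_div, div_le_one τ0]; linarith), zero_smul, add_zero, id]
    funext v w
    simp only [pb, this.fderiv_eq, this.eq_of_nhds, fderiv_id, id, ContinuousLinearMap.id_apply]
  · have : b j =ᶠ[𝓝 p] f j := (continuous_fst.continuousAt.eventually_const_lt e).mono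
      fun q hq => by
        simp only [b, χ, Real.smoothTransition.one_of_one_le (x := 3 / τ * q.1 - 1) (by
          rw [le_sub_iff_add_le, div_mul_eq_mul_div, le_div_iff₀ τ0]; linarith), one_smul,
          add_sub_cancel]
    funext v w
    simp only [pb, this.fderiv_eq, this.eq_of_nhds]
    exact ((P j).eq p hp v w).symm

end Vale.Agent.P354YI
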