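import Vale.Agent.P354SM.NDefs
import Vale.Agent.P354YO.Ob
import Vale.Agent.P354XA.Xi2
import Vale.Agent.P354YI.Met

/-!
Uniform bounds for pull backs of Kerr, and for the inverse of the far chart.
-/

set_option maxSynthPendingDepth 3

open scoped ContDiff
open Set Filter Topology

noncomputable section

namespace Vale.Agent.P354YI

open Vale.Agent.P354n (R4)
open Vale.Agent.P354I (rm rp)
open Vale.Agent.P354E (sg)
open Vale.Agent.P354XD (tb rp_tb)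
open Vale.Agent.P354XE (Tw pb gin rd xs Bd)
open Vale.Agent.P354YQ (SA JD)
open Vale.Agent.P354YO (os_gin oj_pb bd_of_oj sb_gin tb_pb pr0 shell_cpt)
open Vale.Agent.P354YR (rd_cont s_rd xs_ne rm_lt rp_pos dis_pos rz_norm xs_pt)
open Vale.Agent.P354SA (Th et ps)
open Vale.Agent.P354SM (PBG ETJ)

/-- The map x ↦ (M, a, L x). -/
theorem oj_emb {J V : Type} [NormedAddCommGroup V] [NormedSpace ℝ V] {m : ℕ} {M a : J → ℝ}
    {x : J → R4} (L : R4 →L[ℝ] R4) {G : J → ℝ × ℝ × R4 → V}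
    (h : Oj m (fun j => (M j, a j, L (x j))) G 1) : Oj m x (fun j y => G j (M j, a j, L y)) 1 :=
  Oj.comp (f := fun j y => (M j, a j, L y))
    (fun _ => contDiffAt_const.prodMk (contDiffAt_const.prodMk L.contDiff.contDiffAt)) m
    ((Oj.cst ((0 : R4 →L[ℝ] ℝ).prod ((0 : R4 →L[ℝ] ℝ).prod L))).congr' fun _ y =>
      ((hasFDerivAt_const _ y).prodMk ((hasFDerivAt_const _ y).prodMk L.hasFDerivAt)).fderiv) h

theorem gin_low (M a : ℝ) {r1 : ℝ} (h0 : 0 < r1) (r2 : ℝ) : ∃ C, 0 ≤ C ∧ ∀ M' a' p,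
    |M' - M| ≤ 1 → |a' - a| ≤ 1 → rd p ∈ Icc r1 r2 → ∀ v, ‖v‖ ≤ C * ‖tb (gin M' a') p v‖ := by
  have r : ∀ M a, _ := fun M a => rp_tb (P354XA.gin_lv M a).isOpen (P354XA.gin_lv M a).met
  obtain ⟨C, hC⟩ := ((isCompact_Icc (a := M - 1) (b := M + 1)).prod
    ((isCompact_Icc (a := a - 1) (b := a + 1)).prod (shell_cpt r1 r2))).exists_bound_of_continuousOn
    (f := fun z : ℝ × ℝ × R4 => (tb (gin z.1 z.2.1) z.2.2).inverse) fun z hz =>
      (at_comp (f := fun z : ℝ × ℝ × R4 => tb (gin z.1 z.2.1) z.2.2)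
        (P354RC.inv_of_inj ((r _ _).nd _ (h0.trans_le hz.2.2.2.1))).contDiffAt_map_inverse
        ((os_gin (J := Unit) M a h0 r2 0).sm
          ⟨((), z), hz.1, hz.2.1, hz.2.2.2⟩)).continuousAt.continuousWithinAt
  refine ⟨max C 0, le_max_right _ _, fun M' a' p h1 h2 h3 v => ?_⟩
  have k := hC (M', a', pr0 p) ⟨by rw [← Real.closedBall_eq_Icc]; exact h1,
    by rw [← Real.closedBall_eq_Icc]; exact h2, rfl, h3⟩
  have i := P354RC.inv_of_inj ((r M' a').nd p (h0.trans_le h3.1))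
  conv_lhs => rw [← i.inverse_apply_self v]
  exact (ContinuousLinearMap.le_opNorm _ _).trans
    (mul_le_mul_of_nonneg_right (k.trans (le_max_left _ _)) (norm_nonneg _))

theorem cov_le {A : R4 →L[ℝ] R4} {B : ℝ} (h : ∀ v, ‖v‖ ≤ B * ‖A v‖) (b : 0 ≤ B)
    (l : R4 →L[ℝ] ℝ) : ‖l‖ ≤ B * ‖l.comp A‖ :=
  l.opNorm_le_bound (by positivity) fun w => by
    obtain ⟨u, rfl⟩ := P354RC.surj_of_inj (F := A) ((injective_iff_map_eq_zero A).2 fun u k =>
      norm_le_zero_iff.1 ((h u).trans_eq (by rw [k, norm_zero, mul_zero]))) w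
    exact ((l.comp A).le_opNorm u).trans
      ((mul_le_mul_of_nonneg_left (h u) (norm_nonneg _)).trans_eq (by ring))

theorem pbg : PBG := by
  intro M a r1 r2 B k h0
  let J := {j : ℝ × ℝ × (R4 → R4) × R4 // |j.1 - M| ≤ 1 ∧ |j.2.1 - a| ≤ 1 ∧
    JD (k + 1) j.2.2.1 j.2.2.2 B ∧ rd (j.2.2.1 j.2.2.2) ∈ Icc r1 r2}
  have s : ∀ j : J, _ := fun j => sb_gin (M := j.1.1) (a := j.1.2.1) (h0.trans_le j.2.2.2.2.1)
  obtain ⟨C, c0, hC⟩ := bd_of_oj (fun j : J => (s j).pull j.2.2.2.1.sm.at)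
    (oj_pb (fun j => j.2.2.2.1.sm.at)
      (.of1 (fun j => at_fd j.2.2.2.1.sm.at) fun j => j.2.2.2.1.fderiv.le) s
      (oj_emb (.id ℝ R4) ((os_gin M a h0 r2 k).at (fun j : J => j) fun j =>
        ⟨by rw [← Real.closedBall_eq_Icc]; exact j.2.1,
          by rw [← Real.closedBall_eq_Icc]; exact j.2.2.1, j.2.2.2.2⟩)))
  obtain ⟨E, e0, hE⟩ := gin_low M a h0 r2
  refine ⟨max 1 (max C (B * (E * B))), le_max_left _ _, fun M' a' Θ z h1 h2 h3 h4 h5 =>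
    ⟨P354YO.bd_mono (hC ⟨(M', a', Θ, z), h1, h2, h3, h5⟩) le_rfl (by simp), fun v => ?_⟩⟩
  have b0 : 0 ≤ B := h3.fderiv.nonneg
  have e : tb (pb Θ (gin M' a')) z v =
      (tb (gin M' a') (Θ z) (fderiv ℝ Θ z v)).comp (fderiv ℝ Θ z) := by
    rw [tb_pb (sb_gin (h0.trans_le h5.1)).bl.self_of_nhds]
    rfl
  refine ((h4 v).trans (mul_le_mul_of_nonneg_left ((hE _ _ _ h1 h2 h5 _).trans
    (mul_le_mul_of_nonneg_left (cov_le h4 b0 _) e0)) b0)).trans ?_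
  rw [← e, ← mul_assoc E, ← mul_assoc]
  exact mul_le_mul_of_nonneg_right ((le_max_right _ _).trans (le_max_right _ _)) (norm_nonneg _)

theorem s_et {Q : Type} [NormedAddCommGroup Q] [NormedSpace ℝ Q] {q : Q} {M a : Q → ℝ} {f : Q → R4}
    (σ : Bool) (hM : ContDiffAt ℝ ∞ M q) (ha : ContDiffAt ℝ ∞ a q) (hf : ContDiffAt ℝ ∞ f q)
    (h : |a q| < M q) (h1 : rp (M q) (a q) < rd (f q)) (h2 : rd (f q) + sg σ * (f q).2.2.2 ≠ 0) :
    ContDiffAt ℝ ∞ (fun q => (rd (f q), et (M q) (a q) σ (f q))) q := by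
  have r := s_rd hf (xs_ne ((rp_pos h).trans h1))
  have b := ((hM.pow 2).sub (ha.pow 2)).sqrt (dis_pos h).ne'
  have c : ContDiffAt ℝ ∞ (fun q => -ps (M q) (a q) (rd (f q))) q :=
    (((contDiffAt_const.mul ha).div ((hM.add b).sub (hM.sub b)) (sub_pos.2 (rm_lt h)).ne').mul
      (((r.sub (hM.add b)).log (sub_pos.2 h1).ne').sub
        ((r.sub (hM.sub b)).log (sub_pos.2 ((rm_lt h).trans h1)).ne'))).neg
  have d := r.add (contDiffAt_const (c := sg σ).mul hf.snd.snd.snd)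
  have e : ∀ q, et (M q) (a q) σ (f q) =
      ((Real.cos (-ps (M q) (a q) (rd (f q))) * (f q).2.1 -
        Real.sin (-ps (M q) (a q) (rd (f q))) * (f q).2.2.1) / (rd (f q) + sg σ * (f q).2.2.2),
      (Real.sin (-ps (M q) (a q) (rd (f q))) * (f q).2.1 +
        Real.cos (-ps (M q) (a q) (rd (f q))) * (f q).2.2.1) / (rd (f q) + sg σ * (f q).2.2.2)) :=
    fun q => by
      have : ‖P354YJ.rz (-ps (M q) (a q) (rd (f q))) (xs (f q))‖ = rd (f q) := rz_norm _ _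
      rw [et, P354J.Psi, this]
      rfl
  simp only [e]
  exact r.prodMk ((((c.cos.mul hf.snd.fst).sub (c.sin.mul hf.snd.snd.fst)).div d h2).prodMk
    (((c.sin.mul hf.snd.fst).add (c.cos.mul hf.snd.snd.fst)).div d h2))

theorem Th_val (M a : ℝ) (σ : Bool) (T : ℝ) {z : R4} (h : 0 ≤ z.2.1) :
    rd (Th M a σ T z) = z.2.1 ∧ (1 + z.2.2.1 ^ 2 + z.2.2.2 ^ 2) *
      (z.2.1 + sg σ * (Th M a σ T z).2.2.2) = 2 * z.2.1 := by
  refine ⟨?_, ?_⟩
  · rw [rd, Th, xs_pt, norm_smul, Real.norm_of_nonneg h]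
    exact (congrArg _ ((rz_norm _ _).trans (norm_eq_of_mem_sphere _))).trans (mul_one _)
  · have : 1 + z.2.2.1 ^ 2 + z.2.2.2 ^ 2 ≠ 0 := by positivity
    cases σ <;> simp [Th, P354XE.pt, P354YJ.rz, P354E.st, sg] <;> field_simp <;> ring

theorem etj : ETJ := by
  intro M a h
  have a0 := abs_nonneg a
  refine ⟨(M - |a|) / 4, by linarith, fun E r2 k => ?_⟩
  have sub : ∀ M' a', |M' - M| ≤ (M - |a|) / 4 → |a' - a| ≤ (M - |a|) / 4 →
      |a'| < M' ∧ rp M' a' < 3 * M := fun M' a' h1 h2 => by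
    have k1 := abs_le.1 h1
    have k2 : |a'| < M' := by linarith [abs_sub_abs_le_abs_sub a' a]
    have k3 := P354YR.rm_nn k2
    exact ⟨k2, by unfold rm at k3; unfold rp; linarith⟩
  let Z : Bool → Set (ℝ × ℝ × R4) := fun σ => Metric.closedBall M ((M - |a|) / 4) ×ˢ
    Metric.closedBall a ((M - |a|) / 4) ×ˢ ({y : R4 | y.1 = 0 ∧ 3 * M ≤ rd y ∧ rd y ≤ r2} ∩
      {y | rd y ≤ (1 + 2 * E ^ 2) * (rd y + sg σ * y.2.2.2)})
  have cZ : ∀ σ, IsCompact (Z σ) := fun σ => (isCompact_closedBall _ _).prod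
    ((isCompact_closedBall _ _).prod ((shell_cpt _ _).inter_right (isClosed_le rd_cont
      (continuous_const.mul (rd_cont.add (by fun_prop))))))
  have ne : ∀ σ (y : R4), 3 * M ≤ rd y → rd y ≤ (1 + 2 * E ^ 2) * (rd y + sg σ * y.2.2.2) →
      rd y + sg σ * y.2.2.2 ≠ 0 := fun σ y h1 h2 h3 => by
    rw [h3] at h2
    linarith
  have key : ∀ σ, ∃ C, ∀ j : Z σ × ℝ, Jb k (fun x => (rd x, et j.1.1.1 j.1.1.2.1 σ x))
      (j.2, j.1.1.2.2.2) C := fun σ => by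
    obtain ⟨C, -, hC⟩ := (oj_emb (x := fun j : Z σ × ℝ => (j.2, j.1.1.2.2.2)) pr0
      (Oj.fix (m := k) (F := fun w : ℝ × ℝ × R4 => (rd w.2.2, et w.1 w.2.1 σ w.2.2)) (cZ σ)
        (fun w hw => s_et σ contDiffAt_fst contDiffAt_snd.fst contDiffAt_snd.snd
          (sub _ _ hw.1 hw.2.1).1 ((sub _ _ hw.1 hw.2.1).2.trans_le hw.2.2.1.2.1)
          (ne σ _ hw.2.2.1.2.1 hw.2.2.2))
        fun j => ⟨j.1.2.1, j.1.2.2.1, ⟨rfl, j.1.2.2.2.1.2⟩, j.1.2.2.2.2⟩)).bd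
    exact ⟨C * 1, hC⟩
  choose C hC using key
  refine ⟨max 1 (max (C true) (C false)), le_max_left _ _, fun σ M' a' T z h1 h2 h3 h4 => ?_⟩
  have z0 : 0 < z.2.1 := by linarith [h3.1]
  obtain ⟨e1, e2⟩ := Th_val M' a' σ T z0.le
  obtain ⟨s1, s2⟩ := sub _ _ h1 h2
  set p := Th M' a' σ T z
  have k1 : rd p ≤ (1 + 2 * E ^ 2) * (rd p + sg σ * p.2.2.2) := by
    have n1 := sq_le_sq' (abs_le.1 ((norm_fst_le z.2.2).trans h4)).1
      (abs_le.1 ((norm_fst_le z.2.2).trans h4)).2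
    have n2 := sq_le_sq' (abs_le.1 ((norm_snd_le z.2.2).trans h4)).1
      (abs_le.1 ((norm_snd_le z.2.2).trans h4)).2
    have n3 : 0 < z.2.1 + sg σ * p.2.2.2 :=
      (mul_pos_iff_of_pos_left (by positivity)).1 ((mul_pos two_pos z0).trans_eq e2.symm)
    rw [e1]
    nlinarith
  have k2 : 3 * M ≤ rd p := e1 ▸ h3.1
  refine ⟨?_, fun i _ hi => (hC σ (⟨(M', a', pr0 p), h1, h2, ⟨rfl, k2, e1.trans_le h3.2⟩, k1⟩, p.1)
    i hi).trans (le_max_of_le_right (by cases σ <;> simp))⟩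
  filter_upwards [rd_cont.continuousAt.eventually_const_lt (s2.trans_le k2),
    (rd_cont.add (by fun_prop : Continuous fun y : R4 => sg σ * y.2.2.2)).continuousAt.eventually_ne
      (ne σ p k2 k1)] with x x1 x2
  exact s_et σ contDiffAt_const contDiffAt_const contDiffAt_id s1 x1 x2

end Vale.Agent.P354YI
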