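import Vale.Agent.P354YI.Nr
import Vale.Agent.P354YA.Mir
import Vale.Agent.P354LC.Agr2
import Vale.Agent.P354S0.Dat
import Vale.Agent.P354YT.Line

/-!
The assembly of INI from the core, the two ends and the gluing.
-/

set_option maxSynthPendingDepth 3

open scoped ContDiff
open Set Filter Topology

noncomputable section

namespace Vale.Agent.P354YI

open Vale.Agent.P354n (R4)
open Vale.Agent.P354I (X Dat rm rp)
open Vale.Agent.P354R (Pull)
open Vale.Agent.P354XS (BA)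
open Vale.Agent.P354XE (Tw pt xs rd eT Bd pb gin ka kap mf mir)
open Vale.Agent.P354XV (Lv In0 jet Jet)
open Vale.Agent.P354YR
open Vale.Agent.P354YT (Pm)
open Vale.Agent.P354YA (La mx mir_pt mirD mirD_mirD mirD_BA mx_ne sm_bd)

variable {M a θ θ1 e e' : ℝ} {g k k' : Tw} {D O E : Set R4} {f : R4 → R4} {p : R4} {y : X}
  {d : Dat} {c : Pm} {m m' : ℕ}

theorem pull_as (P : Pull f k' O k E) (l : Lv g D) :
    Pull f (pb f g) {q | q ∈ O ∧ f q ∈ D} g D :=
  ⟨P.smooth.continuousOn.isOpen_inter_preimage P.open' l.isOpen, l.isOpen, l.met,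
    P.smooth.mono fun _ h => h.1, fun _ h => h.2, fun _ h => P.inj _ h.1, fun _ _ _ _ => rfl⟩

theorem ba_mono {η η' : ℝ} (h : m ≤ m') (h' : η' ≤ η) : BA M a m' η' ⊆ BA M a m η := fun _ hd =>
  ((P354XQ.qm_mono h _ _).trans_lt hd).trans_le (ENNReal.ofReal_le_ofReal h')

theorem in0_mir (hI : INP) (h : |a| < M) (l : Lv g D) (hy : y ≠ 0) (s : pt 0 (mx M a y) ∈ D)
    (I : In0 g d (mx M a y)) : In0 (pb (mir M a) g) (d.pull (mx M a)) y := by
  have hp := p0_mem h hy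
  refine hI _ _ _ _ _ _ _ _ (pull_as (mir_pull h) l) ⟨hp, by rwa [mir_pt]⟩
    (.of_forall fun z => mir_pt 0 z) ?_ I
  have := congrArg (· eT) (fderiv.fst ((s_mir (M := M) (a := a) hp.1).differentiableAt (by simp)))
  rw [show (fun x => (mir M a x).1) = Prod.fst from rfl, fderiv_fst] at this
  exact one_pos.trans_eq this

theorem la_ab (h : c.Ok) (b : 2 * θ1 ≤ Real.exp (ka c.M c.a * c.be 0)) :
    La c.M c.a c.r1 θ θ1 ⊆ Ab c θ := fun p hp => by
  have a : p ∈ DI c.M c.a := h.r1.1.trans hp.1.1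
  have r0 := h.pos hp.1.1
  have : p.1 ≤ c.be (rd p) := by
    rcases hp.2.2 with k | k
    · have k1 := P354LC.kin_sl h.sub (kap_mem h.sub a) k
      rw [kin_kap h.sub a] at k1
      exact k1.trans_le (h.be_ge (not_le.1 fun r => ((P354YT.kap_cont h.sub a).2 r).ne' k))
    · have k1 : kV c.M c.a (kap c.M c.a p) ≤ _ := (add_le_add le_rfl (le_abs_self _)).trans k
      rw [kap_V h.sub a, kap_r h.sub a, pV, mul_comm] at k1
      exact (le_of_mul_le_mul_left (Real.exp_le_exp.1 ((le_of_mul_le_mul_right k1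
        (mf_pos a)).trans b)) (ka_pos h.sub)).trans (h.be_mono r0.le)
  exact ⟨hp.1, (sub_le_sub_right (div_nonpos_of_nonpos_of_nonneg (sub_nonpos.2 this)
    (mul_pos h.del.1 r0).le) 2).trans (by norm_num)⟩

theorem Cg.mono {N : P354XV.Nat} {j : ℕ} {W : R4 × Jet j → R4} (h : Cg c N j W θ θ1 m e g)
    (k : e ≤ e') : Cg c N j W θ θ1 m e' g :=
  ⟨h.lv, h.col, fun p hp i hi v w => (h.sml p hp i hi v w).trans (mul_le_mul_of_nonneg_right
    (div_le_div_of_nonneg_right k (by have := rd_nn p; positivity)) (by positivity)), h.gau, h.ini⟩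

theorem Cg.eg {N : P354XV.Nat} {j : ℕ} {W : R4 × Jet j → R4} {gc : Tw} {σ : Bool} {κ : ℝ}
    (h : Cg c N j W θ θ1 m e gc) (s : La c.M c.a c.r1 θ θ1 ⊆ Ab c θ) (h0 : 0 ≤ e) (k : e ≤ κ)
    (q : ∀ p ∈ Ab c θ, ex c.M c.a p ≤ 6 / 5 * θ1 → gc =ᶠ[𝓝 p] pb (P354XE.ch c.M c.a σ) g)
    (i : ∀ y, pt 0 y ∈ DE c.M c.a σ → ci c.M c.a σ (pt 0 y) ∈ Ab c θ →
      In0 (pb (ci c.M c.a σ) gc) d y) : Eg c.M c.a c.r1 θ θ1 κ σ d g gc :=
  ⟨h.lv.imp fun _ a => ⟨a.1, s.trans a.2⟩, fun p hp => bd_le (sm_bd h0 (h.sml p (s hp)))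
    (Nat.zero_le _) k, fun p hp => q p (s hp), fun y a b => i y a (s b)⟩

/-- The data of the second end. -/
theorem in0_back (hI : INP) (h : |a| < M) (d : P354XS.DA M a) (l : Lv g D)
    (hy : pt 0 y ∈ DE M a false) (s : ci M a false (pt 0 y) ∈ D)
    (i : pt 0 (mx M a y) ∈ DE M a true → In0 (pb (kin M a) g) (mirD h d).1 (mx M a y)) :
    In0 (pb (ci M a false) g) d.1 y := by
  have y0 : y ≠ 0 := (xs_pt 0 y) ▸ hy.1.1
  have u : mir M a (pt 0 y) ∈ DE M a true :=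
    ⟨mir_mem h hy.1, (show 0 < kU M a _ from hy.2).trans_eq (mir_V h hy.1.1).symm⟩
  have b := in0_mir hI h (l.pull (pull_as (isCh h true).back l)) y0
    (by rw [← mir_pt]; exact ⟨u, s⟩) (i (by rwa [← mir_pt]))
  have e := mirD_mirD h d y y0
  exact P354S0.in0_congr ⟨e.1.symm, e.2.symm⟩ (in0_congr b (pb_comp (s_mir hy.1.1) (s_kin u)))

/-- **AIN.** -/
theorem ain : AIN := by
  intro hC hE hK hI M a ha h r1 hr θ0 h0
  obtain ⟨θk, k0, hK⟩ := hK M a r1 ha h hr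
  have t0 : 0 < min θk (θ0 / 2) := lt_min k0 (half_pos h0)
  have t1 := min_le_left θk (θ0 / 2)
  have t2 : min θk (θ0 / 2) < θ0 := (min_le_right _ _).trans_lt (half_lt_self h0)
  generalize min θk (θ0 / 2) = θ at t0 t1 t2
  obtain ⟨θ2, hE⟩ := hE M a h θ t0
  have m0 := mf_pos hr.1
  obtain ⟨θ1, u1, u2, big⟩ : ∃ θ1, 2 * θ ≤ θ1 ∧ θ2 ≤ θ1 ∧ rp M a - r1 ≤ θ * θ1 * mf M a r1 ^ 2 :=
    ⟨max (max (2 * θ) θ2) ((rp M a - r1) / (θ * mf M a r1 ^ 2)),
      (le_max_left _ _).trans (le_max_left _ _), (le_max_right _ _).trans (le_max_left _ _), by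
        rw [mul_right_comm]
        exact (div_le_iff₀' (by positivity)).1 (le_max_right _ _)⟩
  obtain ⟨R0, hE⟩ := hE θ1 u2
  obtain ⟨Kk, ck, sk, κ, κ0, hK⟩ := hK θ ⟨t0, t1⟩ θ1 u1 big
  refine ⟨θ, ⟨t0, t2⟩, θ1, by linarith, big, R0, fun c eM ea er N j U W ad nk m e he => ?_⟩
  obtain ⟨bot, hE⟩ := hE c eM ea N j U W ad nk
  subst eM ea er
  have e0 := lt_min he κ0
  obtain ⟨Ke, ce, se, m1, η1, e1, hE⟩ := hE m _ e0
  have sm : ∀ p ∈ Ke, ContDiffAt ℝ ∞ (mir c.M c.a) p := fun p hp => s_mir (se p hp).1.1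
  obtain ⟨C, c0, hb⟩ := P354DT.bd_pb m1 ce sm
  obtain ⟨m2, η2, e2, hC⟩ := hC _ _ h (Kk ∪ (Ke ∪ mir c.M c.a '' Ke)) (ck.union (ce.union
    (ce.image_of_continuousOn fun p hp => (sm p hp).continuousAt.continuousWithinAt))) (by
      rintro _ (hp | hp | ⟨p, hp, rfl⟩)
      exacts [sk _ hp, se _ hp, ⟨mir_mem h (se p hp).1, (se p hp).2⟩]) (max m m1)
    (min (min e κ) (min η1 (η1 / (C + 1)))) (by positivity)
  obtain ⟨η3, e3, -, hB⟩ := mirD_BA h (max m1 m2) (lt_min e1 e2)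
  refine ⟨max m1 m2, η3, e3, fun d hd => ?_⟩
  obtain ⟨d1, d2⟩ := hB d hd
  obtain ⟨g, D, l, b, I⟩ := hC d (ba_mono (le_max_right _ _) (min_le_right _ _) d1)
  obtain ⟨g1, c1, q1, i1⟩ := hE d (ba_mono (le_max_left _ _) (min_le_left _ _) d1) g D l
    (fun p hp => (b p (.inr (.inl hp))).imp_right fun k => bd_le k (le_max_right _ _)
      ((min_le_right _ _).trans (min_le_left _ _))) fun y hy => I y (.inr (.inl hy))
  obtain ⟨g2, c2, q2, i2⟩ := hE _ (ba_mono (le_max_left _ _) (min_le_left _ _) d2) _ _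
    (l.pull (pull_as (mir_pull h) l)) (fun p hp => by
      obtain ⟨k1, k2⟩ := b _ (.inr (.inr ⟨p, hp, rfl⟩))
      have o := l.isOpen.inter (open_DK (M := c.M) (a := c.a))
      refine ⟨⟨(se p hp).1, k1⟩, bd_congr (bd_le (hb p hp g _ _ _ o (l.mono o inter_subset_left).met
        (P354XV.met_mono (gK_met h) inter_subset_right) ⟨k1, mir_mem h (se p hp).1⟩
        (bd_le k2 (le_max_right _ _) ((min_le_right _ _).trans (min_le_right _ _)))) le_rfl
        (frac_le c0 e1)) (EventuallyEq.rfl.sub ?_)⟩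
      exact (open_ne.eventually_mem (se p hp).1.1).mono fun x hx =>
        funext₂ fun v w => mir_gK h hx v w)
    fun y hy => by
      have k : pt 0 (mx c.M c.a y) ∈ Kk ∪ (Ke ∪ mir c.M c.a '' Ke) :=
        .inr (.inr ⟨_, hy, mir_pt 0 y⟩)
      exact in0_mir hI h l ((xs_pt 0 y) ▸ (se _ hy).1.1) (b _ k).1 (I _ k)
  have s := la_ab (θ := θ) ad.1 bot
  obtain ⟨D', g0, X0, co, ag⟩ := hK m _ d.1 g D (fun σ => bif σ then g1 else g2)
    (min_le_right e κ) l (fun p hp => (b p (.inl hp)).imp_right fun k =>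
      bd_le k (le_max_left _ _) (min_le_left _ _)) (fun y hy => I y (.inl hy)) fun σ => by
    cases σ
    · obtain ⟨W2, l2, s2⟩ := c2.lv
      refine c2.eg s e0.le (min_le_right _ _) (fun p hp k => (q2 p hp k).trans ?_)
        fun y a b => in0_back hI h d l2 a (s2 b) fun a' => i2 _ a' (by rwa [← mir_pt])
      have a : p ∈ DI c.M c.a := ad.1.r1.1.trans hp.1.1
      exact (pb_comp (s_kap h a) (s_mir (kap_mem h a).1.1)).symm
    · exact c1.eg s e0.le (min_le_right _ _) q1 i1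
  refine ⟨D', g0, X0, ⟨co.lor, co.sub, co.ind, co.box, fun p hp k =>
    bd_le (co.mid p hp k) le_rfl (min_le_left _ _)⟩, fun σ => ⟨_, ?_, ag σ⟩⟩
  cases σ
  exacts [c2.mono (min_le_left _ _), c1.mono (min_le_left _ _)]

end Vale.Agent.P354YI
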