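import Vale.Agent.P354YA.Inst
import Vale.Agent.P354TR.Trans

/-!
The pieces of the last gluing of INI. Exact statements.
-/

set_option maxSynthPendingDepth 3

open scoped ContDiff
open Set Filter Topology

noncomputable section

namespace Vale.Agent.P354YI

open Vale.Agent.P354n (R4)
open Vale.Agent.P354I (X Dat rm rp)
open Vale.Agent.P354R (Pull)
open Vale.Agent.P354XS (BA)
open Vale.Agent.P354XE (Tw pt xs rd eT Bd pb gin Lo En ka mf kap ch)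
open Vale.Agent.P354XV (Lv In0 Gq jet Jet Col)
open Vale.Agent.P354YR (gK DK DE DI ci kin)
open Vale.Agent.P354YT (Pm)
open Vale.Agent.P354YA (La Core Agr INI)

/-- The size of an ingoing time. -/
def ex (M a : ℝ) (p : R4) : ℝ := Real.exp (ka M a * p.1)

/-- INP: the induced data under maps which preserve the slice. -/
def INP : Prop :=
  ∀ f g' D' g D (d : Dat) (ψ : X → X) y, Pull f g' D' g D → pt 0 y ∈ D' →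
    (∀ᶠ z in 𝓝 y, f (pt 0 z) = pt 0 (ψ z)) → 0 < (fderiv ℝ f (pt 0 y) eT).1 →
    In0 g d (ψ y) → In0 g' (d.pull ψ) y

/-- INB: the induced data under maps of the ingoing chart which fix the slice. -/
def INB : Prop :=
  ∀ M a : ℝ, |a| < M → ∀ b g' D' g D (d : Dat) y, Pull b g' D' g D → pt 0 y ∈ DE M a true →
    kin M a (pt 0 y) ∈ D' →
    0 < LinearMap.det (fderiv ℝ b (kin M a (pt 0 y)) : R4 →ₗ[ℝ] R4) →
    (∀ x ∈ D', x ∈ Sig0 M a → b x = x) → In0 (pb (kin M a) g) d y → In0 (pb (kin M a) g') d y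

/-- A chart Ψ of r > r0, with the inverse π, which straightens X; its first coordinate is
t - β r. -/
structure Cht (c : Pm) (r0 : ℝ) (β : ℝ → ℝ) (Ψ π : R4 → R4) (O : Set R4) (f : R4 → ℝ) :
    Prop where
  inv : P354TR.Inv Ψ π {p | r0 < rd p} O
  det : ∀ p, r0 < rd p → 0 < LinearMap.det (fderiv ℝ Ψ p : R4 →ₗ[ℝ] R4)
  fst : ∀ p, (Ψ p).1 = p.1 - β (rd p)
  sm : ContDiffOn ℝ ∞ f O
  pos : ∀ z ∈ O, 0 < f z
  str : ∀ p, r0 < rd p → fderiv ℝ Ψ p (c.X p) = f (Ψ p) • eT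
  star : ∀ z ∈ O, ∀ s ≤ z.1, (s, z.2) ∈ O ∧ (π (s, z.2)).1 ≤ (π z).1 ∧
    rd (π (s, z.2)) ∈ uIcc c.R1 (rd (π z))
  cont : Continuous β
  mono : Monotone β
  far : ∀ r ≥ 10 * c.M + 1, β r = P354YT.tb c.M c.a r
  ge : ∀ r > rp c.M c.a, P354YT.tb c.M c.a r ≤ β r

/-- CHT: the chart exists. -/
def CHT : Prop :=
  ∀ c : Pm, c.Ok → ∀ r0 ∈ Ioo (rm c.M c.a) (rp c.M c.a), ∃ β Ψ π O f, Cht c r0 β Ψ π O f

/-- RG2: the change of gauge of REG, cut off by χ. -/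
def RG2 : Prop :=
  ∀ N : P354XV.Nat, N.Is → ∀ k, ∃ m, ∀ B : ℝ, ∀ r > 0, ∀ e > 0, ∃ η > 0,
    ∀ A O D g0 g f π w0 (χ : R4 → ℝ), RgIn N m B r η A O D g0 g f π w0 → ContDiffOn ℝ ∞ χ O →
      (∀ z ∈ A, χ z ∈ Icc (0 : ℝ) 1 ∧ Jb m χ z B) →
      ∃ W b, A ⊆ W ∧ W ⊆ O ∧ Pull b (pb b g) W g D ∧
        (∀ z ∈ W, 0 < LinearMap.det (fderiv ℝ b z : R4 →ₗ[ℝ] R4) ∧
          (χ z = 0 ∨ z.1 = 0 → b z = z) ∧
          ((∀ᶠ x in 𝓝 z, χ x = 1) → Gq N (π z) (pb b g) (fun x => f x • eT) z ∧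
            (z.1 = 0 → fderiv ℝ b z (f z • eT) = w0 z))) ∧
        ∀ z ∈ A, Bd k (pb b g - g0) z e

/-- VEL: the change of the initial velocity on K1, extended to a neighbourhood of K. -/
def VEL : Prop :=
  ∀ k (U : Set (R4 × Jet k)) (W : R4 × Jet k → R4) g0 D0 (K1 K : Set R4), IsOpen U →
    ContDiffOn ℝ ∞ W U → Lv g0 D0 → IsCompact K1 → IsCompact K → K1 ⊆ K → K ⊆ D0 →
    (∀ p ∈ K1, (p, jet k g0 p) ∈ U) → ∀ m, ∀ e > 0, ∃ η > 0, ∀ g D, Lv g D →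
      (∀ p ∈ K, p ∈ D ∧ Bd (m + k) (g - g0) p η) →
      ∃ O δ, IsOpen O ∧ K ⊆ O ∧ ContDiffOn ℝ ∞ δ O ∧ (∀ p ∈ K, Jb m δ p e) ∧
        ∀ p ∈ K1, (p, jet k g p) ∈ U ∧ δ p = W (p, jet k g p) - W (p, jet k g0 p)

/-- The near part of an end. -/
def Nq (M a r θ R T : ℝ) : Set R4 :=
  {p | r ≤ rd p ∧ rd p ≤ R ∧ θ ≤ ex M a p ∧ (rp M a < rd p → P354YT.tb M a (rd p) ≤ p.1) ∧ p.1 ≤ T}

/-- The change of gauge b on the near part A. -/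
structure Nr (c : Pm) (N : P354XV.Nat) (k : ℕ) (W : R4 × Jet k → R4) (θ1 : ℝ) (A : Set R4) (m : ℕ)
    (e : ℝ) (g : Tw) (D : Set R4) (g' : Tw) (D' : Set R4) (b : R4 → R4) : Prop where
  pull : Pull b g' D' g D
  sub : A ⊆ D'
  det : ∀ p ∈ D', 0 < LinearMap.det (fderiv ℝ b p : R4 →ₗ[ℝ] R4)
  idn : ∀ p ∈ D', ex c.M c.a p ≤ 13 / 10 * θ1 ∨ p ∈ Sig0 c.M c.a → b p = p
  gau : ∀ p ∈ D', 7 / 5 * θ1 ≤ ex c.M c.a p → Gq N p g' c.X p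
  ini : ∀ p ∈ A, p ∈ Sig0 c.M c.a → 7 / 5 * θ1 ≤ ex c.M c.a p → c.X p = W (p, jet k g' p)
  bd : ∀ p ∈ A, Bd m (g' - gin c.M c.a) p e

/-- NEAR: the gauge on the near part. -/
def NEAR : Prop :=
  ∀ (c : Pm) N k U W (θ θ1 R T : ℝ), c.Ok → Nk c N k U W → 0 < θ →
    Real.exp (ka c.M c.a * P354YT.tb c.M c.a (10 * c.M + 1)) ≤ θ1 → ∀ m, ∀ e > 0,
    ∃ K, IsCompact K ∧ (∀ p ∈ K, p ∈ DI c.M c.a ∧ 0 ≤ (kap c.M c.a p).1) ∧ ∃ m', ∃ η > 0,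
      ∀ g D, Lv g D → (∀ p ∈ K, p ∈ D ∧ Bd m' (g - gin c.M c.a) p η) →
        ∃ g' D' b, Nr c N k W θ1 (Nq c.M c.a c.r1 θ R T) m e g D g' D' b

/-- CLR: the conditions on the collar follow from smallness and the gauge. -/
def CLR : Prop :=
  ∀ (c : Pm) N k U W, c.Ok → Nk c N k U W → ∃ m, ∃ e > 0, ∀ (θ : ℝ) gc W0,
    θ ≤ Real.exp (ka c.M c.a * c.be 0) → Lv gc W0 → Ab c θ ⊆ W0 →
    (∀ p ∈ Ab c θ, Bd m (gc - gin c.M c.a) p e) → (∀ p ∈ c.sc.Cl 0, Gq N p gc c.X p) →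
    Col N c.sc gc

/-- END1: the metric on the collar of one end. -/
def END1 : Prop :=
  ∀ M a : ℝ, |a| < M → ∀ θ > 0, ∃ θ2, ∀ θ1 ≥ θ2, ∃ R0, ∀ c : Pm, c.M = M → c.a = a →
    ∀ N k U W, Ad c R0 → Nk c N k U W → 2 * θ1 ≤ Real.exp (ka M a * c.be 0) ∧ ∀ m, ∀ e > 0,
      ∃ K, IsCompact K ∧ (∀ p ∈ K, p ∈ DK M a ∧ 0 ≤ p.1) ∧ ∃ m', ∃ η > 0,
        ∀ d ∈ BA M a m' η, ∀ g D, Lv g D → (∀ p ∈ K, p ∈ D ∧ Bd m' (g - gK M a) p η) →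
          (∀ y, pt 0 y ∈ K → In0 g d.1 y) →
          ∃ gc, Cg c N k W θ θ1 m e gc ∧
            (∀ p ∈ Ab c θ, ex M a p ≤ 6 / 5 * θ1 → gc =ᶠ[𝓝 p] pb (kap M a) g) ∧
            ∀ y, pt 0 y ∈ DE M a true → kin M a (pt 0 y) ∈ Ab c θ → In0 (pb (kin M a) gc) d.1 y

/-- What the gluing in the Kruskal chart uses of the metric gc of the end σ. -/
structure Eg (M a r1 θ θ1 κ : ℝ) (σ : Bool) (d : Dat) (g gc : Tw) : Prop where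
  lv : ∃ W, Lv gc W ∧ La M a r1 θ θ1 ⊆ W
  cl : ∀ p ∈ La M a r1 θ θ1, Bd 0 (gc - gin M a) p κ
  eq : ∀ p ∈ La M a r1 θ θ1, ex M a p ≤ 6 / 5 * θ1 → gc =ᶠ[𝓝 p] pb (ch M a σ) g
  ind : ∀ y, pt 0 y ∈ DE M a σ → ci M a σ (pt 0 y) ∈ La M a r1 θ θ1 → In0 (pb (ci M a σ) gc) d y

/-- KGL: the gluing in the Kruskal chart. -/
def KGL : Prop :=
  ∀ M a r1 : ℝ, a ≠ 0 → |a| < M → r1 ∈ Ioo (rm M a) (rp M a) → ∃ θ0 > 0, ∀ θ ∈ Ioc 0 θ0,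
    ∀ θ1 ≥ 2 * θ, rp M a - r1 ≤ θ * θ1 * mf M a r1 ^ 2 →
      ∃ K, IsCompact K ∧ (∀ p ∈ K, p ∈ DK M a ∧ 0 ≤ p.1) ∧ ∃ κ > 0,
        ∀ m e d g D (gc : Bool → Tw), e ≤ κ → Lv g D →
          (∀ p ∈ K, p ∈ D ∧ Bd m (g - gK M a) p e) → (∀ y, pt 0 y ∈ K → In0 g d y) →
          (∀ σ, Eg M a r1 θ θ1 κ σ d g (gc σ)) →
          ∃ D' g0 X0, Core M a r1 θ θ1 e m d D' g0 X0 ∧ ∀ σ, Agr M a r1 θ θ1 σ g0 X0 (gc σ)

/-- The three assemblies. -/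
def ANR : Prop := CHT → RG2 → VEL → NEAR
def AEN : Prop := NEAR → CLR → INB → FARW → AGR → END1
def AIN : Prop := CORE → END1 → KGL → INP → INI

end Vale.Agent.P354YI
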