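import Vale.Agent.P354YI.Int

/-!
FTS: stability for a finite time, by induction over short steps.
-/

set_option maxSynthPendingDepth 3

open scoped ContDiff
open Set Filter Topology Metric

noncomputable section

namespace Vale.Agent.P354YI

open Vale.Agent.P354n (R4)
open Vale.Agent.P354I (X Dat)
open Vale.Agent.P354XE (Tw pt xs eT Bd)
open Vale.Agent.P354XV
open Vale.Agent.P354UG (ol ol_open nice_cpt lv_shift in0_ex)

variable {g0 : Tw} {D0 : Set R4} {Φ : R4 → ℝ} {T : ℝ} {d0 : Dat}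

/-- The hypotheses of FTS. -/
structure Fi (g0 : Tw) (D0 : Set R4) (Φ : R4 → ℝ) (T : ℝ) : Prop where
  lv : Lv g0 D0
  sm : ContDiff ℝ ∞ Φ
  cpt : IsCompact {p : R4 | p.1 ∈ Icc 0 (T + 1) ∧ Φ p ≤ 1}
  cau : ∀ p : R4, p.1 ∈ Icc 0 (T + 1) → Φ p ≤ 1 → p ∈ D0 ∧ Spl g0 Prod.fst p ∧
    0 < fderiv ℝ Φ p eT ∧ ∀ v, g0 p v v ≤ 0 → 0 < v.1 → 0 < fderiv ℝ Φ p v

theorem sh1 (p : R4) (l : ℝ) : (p + l • eT).1 = p.1 + l := by simp [eT]
theorem sh2 (p : R4) (l : ℝ) : (p + l • eT).2 = p.2 := by simp [eT]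
theorem sh3 (s l : ℝ) (p : R4) : ((s, p.2) : R4) + l • eT = (s + l, (p + l • eT).2) := by simp [eT]
theorem sh_xs (p : R4) (l : ℝ) : xs (p + l • eT) = xs p := by simp [eT, xs]

theorem dist_pt (s t : ℝ) (y z : X) : dist (pt s y) (pt t z) ≤ max (dist s t) (dist y z) := by
  have k := fun i => PiLp.dist_apply_le y z i
  simp only [pt, Prod.dist_eq]
  exact max_le_max le_rfl (max_le (k 0) (max_le (k 1) (k 2)))

theorem spl_of {k : ℕ} {B : ℝ} {g : Tw} {p : R4} (n : Nice k B g Prod.fst p) :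
    Spl g Prod.fst p := fun v v0 hv =>
  pos_of_mul_pos_right ((pow_pos (norm_pos_iff.2 v0) 2).trans_le (n.sp v hv)) n.pos.le

theorem Fi.mono (F : Fi g0 D0 Φ T) {l : ℝ} (l0 : 0 ≤ l) {p : R4} (h1 : p.1 + l ≤ T + 1)
    (h2 : Φ (p + l • eT) ≤ 1) {s : ℝ} (hs : s ∈ Icc 0 p.1) :
    Φ ((s, p.2) + l • eT) ≤ Φ (p + l • eT) := by
  rw [sh3]
  exact mono_of (F.sm.differentiable (by simp)) (fun p a b => (F.cau p a b).2.2.1)
    ((sh1 p l).trans_le h1) h2 ⟨by linarith [hs.1], by rw [sh1]; linarith [hs.2]⟩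

/-- Uniform bounds for the slices near a given slice. -/
theorem Fi.ref (F : Fi g0 D0 Φ T) (s : ℝ) :
    ∃ K U a, 0 < a ∧ IsCompact K ∧ IsOpen U ∧ closure U ⊆ interior K ∧ ∀ m, ∃ B > 0, ∀ l ∈ Icc 0 T,
      |l - s| ≤ a → ∀ c ∈ Icc (0 : ℝ) (1 / 2),
        (∀ y ∈ K, pt 0 y + l • eT ∈ D0 ∧ Spl g0 Prod.fst (pt 0 y + l • eT)) ∧
        ∀ d, (∀ y ∈ K, In0 (fun x => g0 (x + l • eT)) d y) → Ref m B a K U
          (fun x => g0 (x + l • eT)) {x | x + l • eT ∈ D0} (fun x => Φ (x + l • eT) - c) d := by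
  obtain ⟨B0, -, r, r0, h0⟩ := nice_cpt (f := Prod.fst) 0 F.lv F.cpt fun p hp =>
    ⟨(F.cau p hp.1 hp.2).1, contDiffAt_fst, (F.cau p hp.1 hp.2).2.1⟩
  obtain ⟨c1, c10, hc1⟩ := cau_cpt F.lv F.sm F.cpt fun p hp => F.cau p hp.1 hp.2
  have cA := (F.cpt.inter_right (isClosed_eq continuous_fst (continuous_const (y := s)))).image
    xs_cont
  set A := xs '' ({p : R4 | p.1 ∈ Icc 0 (T + 1) ∧ Φ p ≤ 1} ∩ {x | x.1 = s})
  obtain ⟨ρ, ρ0, hρ⟩ := (F.cpt.diff ((isOpen_thickening (δ := r / 8) (E := A)).preimage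
    xs_cont)).exists_forall_le' (a := 0) (f := fun q => |q.1 - s|) (by fun_prop) fun q hq =>
      abs_pos.2 (sub_ne_zero.2 fun e : q.1 = s => hq.2 (self_subset_thickening (by positivity) _
        ⟨q, ⟨hq.1, e⟩, rfl⟩))
  have cK : IsCompact (cthickening (r / 2) A) := cA.cthickening
  obtain ⟨a, a0, a1, a2, a3⟩ : ∃ a, 0 < a ∧ a ≤ ρ / 3 ∧ a ≤ r / 8 ∧ a ≤ 1 / 4 :=
    ⟨min (ρ / 3) (min (r / 8) (1 / 4)), by positivity, min_le_left _ _,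
      (min_le_right _ _).trans (min_le_left _ _), (min_le_right _ _).trans (min_le_right _ _)⟩
  have cQ : IsCompact (cthickening r {p : R4 | p.1 ∈ Icc 0 (T + 1) ∧ Φ p ≤ 1}) := F.cpt.cthickening
  have hQ : ∀ q ∈ cthickening r {p : R4 | p.1 ∈ Icc 0 (T + 1) ∧ Φ p ≤ 1},
      q ∈ D0 ∧ Spl g0 Prod.fst q := fun q hq => by
    rw [F.cpt.cthickening_eq_biUnion_closedBall r0.le] at hq
    obtain ⟨p, hp, e⟩ := mem_iUnion₂.1 hq
    exact ⟨(h0 p hp q e).1, spl_of (h0 p hp q e).2⟩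
  refine ⟨_, thickening (r / 4) A, a, a0, cK, isOpen_thickening,
    ((closure_thickening_subset_cthickening _ _).trans (cthickening_subset_thickening'
      (by positivity) (by linarith) _)).trans (thickening_subset_interior_cthickening _ _),
    fun m => ?_⟩
  obtain ⟨B1, -, r1, r10, h1⟩ := nice_cpt (f := Prod.fst) m F.lv cQ fun p hp =>
    ⟨(hQ p hp).1, contDiffAt_fst, (hQ p hp).2⟩
  obtain ⟨B2, -, h2⟩ := ex_jb m (f := Φ) ((isCompact_Icc (a := 0) (b := T + 1)).prod cK |>.image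
    (f := fun q : ℝ × X => pt q.1 q.2) (by unfold pt; fun_prop)) fun _ _ => F.sm.contDiffAt
  refine ⟨max (max B1 (B2 + 1)) c1⁻¹, lt_max_of_lt_right (inv_pos.2 c10), fun l hl ls c hc => ?_⟩
  have inQ : ∀ y ∈ cthickening (r / 2) A, pt 0 y + l • eT ∈
      cthickening r {p : R4 | p.1 ∈ Icc 0 (T + 1) ∧ Φ p ≤ 1} := fun y hy => by
    rw [cA.cthickening_eq_biUnion_closedBall (by positivity)] at hy
    obtain ⟨_, ⟨p, hp, rfl⟩, e⟩ := mem_iUnion₂.1 hy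
    refine mem_cthickening_of_dist_le _ p r _ hp.1 ?_
    rw [show pt 0 y + l • eT = pt l y by simp [pt, eT], show p = pt s (xs p) from hp.2 ▸ rfl]
    exact (dist_pt _ _ _ _).trans (max_le (ls.trans (by linarith)) (e.trans (by linarith)))
  have nc : ∀ q : R4, q + l • eT ∈ cthickening r {p : R4 | p.1 ∈ Icc 0 (T + 1) ∧ Φ p ≤ 1} →
      Nice m (max (max B1 (B2 + 1)) c1⁻¹) (fun x => g0 (x + l • eT)) Prod.fst q := fun q hq =>
    ((h1 _ hq _ ((dist_self _).trans_le r10.le)).2.le le_rfl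
      ((le_max_left _ _).trans (le_max_left _ _))).shift
  have mQ : ∀ p : R4, p.1 ∈ Icc 0 a → Φ (p + l • eT) - c ≤ a →
      p + l • eT ∈ {p : R4 | p.1 ∈ Icc 0 (T + 1) ∧ Φ p ≤ 1} := fun p hp e =>
    ⟨by rw [sh1]; constructor <;> linarith [hp.1, hp.2, hl.1, hl.2], by linarith [hc.2]⟩
  have sΦ : ContDiff ℝ ∞ fun x => Φ (x + l • eT) := F.sm.comp (contDiff_id.add contDiff_const)
  refine ⟨fun y hy => hQ _ (inQ y hy), fun d hd => ⟨lv_shift F.lv _, sΦ.sub contDiff_const,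
    fun y hy => ⟨(hQ _ (inQ y hy)).1, nc _ (inQ y hy), hd y hy⟩, fun p hp e => ?_,
    fun p hp e s hs => sub_le_sub_right (F.mono hl.1 (by linarith [hp.2, hl.2]) (mQ p hp e).2 hs) _,
    fun p hp e => ?_⟩⟩
  · have k : Jb m (fun x => Φ (x + l • eT)) p B2 := fun j hj => by
      rw [iteratedFDeriv_comp_add_right]
      exact h2 _ ⟨(p.1 + l, xs p), ⟨⟨by linarith [hp.1, hl.1], by linarith [hp.2, hl.2]⟩,
        thickening_subset_cthickening_of_le (by linarith) _ e⟩,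
        Prod.ext (sh1 p l).symm (sh2 p l).symm⟩ j hj
    refine ((k.add (jb_const m (-c) p) sΦ.contDiffAt contDiffAt_const).congr
      (.of_forall fun _ => sub_eq_add_neg _ _)).mono le_rfl (le_max_of_le_left
        (le_max_of_le_right ?_))
    rw [norm_neg, Real.norm_of_nonneg hc.1]
    linarith [hc.2]
  · have q := mQ p hp e
    have q' := self_subset_cthickening (δ := r) _ q
    have u : xs p ∈ thickening (r / 8) A := by
      by_contra n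
      have := hρ _ ⟨q, by rwa [mem_preimage, sh_xs]⟩
      rw [sh1] at this
      rcases le_abs.1 this with e | e <;> linarith [(abs_le.1 ls).1, (abs_le.1 ls).2, hp.1, hp.2]
    have w : c1⁻¹ ≤ max (max B1 (B2 + 1)) c1⁻¹ := le_max_right _ _
    have i0 := inv_pos.2 c10
    have fd : fderiv ℝ (fun x => Φ (x + l • eT) - c) p = fderiv ℝ Φ (p + l • eT) := by
      rw [fderiv_sub_const, fderiv_comp_add_right]
    refine ⟨fun z hz => ?_, (hQ _ q').1, nc _ q', ?_, fun v hv v0 => ?_⟩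
    · obtain ⟨y, hy, e⟩ := mem_thickening_iff.1 u
      exact mem_thickening_iff.2 ⟨y, hy, by linarith [dist_triangle z (xs p) y, mem_closedBall.1 hz]⟩
    · rw [fd]
      exact (inv_mul_cancel₀ c10.ne').ge.trans (mul_le_mul w (hc1 _ q).1 c10.le (i0.le.trans w))
    · rw [fd]
      exact (inv_mul_cancel_left₀ c10.ne' _).ge.trans (mul_le_mul w
        ((hc1 _ q).2 v (hv.trans (by positivity)) v0) (by positivity) (i0.le.trans w))

/-- Stability up to the time l. -/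
def Pf (g0 : Tw) (Φ : R4 → ℝ) (d0 : Dat) (l : ℝ) : Prop :=
  ∀ c ∈ Ico (0 : ℝ) (1 / 2), ∀ k, ∀ ε > 0, ∃ m, ∃ η > 0, ∀ d,
    (∀ y, Φ (pt 0 y) < 1 → Gd d y ∧ Cls m η d d0 y) → ∃ g D, Lv g D ∧
      (∀ p : R4, p.1 ∈ Icc 0 l → Φ p ≤ c → p ∈ D ∧ Bd k (g - g0) p ε) ∧
      ∀ y, Φ (pt 0 y) ≤ c → In0 g d y

theorem Pf.mono {l l' : ℝ} (h : Pf g0 Φ d0 l) (e : l' ≤ l) : Pf g0 Φ d0 l' := fun c hc k ε ε0 =>
  (h c hc k ε ε0).imp fun _ h => h.imp fun _ h => ⟨h.1, fun d hd =>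
    let ⟨g, D, a, b, c⟩ := h.2 d hd
    ⟨g, D, a, fun p hp => b p ⟨hp.1, hp.2.trans e⟩, c⟩⟩

theorem ex_eta {η0 C ε : ℝ} (h0 : 0 < η0) (ε0 : 0 < ε) : ∃ η > 0, η ≤ η0 ∧ C * η ≤ ε := by
  refine ⟨min η0 (ε / (|C| + 1)), by positivity, min_le_left _ _, ?_⟩
  have := (le_div_iff₀ (by positivity)).1 (min_le_right η0 (ε / (|C| + 1)))
  nlinarith [le_abs_self C, lt_min h0 (show 0 < ε / (|C| + 1) by positivity)]

theorem Fi.int (F : Fi g0 D0 Φ T) (hG : GUS) {k : ℕ} {δ l l' μ c : ℝ} (δ0 : 0 < δ) (l0 : 0 < l)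
    (lT : l ≤ T) (ll : l < l') (μ0 : 0 < μ) (hc : c + μ ≤ 1) :
    ∃ r τ, 0 < τ ∧ τ ≤ δ ∧ τ ≤ l' - l ∧ (∀ p : R4, p.1 = 0 → Φ (p + l • eT) - c ≤ 0 →
      ∀ q, dist q p ≤ r → (q + l • eT).1 ∈ Ioo 0 (min l' (T + 1)) ∧ Φ (q + l • eT) < c + μ) ∧
    ∀ ε > 0, ∃ η0 > 0, ∀ g D g1 D1 d η, It (k + 2) (fun x => g0 (x + l • eT))
      (fun x => Φ (x + l • eT) - c) r τ g D g1 D1 d η → η ≤ η0 →
      ∃ g', Lv g' (ol (fun (_ : Unit) x => Φ (x + l • eT) - c) τ) ∧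
        ∀ p ∈ ol (fun (_ : Unit) x => Φ (x + l • eT) - c) τ,
          Bd k (g' - fun x => g0 (x + l • eT)) p ε ∧ (p.1 < τ / 3 → g' p = g p) ∧
          (2 * τ / 3 < p.1 → g' p = g1 p) := by
  have sΦ : ContDiff ℝ ∞ fun x => Φ (x + l • eT) - c :=
    (F.sm.comp (contDiff_id.add contDiff_const)).sub contDiff_const
  have sa : Continuous fun x : R4 => x + l • eT := by fun_prop
  have cp : ∀ r ≤ 1, IsCompact {p : R4 | p.1 ∈ Icc 0 r ∧ Φ (p + l • eT) - c ≤ 0} :=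
    fun r hr => (F.cpt.image (f := fun x => x + -(l • eT)) (by fun_prop)).of_isClosed_subset
      ((isClosed_Icc.preimage continuous_fst).inter (isClosed_le sΦ.continuous continuous_const))
      fun p hp => ⟨p + l • eT, ⟨by rw [sh1]; constructor <;> linarith [hp.1.1, hp.1.2, lT],
        by linarith [hp.2]⟩, add_neg_cancel_right _ _⟩
  obtain ⟨r', r0', hr⟩ := (cp 0 zero_le_one).exists_cthickening_subset_open
    (t := {q | (q + l • eT).1 ∈ Ioo 0 (min l' (T + 1)) ∧ Φ (q + l • eT) < c + μ})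
    ((isOpen_Ioo.preimage sa.fst).inter (isOpen_lt (F.sm.continuous.comp sa) continuous_const))
    fun p hp => ⟨by
      rw [sh1, le_antisymm hp.1.2 hp.1.1, zero_add]
      exact ⟨l0, lt_min ll (by linarith [lT])⟩, by linarith [hp.2]⟩
  obtain ⟨r, r0, r1, r2, r4⟩ : ∃ r, 0 < r ∧ r ≤ r' ∧ r ≤ 1 ∧ r ≤ min δ (l' - l) :=
    ⟨min r' (min 1 _), lt_min r0' (lt_min one_pos (lt_min δ0 (sub_pos.2 ll))), min_le_left _ _,
      (min_le_right _ _).trans (min_le_left _ _), (min_le_right _ _).trans (min_le_right _ _)⟩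
  obtain ⟨r4, r5⟩ := le_min_iff.1 r4
  have nr : ∀ p : R4, p.1 = 0 → Φ (p + l • eT) - c ≤ 0 → ∀ q, dist q p ≤ r →
      (q + l • eT).1 ∈ Ioo 0 (min l' (T + 1)) ∧ Φ (q + l • eT) < c + μ := fun p a b q e =>
    hr (mem_cthickening_of_dist_le q p _ _ ⟨⟨a.ge, a.le⟩, b⟩ (e.trans r1))
  obtain ⟨B3, b0, r3, r30, h3⟩ := nice_cpt (f := Prod.fst) (k + 2) F.lv F.cpt fun p hp =>
    ⟨(F.cau p hp.1 hp.2).1, contDiffAt_fst, (F.cau p hp.1 hp.2).2.1⟩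
  obtain ⟨c1, c10, hc1⟩ := cau_cpt F.lv F.sm F.cpt fun p hp => F.cau p hp.1 hp.2
  obtain ⟨τ, hτ, hT⟩ := interp (k := k) hG (lv_shift F.lv (l • eT)) sΦ r0 c10 b0
    (cp _ r2) (fun p hp e s hs => sub_le_sub_right (F.mono l0.le (by
      linarith [hp.2, lT]) (by linarith) hs) _) fun p a b q e => by
      obtain ⟨u, v⟩ := nr p a b q e
      have q1 : q + l • eT ∈ {p : R4 | p.1 ∈ Icc 0 (T + 1) ∧ Φ p ≤ 1} :=
        ⟨⟨u.1.le, u.2.le.trans (min_le_right _ _)⟩, by linarith⟩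
      rw [fderiv_sub_const, fderiv_comp_add_right]
      have := h3 _ q1 _ ((dist_self _).trans_le r30.le)
      exact ⟨this.1, this.2.shift, c10.trans_le (hc1 _ q1).1, fun w w1 w2 =>
        (mul_pos c10 (norm_pos_iff.2 fun z => w2.ne' (congrArg Prod.fst z))).trans_le
          ((hc1 _ q1).2 w w1 w2.le)⟩
  exact ⟨r, τ, hτ.1, hτ.2.trans r4, hτ.2.trans r5, nr, hT⟩

theorem glue3 {g g' g1 : Tw} {D W D1 : Set R4} {l τ δ c ε : ℝ} {k : ℕ} (τ0 : 0 < τ) (u1 : Lv g D)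
    (w1 : Lv g' W) (v1 : Lv g1 D1)
    (u2 : ∀ p : R4, p.1 ∈ Icc 0 (l + τ / 4) → Φ p ≤ c → p ∈ D ∧ Bd k (g - g0) p ε)
    (w0 : ∀ p : R4, p.1 ∈ Icc (τ / 4) (3 * τ / 4) → Φ (p + l • eT) ≤ c → p ∈ W)
    (w2 : ∀ p ∈ W, Bd k (g' - fun x => g0 (x + l • eT)) p ε ∧
      (p.1 < τ / 3 → g' p = g (p + l • eT)) ∧ (2 * τ / 3 < p.1 → g' p = g1 p))
    (v2 : ∀ p : R4, p.1 ∈ Icc (3 * τ / 4) δ → Φ (p + l • eT) ≤ c →
      p ∈ D1 ∧ Bd k (g1 - fun x => g0 (x + l • eT)) p ε) :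
    ∃ G : Tw, (∀ p : R4, p.1 ∈ Icc 0 (l + δ) → Φ p ≤ c → p ∈ vd G ∧ Bd k (G - g0) p ε) ∧
      ∀ p : R4, p.1 < l + τ / 4 → G =ᶠ[𝓝 p] g := by
  classical
  let G : Tw := fun p => if p.1 < l + τ / 4 then g p else
    if p.1 < l + 3 * τ / 4 then g' (p + -(l • eT)) else g1 (p + -(l • eT))
  have t1 : ∀ p : R4, (p + -(l • eT)).1 = p.1 - l := fun p => by simp [eT, sub_eq_add_neg]
  have z0 : ∀ (g : Tw) (p : R4), Bd k (g - fun x => g0 (x + l • eT)) (p + -(l • eT)) ε →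
      Bd k ((fun x => g (x + -(l • eT))) - g0) p ε := fun g p h =>
    bd_congr (bd_shift.2 h) (.of_forall fun x => by simp)
  have z1 : ∀ p : R4, p.1 < l + τ / 4 → G =ᶠ[𝓝 p] g := fun p hp =>
    (continuous_fst.continuousAt.eventually_lt_const hp).mono fun q hq => if_pos hq
  have fin : ∀ p g2 D2, Lv g2 D2 → p ∈ D2 → G =ᶠ[𝓝 p] g2 → Bd k (g2 - g0) p ε →
      p ∈ vd G ∧ Bd k (G - g0) p ε := fun p g2 D2 a b c e =>
    ⟨⟨g2, D2, a, b, c⟩, bd_congr e (c.sub .rfl)⟩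
  refine ⟨G, fun p hp e => ?_, z1⟩
  rcases lt_or_ge p.1 (l + τ / 4) with p1 | p1
  · obtain ⟨a, b⟩ := u2 p ⟨hp.1, p1.le⟩ e
    exact fin p g D u1 a (z1 p p1) b
  rcases le_or_gt p.1 (l + 3 * τ / 4) with p2 | p2
  · have m0 := w0 (p + -(l • eT)) (by rw [t1]; constructor <;> linarith)
      (by rwa [neg_add_cancel_right])
    refine fin p _ _ (lv_shift w1 _) m0 ?_ (z0 _ _ (w2 _ m0).1)
    filter_upwards [(continuous_add_const (-(l • eT))).continuousAt.eventually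
      (w1.isOpen.mem_nhds m0)] with q hq
    simp only [G]
    split_ifs with a b
    · rw [(w2 _ hq).2.1 (by rw [t1]; linarith), neg_add_cancel_right]
    · rfl
    · rw [(w2 _ hq).2.2 (by rw [t1]; linarith)]
  · obtain ⟨a, b⟩ := v2 (p + -(l • eT)) (by rw [t1]; constructor <;> linarith [hp.2])
      (by rwa [neg_add_cancel_right])
    refine fin p _ _ (lv_shift v1 _) a ?_ (z0 _ _ b)
    filter_upwards [continuous_fst.continuousAt.eventually_const_lt p2] with q hq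
    simp only [G]
    rw [if_neg (by linarith), if_neg hq.not_gt]

/-- One step from the slice t = l. -/
def Sx (g0 : Tw) (D0 : Set R4) (Φ : R4 → ℝ) (l c μ δ : ℝ) (k : ℕ) : Prop :=
  ∃ m, ∃ B > 0, ∃ K : Set X, ∃ η > 0, ∃ C : ℝ, (∀ y, Φ (pt 0 y + l • eT) < c + μ → y ∈ K) ∧
    (∀ y ∈ K, pt 0 y + l • eT ∈ D0 ∧
      Nice (m + 1) B (fun x => g0 (x + l • eT)) Prod.fst (pt 0 y)) ∧
    ∀ d1, (∀ y ∈ K, In0 (fun x => g0 (x + l • eT)) d1 y) → ∀ d, ∀ ε ≤ η,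
      (∀ y, Φ (pt 0 y + l • eT) < c + μ → Gd d y ∧ Cls m ε d d1 y) → ∃ g D, Lv g D ∧
        (∀ p : R4, p.1 ∈ Icc 0 δ → Φ (p + l • eT) ≤ c →
          p ∈ D ∧ Bd k (g - fun x => g0 (x + l • eT)) p (C * ε)) ∧
        ∀ y, Φ (pt 0 y + l • eT) ≤ c → In0 g d y

theorem Fi.sx (hS : S0) (F : Fi g0 D0 Φ T) (s : ℝ) : ∃ δ > 0, ∀ l ∈ Icc 0 T, |l - s| ≤ δ →
    ∀ c, ∀ μ > 0, c + μ ∈ Icc (0 : ℝ) (1 / 2) → ∀ k, Sx g0 D0 Φ l c μ δ k := by
  obtain ⟨K, U, a, a0, cK, oU, UK, R⟩ := F.ref s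
  obtain ⟨B, -, hB⟩ := R 14
  obtain ⟨δ, hδ, hS⟩ := hS B a K U a0 cK oU UK
  refine ⟨δ, hδ.1, fun l hl ls c μ μ0 hc k => ?_⟩
  obtain ⟨m, hS⟩ := hS k
  obtain ⟨B', b0', hB'⟩ := R (m + 1)
  obtain ⟨η, η0, C, hS⟩ := hS B' μ μ0
  obtain ⟨b1, b2⟩ := hB l hl (ls.trans hδ.2) _ hc
  obtain ⟨-, b3⟩ := hB' l hl (ls.trans hδ.2) _ hc
  obtain ⟨d1, hd1⟩ := in0_ex (g' := fun x => g0 (x + l • eT)) (lv_shift F.lv (l • eT)) (S := K)
    fun y hy => ⟨(b1 y hy).1, P354UG.spl_fst.2 (P354UG.spl_fst.1 (b1 y hy).2), rfl, rfl⟩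
  have rm := b3 _ fun y hy => (hd1 y hy).1
  refine ⟨m, B', b0', K, η, η0, C, fun y hy => interior_subset (UK (subset_closure
    ((rm.lid (pt 0 y) ⟨le_rfl, a0.le⟩ ((sub_neg.2 hy).le.trans a0.le)).1 (by
      rw [xs_pt]; exact mem_closedBall_self a0.le)))), fun y hy => ⟨(b1 y hy).1,
    (rm.base y hy).2.1⟩, fun d2 h2 d ε e hd => ?_⟩
  have r := b3 _ h2
  obtain ⟨g, D, u1, u2, u3⟩ := hS _ _ _ _ d ε (b2 _ h2) ⟨r.lv, r.sm, fun y hy =>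
    (r.base y hy).imp_right (.imp_left fun n => n.le m.le_succ le_rfl), fun p u v =>
    (r.jb p u v).mono m.le_succ le_rfl, r.mono, fun p u v => (r.lid p u v).imp_right (.imp_right
      (.imp_left fun n => n.le m.le_succ le_rfl))⟩ e fun y hy => hd y (sub_neg.1 hy)
  exact ⟨g, D, u1, fun p a b => u2 p a (by linarith), fun y b => u3 y (by linarith)⟩

theorem Fi.first (F : Fi g0 D0 Φ T) (I : ∀ y, pt 0 y ∈ D0 → Φ (pt 0 y) ≤ 1 → In0 g0 d0 y) {δ : ℝ}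
    (h : ∀ c, ∀ μ > 0, c + μ ∈ Icc (0 : ℝ) (1 / 2) → ∀ k, Sx g0 D0 Φ 0 c μ δ k) :
    Pf g0 Φ d0 δ := fun c hc k ε ε0 => by
  classical
  obtain ⟨m, B, -, K, η, η0, C, -, b1, hS⟩ := h c (1 / 2 - c) (sub_pos.2 hc.2) (by norm_num) k
  simp only [zero_smul, add_zero] at b1 hS
  obtain ⟨d1, hd1⟩ := in0_ex (g' := g0) F.lv (S := K)
    fun y hy => ⟨(b1 y hy).1, spl_of (b1 y hy).2, rfl, rfl⟩
  have cΦ : Continuous fun y => Φ (pt 0 y) := F.sm.continuous.comp (by unfold pt; fun_prop)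
  let d2 : Dat := ⟨fun y => if Φ (pt 0 y) ≤ 1 then d0.h y else d1.h y,
    fun y => if Φ (pt 0 y) ≤ 1 then d0.K y else d1.K y⟩
  have h2 : ∀ y ∈ K, In0 g0 d2 y := fun y hy => by
    by_cases e : Φ (pt 0 y) ≤ 1
    · simpa only [In0, d2, if_pos e] using I y (b1 y hy).1 e
    · simpa only [In0, d2, if_neg e] using (hd1 y hy).1
  obtain ⟨η', η0', e1, e2⟩ := ex_eta (C := C) η0 ε0
  refine ⟨m, η', η0', fun d hd => ?_⟩
  obtain ⟨g, D, u1, u2, u3⟩ := hS d2 h2 d η' e1 fun y hy => by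
    have e : Φ (pt 0 y) < 1 := by linarith
    have ev := cΦ.continuousAt.eventually_lt_const e
    exact ⟨(hd y e).1, fun i j => ⟨((hd y e).2 i j).1.congr (ev.mono fun z hz => by
      simp only [d2, if_pos hz.le]), ((hd y e).2 i j).2.congr (ev.mono fun z hz => by
      simp only [d2, if_pos hz.le])⟩⟩
  exact ⟨g, D, u1, fun p hp e => (u2 p hp e).imp_right fun b => bd_le b le_rfl e2, u3⟩

theorem Fi.next (hI : INDL) (hG : GUS) (F : Fi g0 D0 Φ T) {δ l l' : ℝ} (δ0 : 0 < δ) (l0 : 0 < l)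
    (lT : l ≤ T) (ll : l < l') (h : Pf g0 Φ d0 l')
    (hS : ∀ c, ∀ μ > 0, c + μ ∈ Icc (0 : ℝ) (1 / 2) → ∀ k, Sx g0 D0 Φ l c μ δ k) :
    Pf g0 Φ d0 (l + δ) := fun c hc k ε ε0 => by
  obtain ⟨μ, μ0, c1, c2⟩ : ∃ μ > 0, 0 ≤ c + μ + μ ∧ c + μ + μ < 1 / 2 :=
    ⟨(1 / 2 - c) / 4, by linarith [hc.2], by linarith [hc.1, hc.2], by linarith [hc.2]⟩
  have c3 : c < c + μ := lt_add_of_pos_right _ μ0
  have c4 : c + μ < c + μ + μ := lt_add_of_pos_right _ μ0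
  obtain ⟨m, B', b0', K, η, η0, C, yK, b1, hS⟩ := hS (c + μ) μ μ0 ⟨c1, c2.le⟩ (k + 2)
  obtain ⟨r, τ, τ0, r4, r5, nr, hT⟩ := F.int hG (k := k) δ0 l0 lT ll μ0 (c := c + μ)
    (c2.le.trans (by norm_num))
  have l0' := lv_shift F.lv (l • eT)
  have cp : Continuous fun y : X => pt 0 y + l • eT := by unfold pt; fun_prop
  obtain ⟨d1, hd1⟩ := in0_ex (g' := fun x => g0 (x + l • eT)) l0' (S := K)
    fun y hy => ⟨(b1 y hy).1, spl_of (b1 y hy).2, rfl, rfl⟩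
  obtain ⟨η1, η10, hT⟩ := hT ε ε0
  obtain ⟨εd, εd0, e1, e2⟩ := ex_eta (C := C) η0 (lt_min η10 ε0)
  obtain ⟨CI, hI⟩ := hI m (2 * B')
  obtain ⟨εg, εg0, e3, e4⟩ := ex_eta (C := CI) (lt_min (lt_min η10 ε0)
    (show 0 < min B' (1 / 2) / (1 + B') ^ 3 by positivity)) εd0
  obtain ⟨e3, e5⟩ := le_min_iff.1 e3
  rw [le_div_iff₀ (by positivity)] at e5
  obtain ⟨m', η', η0', h⟩ := h _ ⟨c1, c2⟩ (m + k + 3) εg εg0
  refine ⟨m', η', η0', fun d hd => ?_⟩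
  obtain ⟨g, D, u1, u2, u3⟩ := h d hd
  have sl : ∀ q : R4, (q + l • eT).1 ∈ Icc 0 l' → Φ (q + l • eT) < c + μ + μ → q + l • eT ∈ D ∧
      Bd (m + k + 3) ((fun x => g (x + l • eT)) - fun x => g0 (x + l • eT)) q εg := fun q a b =>
    (u2 _ a b.le).imp_right fun e => (bd_shift (g := g - g0) (a := l • eT)).2 e
  have on : ∀ y, Φ (pt 0 y + l • eT) < c + μ + μ → pt 0 y + l • eT ∈ D ∧
      Bd (m + 1) ((fun x => g (x + l • eT)) - fun x => g0 (x + l • eT)) (pt 0 y) εg ∧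
      Nice (m + 1) (2 * B') (fun x => g (x + l • eT)) Prod.fst (pt 0 y) := fun y hy => by
    obtain ⟨a, b⟩ := sl (pt 0 y) (by rw [sh1]; exact ⟨by simp [pt, l0.le], by simp [pt, ll.le]⟩) hy
    have b' := bd_le b (show m + 1 ≤ _ by omega) le_rfl
    exact ⟨a, b', nice_near (lv_shift u1 _) l0' a (b1 y (yK y hy)).1 (b1 y (yK y hy)).2 b' e5⟩
  obtain ⟨d', hd'⟩ := in0_ex (g' := fun x => g (x + l • eT)) (lv_shift u1 (l • eT))
    (S := {y | Φ (pt 0 y + l • eT) < c + μ + μ})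
    fun y hy => ⟨(on y hy).1, spl_of (on y hy).2.2, rfl, rfl⟩
  have gd := hI _ _ _ _ d' d1 {y | Φ (pt 0 y + l • eT) < c + μ + μ} εg (isOpen_lt
    (F.sm.continuous.comp cp) continuous_const) (lv_shift u1 _)
    l0' fun y hy => ⟨(on y hy).1, (b1 y (yK y hy)).1, (hd' y hy).1, (hd1 y (yK y hy)).1,
      (on y hy).2.2, (b1 y (yK y hy)).2.le le_rfl (le_mul_of_one_le_left b0'.le one_le_two),
      (on y hy).2.1⟩
  obtain ⟨g1, D1, v1, v2, v3⟩ := hS d1 (fun y hy => (hd1 y hy).1) d' εd e1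
    fun y hy => (gd y hy).imp_right fun e i j =>
      ⟨(e i j).1.mono le_rfl e4, (e i j).2.mono le_rfl e4⟩
  obtain ⟨g', w1, w2⟩ := hT _ _ g1 D1 d' _ ⟨lv_shift u1 _, v1, lt_min η10 ε0, fun p a b q e =>
    (sl q ⟨(nr p a b q e).1.1.le, (nr p a b q e).1.2.le.trans (min_le_left _ _)⟩
      (nr p a b q e).2).imp_right fun z => bd_le z (by omega) e3, fun p a b =>
    (v2 p ⟨a.1, a.2.trans r4⟩ (sub_nonpos.1 b)).imp_right fun z => bd_le z le_rfl e2,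
    fun y hy => ⟨v3 y (sub_nonpos.1 hy), (hd' y ((sub_nonpos.1 hy).trans_lt c4)).1⟩⟩
    (min_le_left _ _)
  obtain ⟨G, a, b⟩ := glue3 (c := c) (δ := δ) τ0 u1 w1 v1 (fun p hp e =>
    (u2 p ⟨hp.1, hp.2.trans (by linarith only [r5, τ0])⟩ (e.trans (c3.trans c4).le)).imp_right
      fun b => bd_le b (by omega) (e3.trans (min_le_right _ _))) (fun p a e =>
    ⟨⟨by linarith only [a.1, τ0], by linarith only [a.2, τ0]⟩, fun _ => sub_neg.2 (e.trans_lt c3)⟩)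
    w2 fun p a e => (v2 p ⟨by linarith only [a.1, τ0], a.2⟩ (e.trans c3.le)).imp_right fun b =>
      bd_le b (by omega) (e2.trans (min_le_right _ _))
  exact ⟨G, vd G, lv_vd G, a, fun y e => in0_congr (u3 y (e.trans (c3.trans c4).le))
    (b _ (show (0 : ℝ) < _ by positivity))⟩

/-- **FTS.** -/
theorem fts_of (hS : S0) (hI : INDL) (hG : GUS) : FTS := by
  intro g0 D0 Φ T d0 l s T0 c h I
  have F : Fi g0 D0 Φ T := ⟨l, s, c, h⟩
  have key : Pf g0 Φ d0 T := by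
    let A := {l | l ∈ Icc 0 T ∧ Pf g0 Φ d0 l}
    have bd : BddAbove A := ⟨T, fun _ h => h.1.2⟩
    obtain ⟨ρ0, r0, h0⟩ := F.sx hS 0
    have a0 : (0 : ℝ) ∈ A := ⟨⟨le_rfl, T0⟩,
      (F.first I (h0 0 ⟨le_rfl, T0⟩ (by simpa using r0.le))).mono r0.le⟩
    have hs : sSup A ∈ Icc 0 T := ⟨le_csSup bd a0, csSup_le ⟨_, a0⟩ fun _ h => h.1.2⟩
    obtain ⟨δ, r, h1⟩ := F.sx hS (sSup A)
    obtain ⟨ρ, rfl⟩ : ∃ ρ, δ = 2 * ρ := ⟨δ / 2, by ring⟩
    have k : Pf g0 Φ d0 (sSup A + ρ) := by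
      rcases hs.1.eq_or_lt with e | e
      · exact (F.first I (h1 0 ⟨le_rfl, T0⟩ (by simpa [← e] using r.le))).mono (by linarith)
      have l1 : max (sSup A - ρ) (sSup A / 2) < sSup A := max_lt (by linarith) (by linarith)
      have l2 := le_max_left (sSup A - ρ) (sSup A / 2)
      have l3 := (half_pos e).trans_le (le_max_right (sSup A - ρ) (sSup A / 2))
      obtain ⟨l', a, b⟩ := exists_lt_of_lt_csSup ⟨_, a0⟩ l1
      exact (F.next hI hG r l3 (l1.le.trans hs.2) b a.2 (h1 _ ⟨l3.le, l1.le.trans hs.2⟩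
        (abs_le.2 ⟨by linarith, by linarith⟩))).mono (by linarith)
    by_contra n
    have e : sSup A + ρ < T := not_le.1 fun e => n (k.mono e)
    linarith [le_csSup bd (show sSup A + ρ ∈ A from ⟨⟨by linarith [hs.1], e.le⟩, k⟩)]
  exact key 0 ⟨le_rfl, by norm_num⟩

end Vale.Agent.P354YI
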