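import Vale.Agent.P354YI.Ain

/-!
The induced data under maps which preserve the slice.
-/

set_option maxSynthPendingDepth 3

open scoped ContDiff
open Set Filter Topology

noncomputable section

namespace Vale.Agent.P354YI

open Vale.Agent.P354n (R4)
open Vale.Agent.P354I (X Dat ee pd rm rp)
open Vale.Agent.P354R (Pull chr)
open Vale.Agent.P354RC (k2 p_at at_df surj_of_inj)
open Vale.Agent.P354XD (tb rp_tb)
open Vale.Agent.P354XE (Tw pt xs rd eT pb kap)
open Vale.Agent.P354XV (In0)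
open Vale.Agent.P354YR
open Vale.Agent.P354DT (ptL split_eT)

variable {f : R4 → R4} {ψ : X → X} {y : X}

theorem sl_fd (s : ContDiffAt ℝ ∞ f (pt 0 y)) (e : ∀ᶠ z in 𝓝 y, f (pt 0 z) = pt 0 (ψ z)) (u : X) :
    fderiv ℝ f (pt 0 y) (pt 0 u) = ptL (fderiv ℝ ψ y u) := by
  have a : HasFDerivAt (fun z => f (ptL z)) ((fderiv ℝ f (pt 0 y)).comp ptL) y :=
    (at_df s).hasFDerivAt.comp y ptL.hasFDerivAt
  have b : DifferentiableAt ℝ ψ y :=
    (((xs_cd.differentiable (by simp)) _).comp y a.differentiableAt).congr_of_eventuallyEq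
      (e.mono fun z hz => ((congrArg xs hz).trans (xs_pt 0 _)).symm)
  exact congrArg (· u) (a.unique ((ptL.hasFDerivAt.comp y b.hasFDerivAt).congr_of_eventuallyEq e))

theorem ptL_sum (u : X) : ptL u = ∑ k, u k • pt 0 (ee k) := by
  simp [ptL, pt, ee, Fin.sum_univ_three]

theorem bil_sum (B : R4 →L[ℝ] R4 →L[ℝ] R4) (l : R4 →L[ℝ] ℝ) (u v : X) : l (B (ptL u) (ptL v)) =
    ∑ k, ∑ j, u k * v j * l (B (pt 0 (ee k)) (pt 0 (ee j))) := by
  simp only [ptL_sum, map_sum, map_smul, sum_apply,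
    smul_apply, smul_eq_mul, Finset.mul_sum, mul_assoc]
  exact Finset.sum_comm.trans (Finset.sum_congr rfl fun _ _ => Finset.sum_congr rfl fun _ _ => by
    ring)

theorem inp : INP := by
  intro f g' D' g D d ψ y P hy e o ⟨n, n1, n2, n3⟩
  obtain ⟨u, rfl⟩ := surj_of_inj (P.inj _ hy) n
  have s := p_at P hy
  have k := sl_fd s e
  have e0 := e.self_of_nhds
  have m : pt 0 (ψ y) ∈ D := e0 ▸ P.maps hy
  have r := rp_tb P.isOpen P.met
  have z : ∀ v : X, g (pt 0 (ψ y)) (ptL v) (fderiv ℝ f (pt 0 y) u) = 0 := fun v => by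
    rw [r.eq _ m, ptL_sum, map_sum, sum_apply]
    exact Finset.sum_eq_zero fun i _ => by
      rw [map_smul, smul_apply, ← r.eq _ m, (n3 i i).1, smul_zero]
  refine ⟨u, by rw [P.eq _ hy, e0, n1], ?_, fun i j => ⟨by rw [P.eq _ hy, e0, k, z], ?_, ?_⟩⟩
  · rw [split_eT u, map_add, map_smul, k] at n2
    have : 0 < u.1 * (fderiv ℝ f (pt 0 y) eT).1 := by simpa [ptL] using n2
    exact pos_of_mul_pos_left this o.le
  · rw [P.eq _ hy, e0, k, k, r.eq _ m, ptL_sum, ptL_sum]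
    simp only [map_sum, map_smul, sum_apply, smul_apply,
      smul_eq_mul, ← r.eq _ m, fun a b => (n3 a b).2.1, Finset.mul_sum]
    simp only [Dat.pull, Matrix.of_apply, pd]
    exact Finset.sum_comm.trans (Finset.sum_congr rfl fun _ _ => Finset.sum_congr rfl fun _ _ => by
      ring)
  · have s2 : ContDiffAt ℝ ∞ (fun z => fderiv ℝ f z (pt 0 (ee j))) (pt 0 y) :=
      (at_fd s).clm_apply contDiffAt_const
    have z2 := sl_fd (ψ := fun z => fderiv ℝ ψ z (ee j)) s2 (by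
      filter_upwards [e.eventually_nhds, ptL.continuous.continuousAt.eventually
        (P.open'.mem_nhds hy)] with z h1 h2 using sl_fd (p_at P h2) h1 _) (ee i)
    have c : ∀ a b, chr g (pt 0 (ψ y)) a b (fderiv ℝ f (pt 0 y) u) =
        (tb g (pt 0 (ψ y))).flip (fderiv ℝ f (pt 0 y) u) (GM (tb g) (pt 0 (ψ y)) a b) := fun a b => by
      rw [ContinuousLinearMap.flip_apply, GM_ap, r.gm m, r.chr m]
    rw [k2.2.2.2.2 _ _ _ _ _ P _ hy, z2, e0, z, add_zero, k, k, c, bil_sum,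
      ← Finset.sum_neg_distrib]
    simp only [Dat.pull, Matrix.of_apply, pd]
    refine Finset.sum_congr rfl fun a _ => ?_
    rw [← Finset.sum_neg_distrib]
    refine Finset.sum_congr rfl fun b _ => ?_
    rw [← c, ← (n3 a b).2.2, mul_neg]

theorem det_sl {L : R4 →L[ℝ] R4} (h : ∀ u : X, L (pt 0 u) = pt 0 u) :
    LinearMap.det (L : R4 →ₗ[ℝ] R4) = (L eT).1 := by
  rw [P354YT.det4 (L : R4 →ₗ[ℝ] R4) (u := L eT) rfl (h !₂[1, 0, 0]) (h !₂[0, 1, 0]) (h !₂[0, 0, 1])]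
  simp [pt]

theorem inb : INB := by
  intro M a h b g' D' g D d y P hy hp hd e I
  have B := (isCh h true).back
  have pl : ∀ {k : Tw} {E : Set R4}, IsOpen E → P354R.Met k E →
      Pull (kin M a) (pb (kin M a) k) {q | q ∈ DE M a true ∧ kin M a q ∈ E} k E := fun o m =>
    ⟨B.smooth.continuousOn.isOpen_inter_preimage B.open' o, o, m, B.smooth.mono fun _ h => h.1,
      fun _ h => h.2, fun _ h => B.inj _ h.1, fun _ _ _ _ => rfl⟩
  have P1 := pl P.open' (k2.1 _ _ _ _ _ P)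
  have sl : ∀ z, pt 0 z ∈ DE M a true → kin M a (pt 0 z) ∈ Sig0 M a := fun z hz =>
    ⟨not_le.1 fun r => ((P354YT.kap_cont h (kin_mem h hz.1)).2 r).ne'
      (by rw [kap_kin h hz]; rfl), P354LC.kin_sl h hz rfl⟩
  have ev : ∀ᶠ z in 𝓝 y, (b ∘ kin M a) (pt 0 z) = kin M a (pt 0 z) :=
    (ptL.continuous.continuousAt.eventually (P1.open'.mem_nhds ⟨hy, hp⟩)).mono fun z hz =>
      e _ hz.2 (sl z hz.1)
  have s1 := s_kin hy
  have s2 := p_at P hp
  refine P354XA.in0_two (pull_comp P P1) (pl P.isOpen P.met) ⟨hy, hp⟩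
    ⟨hy, ev.self_of_nhds ▸ P.maps hp⟩ ev (fun v w k w0 => ?_) I
  obtain ⟨A, hA⟩ : ∃ A : R4 ≃L[ℝ] R4, (A : R4 →L[ℝ] R4) = fderiv ℝ (kin M a) (pt 0 y) :=
    ⟨(LinearEquiv.ofBijective (fderiv ℝ (kin M a) (pt 0 y) : R4 →ₗ[ℝ] R4)
      ⟨B.inj _ hy, surj_of_inj (B.inj _ hy)⟩).toContinuousLinearEquiv,
      ContinuousLinearMap.ext fun _ => rfl⟩
  have fd : fderiv ℝ (b ∘ kin M a) (pt 0 y) =
      (fderiv ℝ b (kin M a (pt 0 y))).comp (A : R4 →L[ℝ] R4) := by
    rw [hA]; exact (fd_comp s2 s1).eq_of_nhds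
  set L := (A.symm : R4 →L[ℝ] R4).comp (fderiv ℝ (b ∘ kin M a) (pt 0 y)) with hL
  have l1 : ∀ u : X, L (pt 0 u) = pt 0 u := fun u => by
    rw [hL, ContinuousLinearMap.comp_apply, P354XA.slice_fd (s2.comp _ s1) s1 ev, ← hA]
    exact A.symm_apply_apply _
  have l2 : 0 < (L eT).1 := by
    rw [← det_sl l1, hL, fd]
    exact hd.trans_eq (LinearMap.det_conj _ A.symm.toLinearEquiv).symm
  have l3 : L v = w := by
    rw [hL, ContinuousLinearMap.comp_apply, k, ← hA]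
    exact A.symm_apply_apply _
  rw [← l3, split_eT v, map_add, map_smul, l1] at w0
  have : 0 < v.1 * (L eT).1 := by simpa [pt] using w0
  exact pos_of_mul_pos_left this l2.le

end Vale.Agent.P354YI
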