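import Vale.Agent.P354YI.Main
import Vale.Agent.P354YI.Inp
import Vale.Agent.P354KG.Kgl

/-!
INI.
-/

namespace Vale.Agent.P354YI

/-- **INI.** -/
theorem ini : P354YA.INI := ini_of P354KG.kgl inp inb

end Vale.Agent.P354YI
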