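import Vale.Agent.P354YI.Ain
import Vale.Agent.P354YI.Fts
import Vale.Agent.P354S0.Main
import Vale.Agent.P354LC.Main
import Vale.Agent.P354LC.Agr
import Vale.Agent.P354LC.Aen
import Vale.Agent.P354XA.Farw
import Vale.Agent.P354XA.Indl
import Vale.Agent.P354DT.Core
import Vale.Agent.P354DT.Rg2
import Vale.Agent.P354LN.Cht
import Vale.Agent.P354XM.Vel
import Vale.Agent.P354XY.Clr
import Vale.Agent.P354YC.Gus
import Vale.Agent.P354YC.UnqP
import Vale.Agent.P354UR.Roll

/-!
INI from the remaining pieces.
-/

namespace Vale.Agent.P354YI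

theorem gus : P354XV.GUS := P354YC.gus_of P354UR.roll P354YC.unq
theorem s0 : S0 := P354S0.s0_of P354LC.loc gus
theorem fts : FTS := fts_of s0 P354XA.indl gus
theorem core : CORE := P354DT.core_of fts
theorem agr : AGR := P354LC.agr gus
theorem farw : FARW := P354XA.farw s0 agr
theorem near : NEAR := anr P354LN.cht P354DT.rg2 P354XM.vel

theorem ini_of (hK : KGL) (hP : INP) (hB : INB) : P354YA.INI :=
  ain core (P354LC.aen near P354XY.clr hB farw agr) hK hP

end Vale.Agent.P354YI
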