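import Vale.Agent.P354YI.Nr1
import Vale.Agent.P354YI.Int
import Vale.Agent.P354XA.Xi2

/-!
The change of gauge on the near part.
-/

set_option maxSynthPendingDepth 3

open scoped ContDiff
open Set Filter Topology

noncomputable section

namespace Vale.Agent.P354YI

open Vale.Agent.P354n (R4)
open Vale.Agent.P354I (rm rp)
open Vale.Agent.P354R (Pull)
open Vale.Agent.P354XD (tb rp_tb)
open Vale.Agent.P354XE (Tw rd eT Bd pb gin ka kap)
open Vale.Agent.P354XV (Lv Gq jet Jet)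
open Vale.Agent.P354YR (DI rd_cont ka_pos rm_nn)
open Vale.Agent.P354YT (Pm T_iff rp_lt)
open Vale.Agent.P354TR (gq_rel)
open Vale.Agent.P354XA (gin_lv)

variable {c : Pm} {r0 θ θ1 R T e : ℝ} {β : ℝ → ℝ} {Ψ π b δ : R4 → R4} {O W D : Set R4} {f : R4 → ℝ}
  {g : Tw} {p : R4} {N : P354XV.Nat} {k m : ℕ} {U : Set (R4 × Jet k)} {V : R4 × Jet k → R4}

/-- The part of the near region above the base. -/
def Qn (c : Pm) (β : ℝ → ℝ) (R T : ℝ) : Set R4 :=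
  {p | c.r1 ≤ rd p ∧ rd p ≤ max R c.R1 ∧ β (rd p) ≤ p.1 ∧ p.1 ≤ T}

theorem Cht.cptQ (H : Cht c r0 β Ψ π O f) : IsCompact (Qn c β R T) :=
  cpt_of ((isClosed_le continuous_const rd_cont).inter ((isClosed_le rd_cont continuous_const).inter
    ((isClosed_le (H.cont.comp rd_cont) continuous_fst).inter
      (isClosed_le continuous_fst continuous_const))))
    (C := max (max |β c.r1| |T|) (max R c.R1)) fun _ hp =>
    ⟨(abs_le_max_abs_abs ((H.mono hp.1).trans hp.2.2.1) hp.2.2.2).trans (le_max_left _ _),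
      hp.2.1.trans (le_max_right _ _)⟩

theorem cptN (h : c.Ok) (h0 : 0 < θ) : IsCompact (Nq c.M c.a c.r1 θ R T) := by
  have e : Nq c.M c.a c.r1 θ R T = {p | c.r1 ≤ rd p} ∩ (fun p => (kap c.M c.a p).1) ⁻¹' Ici 0 ∩
      ({p | rd p ≤ R} ∩ ({p | θ ≤ ex c.M c.a p} ∩ {p | p.1 ≤ T})) :=
    Set.ext fun p => ⟨fun a => ⟨⟨a.1, (T_iff h.sub (h.r1.1.trans_le a.1)).2 a.2.2.2.1⟩, a.2.1,
      a.2.2.1, a.2.2.2.2⟩, fun a => ⟨a.1.1, a.2.1, a.2.2.1,
        (T_iff h.sub (h.r1.1.trans_le a.1.1)).1 a.1.2, a.2.2.2⟩⟩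
  refine cpt_of ?_ (C := max (max |Real.log θ / ka c.M c.a| |T|) R) fun p hp =>
    ⟨(abs_le_max_abs_abs ?_ hp.2.2.2.2).trans (le_max_left _ _), hp.2.1.trans (le_max_right _ _)⟩
  · rw [e]
    exact (ContinuousOn.preimage_isClosed_of_isClosed (fun p hp => (P354YR.s_kap h.sub
      (h.r1.1.trans_le hp)).continuousAt.fst.continuousWithinAt)
      (isClosed_le continuous_const rd_cont) isClosed_Ici).inter
      ((isClosed_le rd_cont continuous_const).inter ((isClosed_le continuous_const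
        (ex_cd _ _).continuous).inter (isClosed_le continuous_fst continuous_const)))
  · rw [div_le_iff₀' (ka_pos h.sub), Real.log_le_iff_le_exp h0]
    exact hp.2.2.1

section
variable (h : c.Ok) (H : Cht c r0 β Ψ π O f)
  (h1 : Real.exp (ka c.M c.a * P354YT.tb c.M c.a (10 * c.M + 1)) ≤ θ1)
include h h1

theorem tb_le (k : θ1 ≤ ex c.M c.a p) : P354YT.tb c.M c.a (10 * c.M + 1) ≤ p.1 :=
  le_of_mul_le_mul_left (Real.exp_le_exp.1 (h1.trans k)) (ka_pos h.sub)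

theorem sig_far (hp : p ∈ Sig0 c.M c.a) (k : θ1 < ex c.M c.a p) : 10 * c.M + 1 ≤ rd p := by
  by_contra a
  have := h.tb_mono hp.1 (rp_lt h.sub (le_add_of_nonneg_right zero_le_one)) (not_le.1 a).le
  exact (h1.trans_lt k).not_ge (Real.exp_le_exp.2
    (mul_le_mul_of_nonneg_left (hp.2.trans_le this) (ka_pos h.sub).le))

include H

theorem mem_Q (hp : p ∈ Nq c.M c.a c.r1 θ R T) (k : θ1 ≤ ex c.M c.a p) : p ∈ Qn c β R T := by
  refine ⟨hp.1, hp.2.1.trans (le_max_left _ _), ?_, hp.2.2.2.2⟩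
  rcases le_total (rd p) (10 * c.M + 1) with a | a
  · exact ((H.mono a).trans_eq (H.far _ le_rfl)).trans (tb_le h h1 k)
  · exact (H.far _ a).trans_le (hp.2.2.2.1 (rp_lt h.sub (by linarith)))

theorem nr_of (nk : Nk c N k U V) (hr : rm c.M c.a < r0 ∧ r0 < c.r1) (l : Lv g D) (s : W ⊆ O)
    (hA : ∀ p ∈ Qn c β R T, Ψ p ∈ W) (P : Pull b (pb b (pb π g)) W (pb π g) (dt π O D))
    (loc : ∀ z ∈ W, 0 < LinearMap.det (fderiv ℝ b z : R4 →ₗ[ℝ] R4) ∧
      (cu c.M c.a θ1 (π z) = 0 ∨ z.1 = 0 → b z = z) ∧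
      ((∀ᶠ x in 𝓝 z, cu c.M c.a θ1 (π x) = 1) →
        Gq N (π z) (pb b (pb π g)) (fun x => f x • eT) z ∧
        (z.1 = 0 → fderiv ℝ b z (f z • eT) = f z • eT + fderiv ℝ Ψ (π z) (δ (π z)))))
    (vel : ∀ p ∈ Qn c β R T, 10 * c.M + 1 ≤ rd p → p.1 = β (rd p) → (p, jet k g p) ∈ U ∧
      δ p = V (p, jet k g p) - V (p, jet k (gin c.M c.a) p))
    (old : ∀ p ∈ Nq c.M c.a c.r1 θ R T, p ∈ D ∧ Bd m (g - gin c.M c.a) p e)
    (new : ∀ p ∈ Qn c β R T, Bd m (pb Ψ (pb b (pb π g) - pb π (gin c.M c.a))) p e) :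
    ∃ g' D' b', Nr c N k V θ1 (Nq c.M c.a c.r1 θ R T) m e g D g' D' b' := by
  have t0 : 0 < θ1 := (Real.exp_pos _).trans_le h1
  set B := bb r0 Ψ π b W
  have fix : ∀ p, cu c.M c.a θ1 p = 0 ∨ p.1 = β (rd p) → B p = p := fun p a => by
    by_cases hp : r0 < rd p ∧ Ψ p ∈ W
    · have := (loc _ hp.2).2.1 (by rwa [H.inv.l p hp.1, H.fst, sub_eq_zero])
      exact (bb_ev H P hp).eq_of_nhds.trans (by rw [this, H.inv.l p hp.1])
    · exact if_neg hp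
  have o2 : IsOpen {p | ex c.M c.a p < 13 / 10 * θ1} :=
    isOpen_lt (ex_cd _ _).continuous continuous_const
  have low : ∀ p, ex c.M c.a p < 13 / 10 * θ1 → B =ᶠ[𝓝 p] id := fun p a =>
    (o2.eventually_mem a).mono fun x hx => fix x (.inl (cu_zero t0 (le_of_lt hx)))
  set D' := {p | r0 < rd p ∧ Ψ p ∈ W} ∪ D ∩ {p | ex c.M c.a p < 13 / 10 * θ1}
  have key : ∀ p ∈ D', ContDiffAt ℝ ∞ B p ∧ B p ∈ D ∧
      0 < LinearMap.det (fderiv ℝ B p : R4 →ₗ[ℝ] R4) := by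
    rintro p (a | a)
    · exact ⟨(bb_fd H P a).1, (bb_fd H P a).2.1, bb_det H P a (loc _ a.2).1⟩
    · refine ⟨contDiffAt_id.congr_of_eventuallyEq (low p a.2), (low p a.2).eq_of_nhds ▸ a.1, ?_⟩
      rw [(low p a.2).fderiv_eq, fderiv_id, ContinuousLinearMap.coe_id, LinearMap.det_id]
      exact one_pos
  have PB : Pull B (pb B g) D' g D := ⟨(v1_open H P).union (l.isOpen.inter o2), l.isOpen, l.met,
    fun p hp => (key p hp).1.contDiffWithinAt, fun p hp => (key p hp).2.1,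
    fun p hp => LinearMap.ker_eq_bot.1 (not_not.1 fun a =>
      (key p hp).2.2.ne' (LinearMap.det_eq_zero_iff_ker_ne_bot.2 a)), fun _ _ _ _ => rfl⟩
  have idn : ∀ p, ex c.M c.a p ≤ 13 / 10 * θ1 ∨ p ∈ Sig0 c.M c.a → B p = p := fun p a => by
    rcases le_or_gt (ex c.M c.a p) (13 / 10 * θ1) with k | k
    · exact fix p (.inl (cu_zero t0 k))
    · have a := a.resolve_left k.not_ge
      exact fix p (.inr (a.2.trans (H.far _ (sig_far h h1 a (by linarith))).symm))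
  have inV : ∀ p ∈ Nq c.M c.a c.r1 θ R T, θ1 ≤ ex c.M c.a p → r0 < rd p ∧ Ψ p ∈ W := fun p hp k =>
    ⟨hr.2.trans_le hp.1, hA p (mem_Q h H h1 hp k)⟩
  have one : ∀ p, r0 < rd p → 7 / 5 * θ1 ≤ ex c.M c.a p →
      ∀ᶠ x in 𝓝 (Ψ p), cu c.M c.a θ1 (π x) = 1 := fun p a k =>
    (H.sπ (H.inv.mf a)).continuousAt.eventually (by rw [H.inv.l p a]; exact cu_one t0 k)
  refine ⟨_, D', B, PB, fun p hp => ?_, fun p hp => (key p hp).2.2, fun p _ => idn p,
    fun p hp k => ?_, fun p hp a k => ?_, fun p hp => ?_⟩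
  · rcases lt_or_ge (ex c.M c.a p) (13 / 10 * θ1) with k | k
    · exact .inr ⟨(old p hp).1, k⟩
    · exact .inl (inV p hp (by linarith))
  · have a := hp.resolve_right fun a => by linarith [show ex c.M c.a p < _ from a.2]
    have := ((loc _ a.2).2.2 (one p a.1 k)).1
    rw [H.inv.l p a.1] at this
    exact bb_gq H P a nk.is l s (h.X_cd ((rm_nn h.sub).trans_lt (hr.1.trans a.1))) this
  · have v := inV p hp (by linarith)
    have r := sig_far h h1 a (by linarith)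
    have z : p.1 = β (rd p) := a.2.trans (H.far _ r).symm
    have z0 : (Ψ p).1 = 0 := by rw [H.fst, z, sub_self]
    obtain ⟨u1, u2⟩ := vel p (mem_Q h H h1 hp (by linarith)) r z
    have e1 := ((loc _ v.2).2.2 (one p v.1 k)).2 z0
    refine PB.inj p (.inl v) ?_
    rw [nk.nat B _ D' g D PB l p (.inl v) a (key p (.inl v)).2.2
      (.of_forall fun x hx => idn x (.inr hx)) u1, (bb_fd H P v).2.2,
      ContinuousLinearMap.comp_apply, ContinuousLinearMap.comp_apply, H.str p v.1, e1,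
      (loc _ v.2).2.1 (.inr z0), map_add, H.strπ (s v.2), H.inv.l p v.1, H.inv.ap v.1, u2,
      (nk.kw p a).2, add_sub_cancel]
  · rcases lt_or_ge (ex c.M c.a p) (13 / 10 * θ1) with k | k
    · exact bd_congr (old p hp).2 ((pb_id (low p k)).sub .rfl)
    · have v := inV p hp (by linarith)
      exact bd_congr (new p (mem_Q h H h1 hp (by linarith)))
        ((bb_pb H P v).sub (H.back v.1).symm)

end

theorem Cht.star' (H : Cht c r0 β Ψ π O f) (h : c.Ok) (hr : r0 < c.r1) :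
    P354XU.Star (Ψ '' Qn c β R T) := by
  rintro _ ⟨p, hp, rfl⟩ s hs
  have a : r0 < rd p := hr.trans_le hp.1
  rw [uIcc_of_le (by rw [H.fst]; exact sub_nonneg.2 hp.2.2.1)] at hs
  obtain ⟨k1, k2, k3⟩ := H.star _ (H.inv.mf a) s hs.2
  rw [H.inv.l p a] at k2 k3
  refine ⟨_, ⟨(le_min h.lt.le hp.1).trans k3.1, k3.2.trans (max_le (le_max_right _ _) hp.2.1), ?_,
    k2.trans hp.2.2.2⟩, H.inv.r _ k1⟩
  have := H.fst (π (s, (Ψ p).2))
  rw [H.inv.r _ k1] at this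
  exact sub_nonneg.1 (hs.1.trans_eq this)

theorem Cht.ker (H : Cht c r0 β Ψ π O f) (h : c.Ok) (nk : Nk c N k U V) (hr : rm c.M c.a < r0)
    (hp : p ∈ O) : Gq N (π p) (pb π (gin c.M c.a)) (fun x => f x • eT) p := by
  have a : rm c.M c.a < rd (π p) := hr.trans (H.inv.mh hp)
  have a0 := (rm_nn h.sub).trans_lt a
  exact gq_rel nk.is (H.pull (gin_lv _ _)) (gin_lv _ _) ⟨hp, a0⟩ (H.detπ hp)
    (((H.sm.contDiffAt (H.inv.o'.mem_nhds hp)).smul contDiffAt_const).differentiableAt (by simp))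
    ((h.X_cd a0).differentiableAt (by simp))
    ((H.inv.o'.eventually_mem hp).mono fun x hx => H.strπ hx) (nk.ker _ a).1

/-- The bounds of the reference solution in the chart. -/
theorem Cht.bds (H : Cht c r0 β Ψ π O f) (h : c.Ok) (nk : Nk c N k U V) (hr : rm c.M c.a < r0)
    {A : Set R4} (hA : IsCompact A) (s : A ⊆ O) (m : ℕ) : ∃ r > 0, ∃ B, ∃ A', IsCompact A' ∧
      A' ⊆ O ∧ (∀ z ∈ A', 0 ≤ z.1) ∧ ∀ z ∈ A, z.1 ≤ B ∧ 1 ≤ B * f z ∧ Jb m f z B ∧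
        Jb m (fderiv ℝ π) z B ∧ Jb m (fun x => cu c.M c.a θ1 (π x)) z B ∧
        (∀ q, dist q z ≤ r → 0 ≤ q.1 → q ∈ A' ∧ Bd m (pb π (gin c.M c.a)) q B ∧
          ‖(tb (pb π (gin c.M c.a)) q).inverse‖ ≤ B) ∧
        ∀ x, dist x (π z, jet N.m (pb π (gin c.M c.a)) z, f z • eT) ≤ r →
          x ∈ N.U ∧ Jb m N.F x B := by
  have a0 : ∀ z ∈ O, z ∈ dt π O {p | 0 < rd p} := fun z hz =>
    ⟨hz, (rm_nn h.sub).trans_lt (hr.trans (H.inv.mh hz))⟩
  have l := (gin_lv c.M c.a).pull (H.pull (gin_lv _ _))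
  have sf : ∀ z ∈ A, ContDiffAt ℝ ∞ f z := fun z hz => H.sm.contDiffAt (H.inv.o'.mem_nhds (s hz))
  obtain ⟨r1, k1, s1⟩ := hA.exists_cthickening_subset_open H.inv.o' s
  have c1 := (hA.cthickening (r := r1)).inter_right (isClosed_le continuous_const continuous_fst :
    IsClosed {z : R4 | 0 ≤ z.1})
  obtain ⟨B1, b1⟩ := met_cpt l c1 (fun z hz => a0 z (s1 hz.1)) m
  obtain ⟨r2, k2, B2, b2⟩ := fn_cpt (hA.image_of_continuousOn
    (f := fun z => (π z, jet N.m (pb π (gin c.M c.a)) z, f z • eT)) fun z hz =>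
      ((H.sπ (s hz)).continuousAt.prodMk ((l.jet_at (a0 z (s hz)) _).continuousAt.prodMk
        ((sf z hz).continuousAt.smul continuousAt_const))).continuousWithinAt) nk.is.opn
    (by rintro _ ⟨z, hz, rfl⟩; exact (H.ker h nk hr (s hz)).1) nk.is.sm m
  obtain ⟨B3, -, b3⟩ := ex_jb m hA sf
  obtain ⟨B4, -, b4⟩ := ex_jb m hA fun z hz => at_fd (H.sπ (s hz))
  obtain ⟨B5, -, b5⟩ := ex_jb m hA fun z hz => at_comp (cu_cd c.M c.a θ1).contDiffAt (H.sπ (s hz))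
  obtain ⟨B6, b6⟩ := hA.exists_bound_of_continuousOn (f := fun z => (z.1, (f z)⁻¹)) fun z hz =>
    (continuousAt_fst.prodMk ((sf z hz).continuousAt.inv₀ (H.pos z (s hz)).ne')).continuousWithinAt
  obtain ⟨B, e⟩ : ∃ B, ∀ x ∈ [B1, B2, B3, B4, B5, B6], x ≤ B := by
    simpa [BddAbove, upperBounds, Set.Nonempty] using (List.finite_toSet [B1, B2, B3, B4, B5, B6]).bddAbove
  simp only [List.forall_mem_cons] at e
  obtain ⟨e1, e2, e3, e4, e5, e6, -⟩ := e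
  refine ⟨_, lt_min k1 k2, B, _, c1, fun z hz => s1 hz.1, fun z hz => hz.2, fun z hz =>
    ⟨(le_abs_self _).trans ((norm_fst_le _).trans ((b6 z hz).trans e6)), ?_,
      (b3 z hz).mono le_rfl e3, (b4 z hz).mono le_rfl e4, (b5 z hz).mono le_rfl e5,
      fun q a b => ?_, fun x a => ?_⟩⟩
  · exact (inv_le_iff_one_le_mul₀ (H.pos z (s hz))).1
      ((le_abs_self _).trans ((norm_snd_le _).trans ((b6 z hz).trans e6)))
  · have k : q ∈ Metric.cthickening r1 A ∩ {z : R4 | 0 ≤ z.1} :=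
      ⟨Metric.mem_cthickening_of_dist_le q z r1 A hz (a.trans (min_le_left _ _)), b⟩
    exact ⟨k, bd_le (b1 q k).1 le_rfl e1, (b1 q k).2.trans e1⟩
  · have k := b2 _ ⟨z, hz, rfl⟩ x (a.trans (min_le_right _ _))
    exact ⟨k.1, k.2.mono le_rfl e2⟩

theorem frac_le {C x : ℝ} (hC : 0 ≤ C) (hx : 0 < x) : C * (x / (C + 1)) ≤ x := by
  rw [mul_div_assoc', div_le_iff₀ (by linarith)]
  nlinarith

/-- **ANR.** -/
theorem anr : ANR := by
  intro hC hR hV c N k U V θ θ1 R T h nk h0 h1 m e he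
  have hr : rm c.M c.a < (rm c.M c.a + c.r1) / 2 ∧ (rm c.M c.a + c.r1) / 2 < c.r1 := by
    constructor <;> linarith [h.r1.1]
  obtain ⟨β, Ψ, π, O, f, H⟩ := hC c h _ ⟨hr.1, hr.2.trans h.r1.2⟩
  generalize (rm c.M c.a + c.r1) / 2 = r0 at hr H
  have cQ := H.cptQ (R := R) (T := T)
  have q0 : ∀ p ∈ Qn c β R T, r0 < rd p := fun p hp => hr.2.trans_le hp.1
  have p0 : ∀ p, r0 < rd p → 0 < rd p := fun p hp => (rm_nn h.sub).trans_lt (hr.1.trans hp)
  have cA := cQ.image_of_continuousOn fun p hp => (H.sΨ (q0 p hp)).continuousAt.continuousWithinAt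
  have sA : Ψ '' Qn c β R T ⊆ O := by rintro _ ⟨p, hp, rfl⟩; exact H.inv.mf (q0 p hp)
  have l0 := gin_lv c.M c.a
  obtain ⟨m2, hR⟩ := hR N nk.is m
  obtain ⟨r, r', B, A', cA', sA', pA', b⟩ := H.bds (θ1 := θ1) h nk hr.1 cA sA m2
  obtain ⟨C1, c1, b1⟩ := P354DT.bd_pb m cQ fun p hp => H.sΨ (q0 p hp)
  obtain ⟨η2, e2, hR⟩ := hR B r r' (e / (C1 + 1)) (by positivity)
  obtain ⟨C2, c2, b2⟩ := vel_jb cA (fun z hz => H.sπ (sA hz))
    (fun z hz => H.sΨ (H.inv.mh (sA hz))) m2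
  obtain ⟨η3, e3, hV⟩ := hV k U V _ _ (Qn c β R T ∩ {p | 10 * c.M + 1 ≤ rd p ∧ p.1 = β (rd p)}) _
    nk.opn nk.sm l0 (cQ.inter_right ((isClosed_le continuous_const rd_cont).inter
      (isClosed_eq continuous_fst (H.cont.comp rd_cont)))) cQ inter_subset_left
    (fun p hp => p0 p (q0 p hp)) (fun p hp => (nk.kw p ⟨rp_lt h.sub (by linarith [hp.2.1]),
      hp.2.2.trans (H.far _ hp.2.1)⟩).1) m2 (η2 / (C2 + 1)) (by positivity)
  obtain ⟨C3, c3, b3⟩ := P354DT.bd_pb m2 cA' fun z hz => H.sπ (sA' hz)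
  refine ⟨π '' A' ∪ Nq c.M c.a c.r1 θ R T, (cA'.image_of_continuousOn fun z hz =>
    (H.sπ (sA' hz)).continuousAt.continuousWithinAt).union (cptN h h0), ?_, m2 + k + m,
    min η3 (min (η2 / (C3 + 1)) e), by positivity, fun g D l hg => ?_⟩
  · rintro _ (⟨z, hz, rfl⟩ | hp)
    · have a : rm c.M c.a < rd (π z) := hr.1.trans (H.inv.mh (sA' hz))
      refine ⟨a, (T_iff h.sub a).2 fun k => (H.ge _ k).trans (sub_nonneg.1 ?_)⟩
      rw [← H.fst, H.inv.r z (sA' hz)]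
      exact pA' z hz
    · exact ⟨h.r1.1.trans_le hp.1, (T_iff h.sub (h.r1.1.trans_le hp.1)).2 hp.2.2.2.1⟩
  have z0 : ∀ z ∈ Ψ '' Qn c β R T, 0 ≤ z.1 ∧ π z ∈ Qn c β R T := by
    rintro _ ⟨p, hp, rfl⟩
    rw [H.fst, H.inv.l p (q0 p hp)]
    exact ⟨sub_nonneg.2 hp.2.2.1, hp⟩
  obtain ⟨O1, δ, o1, s1, sδ, bδ, vδ⟩ := hV g D l fun p hp => by
    have a := hg _ (.inl ⟨_, ((b _ ⟨p, hp, rfl⟩).2.2.2.2.2.1 _ (by simpa using r'.le)
      (z0 _ ⟨p, hp, rfl⟩).1).1, rfl⟩)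
    rw [H.inv.l p (q0 p hp)] at a
    exact ⟨a.1, bd_le a.2 (Nat.le_add_right _ _) (min_le_left _ _)⟩
  have P := H.pull l
  have lk : Lv (pb π (gin c.M c.a)) (dt π O D) :=
    (l0.pull (H.pull l0)).mono P.open' fun z hz => ⟨hz.1, p0 _ (H.inv.mh hz.1)⟩
  have o2 : IsOpen (dt π O O1) := H.inv.sh.continuousOn.isOpen_inter_preimage H.inv.o' o1
  have aδ : ∀ z ∈ dt π O O1, ContDiffAt ℝ ∞ δ (π z) := fun z hz => sδ.contDiffAt (o1.mem_nhds hz.2)
  have sf : ContDiffOn ℝ ∞ f (dt π O O1) := H.sm.mono fun z hz => hz.1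
  obtain ⟨W, b', w1, w2, P', loc, bd⟩ := hR _ (dt π O O1) _ _ _ f π
    (fun z => f z • eT + fderiv ℝ Ψ (π z) (δ (π z))) (fun x => cu c.M c.a θ1 (π x))
    ⟨lk, l.pull P, o2, ⟨sf, H.inv.sh.mono fun z hz => hz.1, (sf.smul contDiffOn_const).add
      fun z hz => ((at_comp (at_fd (H.sΨ (H.inv.mh hz.1))) (H.sπ hz.1)).clm_apply
        (at_comp (aδ z hz) (H.sπ hz.1))).contDiffWithinAt⟩, H.star' h hr.2,
      fun z hz => ⟨sA hz, s1 (z0 z hz).2⟩, fun z hz => (H.inv.o'.eventually_mem (sA hz)).mono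
        fun x hx => H.ker h nk hr.1 hx,
      fun z hz => ⟨⟨(z0 z hz).1, (b z hz).1⟩, (b z hz).2.1, (b z hz).2.2.1, (b z hz).2.2.2.1,
        fun _ => ((b2 z hz δ _ (aδ z ⟨sA hz, s1 (z0 z hz).2⟩) (bδ _ (z0 z hz).2)).mono le_rfl
          (frac_le c2 e2)).congr (.of_forall fun x => add_sub_cancel_left _ _)⟩,
      fun z hz q a a' => by
        obtain ⟨k1, k2, k3⟩ := (b z hz).2.2.2.2.2.1 q a a'
        have k4 := hg _ (.inl ⟨q, k1, rfl⟩)
        have o := l.isOpen.inter l0.isOpen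
        exact ⟨⟨sA' k1, k4.1⟩, k2, k3, bd_le (b3 q k1 g _ _ _ o (l.mono o inter_subset_left).met
          (l0.mono o inter_subset_right).met ⟨k4.1, p0 _ (H.inv.mh (sA' k1))⟩
          (bd_le k4.2 (by omega) ((min_le_right _ _).trans (min_le_left _ _)))) le_rfl
          (frac_le c3 e2)⟩,
      fun z hz => (b z hz).2.2.2.2.2.2⟩
    (fun z hz => (at_comp (cu_cd _ _ _).contDiffAt (H.sπ hz.1)).contDiffWithinAt)
    fun z hz => ⟨P354YT.st_mem _, (b z hz).2.2.2.2.1⟩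
  refine nr_of h H h1 nk hr l (fun z hz => (w2 hz).1) (fun p hp => w1 ⟨p, hp, rfl⟩) P' loc
    (fun p hp a a' => vδ p ⟨hp, a, a'⟩) (fun p hp => ⟨(hg p (.inr hp)).1, bd_le (hg p (.inr hp)).2
      (Nat.le_add_left _ _) ((min_le_right _ _).trans (min_le_right _ _))⟩) fun p hp => ?_
  exact bd_le (b1 p hp _ _ W _ P'.open' ((l.pull P).pull P').met
    ((l0.pull (H.pull l0)).mono P'.open' fun z hz => ⟨(w2 hz).1, p0 _ (H.inv.mh (w2 hz).1)⟩).met
    (w1 ⟨p, hp, rfl⟩) (bd _ ⟨p, hp, rfl⟩)) le_rfl (frac_le c1 he)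

end Vale.Agent.P354YI
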