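import Vale.Agent.P354YI.Defs2
import Vale.Agent.P354YI.Near
import Vale.Agent.P354DT.Gen
import Vale.Agent.P354XA.Fr
import Vale.Agent.P354XV.Fir

/-!
The change of gauge on the near part: bounds on compact sets, and the passage from the
straightening chart to the ingoing chart.
-/

set_option maxSynthPendingDepth 3

open scoped ContDiff
open Set Filter Topology

noncomputable section

namespace Vale.Agent.P354YI

open Vale.Agent.P354n (R4)
open Vale.Agent.P354I (rm rp)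
open Vale.Agent.P354R (Pull)
open Vale.Agent.P354XD (tb rp_tb)
open Vale.Agent.P354XE (Tw rd eT Bd pb gin ka kap)
open Vale.Agent.P354XV (Lv Gq jet Jet)
open Vale.Agent.P354YR (DI rd_cont)
open Vale.Agent.P354YT (Pm)
open Vale.Agent.P354TR (gq_rel)

variable {g : Tw} {D K : Set R4} {p : R4} {u v : R4 → R4}

theorem cpt_of (hK : IsClosed K) {C : ℝ} (h : ∀ p ∈ K, |p.1| ≤ C ∧ rd p ≤ C) : IsCompact K :=
  Metric.isCompact_of_isClosed_isBounded hK ((Metric.isBounded_closedBall (x := 0) (r := C + C)).subset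
    fun p hp => mem_closedBall_zero_iff.2
      ((P354XA.norm_le p).trans (add_le_add (h p hp).1 (h p hp).2)))

theorem pb_map (h : u =ᶠ[𝓝 p] v) : pb u g =ᶠ[𝓝 p] pb v g :=
  (h.and (h.fderiv (𝕜 := ℝ))).mono fun x hx => by
    funext a b
    rw [pb, pb, show u x = v x from hx.1, show fderiv ℝ u x = fderiv ℝ v x from hx.2]

theorem pb_comp (hv : ContDiffAt ℝ ∞ v p) (hu : ContDiffAt ℝ ∞ u (v p)) :
    pb (fun x => u (v x)) g =ᶠ[𝓝 p] pb v (pb u g) :=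
  (fd_comp hu hv).mono fun x hx => by
    funext a b
    simp only [pb, show fderiv ℝ (fun x => u (v x)) x = _ from hx, ContinuousLinearMap.comp_apply]

theorem pb_id (h : u =ᶠ[𝓝 p] id) : pb u g =ᶠ[𝓝 p] g :=
  (pb_map h).mono fun x hx => hx.trans (by funext a b; simp [pb])

theorem pb_cg {g' : Tw} (hu : ContinuousAt u p) (h : g =ᶠ[𝓝 (u p)] g') :
    pb u g =ᶠ[𝓝 p] pb u g' :=
  (hu.eventually h).mono fun x hx => by
    funext a b
    rw [pb, pb, show g (u x) = g' (u x) from hx]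

/-- Bounds for a smooth function near a compact set. -/
theorem fn_cpt {E V : Type} [NormedAddCommGroup E] [NormedSpace ℝ E] [ProperSpace E]
    [NormedAddCommGroup V] [NormedSpace ℝ V] {S U : Set E} {F : E → V} (hS : IsCompact S)
    (hU : IsOpen U) (s : S ⊆ U) (hF : ContDiffOn ℝ ∞ F U) (m : ℕ) :
    ∃ r > 0, ∃ B, ∀ z ∈ S, ∀ x, dist x z ≤ r → x ∈ U ∧ Jb m F x B := by
  obtain ⟨r, r0, hr⟩ := hS.exists_cthickening_subset_open hU s
  obtain ⟨B, -, hB⟩ := ex_jb m (hS.cthickening (r := r)) fun x hx =>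
    hF.contDiffAt (hU.mem_nhds (hr hx))
  exact ⟨r, r0, B, fun z hz x hx =>
    have k := Metric.mem_cthickening_of_dist_le x z r S hz hx
    ⟨hr k, hB x k⟩⟩

/-- Bounds for a metric on a compact set. -/
theorem met_cpt (l : Lv g D) (hK : IsCompact K) (s : K ⊆ D) (m : ℕ) :
    ∃ B, ∀ q ∈ K, Bd m g q B ∧ ‖(tb g q).inverse‖ ≤ B := by
  have r := rp_tb l.isOpen l.met
  have a : ∀ q ∈ K, ContDiffAt ℝ ∞ (tb g) q := fun q hq => r.at (s hq)
  obtain ⟨C, -, hC⟩ := (Oj.fix (m := m) (x := fun q : K => q.1) hK a fun q => q.2).bd'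
    (g := fun _ => g) fun q => (l.isOpen.eventually_mem (s q.2)).mono fun y hy => r.eq y hy
  obtain ⟨E, hE⟩ := hK.exists_bound_of_continuousOn (f := fun q => (tb g q).inverse) fun q hq =>
    (r.inv_cd (s hq)).continuousAt.continuousWithinAt
  exact ⟨max C E, fun q hq => ⟨bd_le (hC ⟨q, hq⟩) le_rfl (by simp), (hE q hq).trans
    (le_max_right _ _)⟩⟩

/-- The transport of a small field. -/
theorem vel_jb (hK : IsCompact K) (hv : ∀ z ∈ K, ContDiffAt ℝ ∞ v z)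
    (hu : ∀ z ∈ K, ContDiffAt ℝ ∞ u (v z)) (m : ℕ) : ∃ C, 0 ≤ C ∧ ∀ z ∈ K, ∀ (δ : R4 → R4) ε,
      ContDiffAt ℝ ∞ δ (v z) → Jb m δ (v z) ε →
      Jb m (fun x => fderiv ℝ u (v x) (δ (v x))) z (C * ε) := by
  let J := {i : R4 × (R4 → R4) × ℝ // i.1 ∈ K ∧ ContDiffAt ℝ ∞ i.2.1 (v i.1) ∧
    Jb m i.2.1 (v i.1) i.2.2}
  have a : Oj m (fun i : J => i.1.1) (fun i x => i.1.2.1 (v x)) fun i => i.1.2.2 :=
    Oj.comp (f := fun _ => v) (fun i => hv _ i.2.1) m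
      (Oj.fix hK (fun z hz => at_fd (hv z hz)) fun i => i.2.1) (.of (fun i => i.2.2.1) fun i => i.2.2.2)
  obtain ⟨C, c0, hC⟩ := ((Oj.fix (F := fun x => fderiv ℝ u (v x)) hK
    (fun z hz => at_comp (at_fd (hu z hz)) (hv z hz)) fun i : J => i.2.1).apr a).bd
  exact ⟨C, c0, fun z hz δ ε s k => hC ⟨(z, δ, ε), hz, s, k⟩⟩

variable {c : Pm} {r0 θ1 : ℝ} {β : ℝ → ℝ} {Ψ π b : R4 → R4} {O W : Set R4} {f : R4 → ℝ}

/-- The cut off. -/
def cu (M a θ1 : ℝ) (p : R4) : ℝ := Real.smoothTransition (20 * ex M a p / θ1 - 26)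

theorem ex_cd (M a : ℝ) : ContDiff ℝ ∞ (ex M a) := (contDiff_const.mul contDiff_fst).exp

theorem cu_cd (M a θ1 : ℝ) : ContDiff ℝ ∞ (cu M a θ1) := Real.smoothTransition.contDiff.comp
  (((contDiff_const.mul (ex_cd M a)).div_const _).sub contDiff_const)

theorem cu_zero {M a : ℝ} (h : 0 < θ1) (k : ex M a p ≤ 13 / 10 * θ1) : cu M a θ1 p = 0 :=
  Real.smoothTransition.zero_of_nonpos (sub_nonpos.2 ((div_le_iff₀ h).2 (by linarith)))

theorem cu_one {M a : ℝ} (h : 0 < θ1) (k : 7 / 5 * θ1 ≤ ex M a p) :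
    ∀ᶠ x in 𝓝 p, cu M a θ1 x = 1 :=
  ((ex_cd M a).continuous.continuousAt.eventually
    (Ioi_mem_nhds (show 27 / 20 * θ1 < ex M a p by linarith))).mono fun x hx =>
      Real.smoothTransition.one_of_one_le (le_sub_iff_add_le.2 ((le_div_iff₀ h).2
        (by linarith [show 27 / 20 * θ1 < ex M a x from hx])))

open Classical in
/-- The map b in the ingoing chart. -/
def bb (r0 : ℝ) (Ψ π b : R4 → R4) (W : Set R4) (p : R4) : R4 :=
  if r0 < rd p ∧ Ψ p ∈ W then π (b (Ψ p)) else p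

/-- The domain of the chart for a metric on D. -/
def dt (π : R4 → R4) (O D : Set R4) : Set R4 := {z | z ∈ O ∧ π z ∈ D}

theorem Cht.pull (H : Cht c r0 β Ψ π O f) (l : Lv g D) : Pull π (pb π g) (dt π O D) g D :=
  H.inv.symm.pull l fun _ => Iff.rfl

theorem Cht.sΨ (H : Cht c r0 β Ψ π O f) (hp : r0 < rd p) : ContDiffAt ℝ ∞ Ψ p :=
  H.inv.sf.contDiffAt (H.inv.o.mem_nhds hp)

theorem Cht.sπ (H : Cht c r0 β Ψ π O f) (hp : p ∈ O) : ContDiffAt ℝ ∞ π p :=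
  H.inv.sh.contDiffAt (H.inv.o'.mem_nhds hp)

theorem Cht.detπ (H : Cht c r0 β Ψ π O f) (hp : p ∈ O) :
    0 < LinearMap.det (fderiv ℝ π p : R4 →ₗ[ℝ] R4) := H.inv.symm.det hp (H.det _ (H.inv.mh hp))

theorem Cht.strπ (H : Cht c r0 β Ψ π O f) (hp : p ∈ O) :
    fderiv ℝ π p (f p • eT) = c.X (π p) := by
  have a := H.inv.ap (H.inv.mh hp) (c.X (π p))
  rwa [H.str _ (H.inv.mh hp), H.inv.r _ hp] at a

theorem Cht.back (H : Cht c r0 β Ψ π O f) (hp : r0 < rd p) : pb Ψ (pb π g) =ᶠ[𝓝 p] g :=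
  (pb_comp (H.sΨ hp) (H.sπ (H.inv.mf hp))).symm.trans
    (pb_id ((H.inv.o.eventually_mem hp).mono fun x hx => H.inv.l x hx))

section
variable (H : Cht c r0 β Ψ π O f) (P : Pull b (pb b (pb π g)) W (pb π g) (dt π O D))
include H P

theorem v1_open : IsOpen {p | r0 < rd p ∧ Ψ p ∈ W} :=
  H.inv.sf.continuousOn.isOpen_inter_preimage H.inv.o P.open'

variable (hp : r0 < rd p ∧ Ψ p ∈ W)
include hp

theorem bb_ev : bb r0 Ψ π b W =ᶠ[𝓝 p] fun x => π (b (Ψ x)) :=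
  ((v1_open H P).eventually_mem hp).mono fun _ hx => if_pos hx

theorem bb_pb : pb (bb r0 Ψ π b W) g =ᶠ[𝓝 p] pb Ψ (pb b (pb π g)) := by
  have s1 := H.sΨ hp.1
  have s2 := P.smooth.contDiffAt (P.open'.mem_nhds hp.2)
  exact ((pb_map (bb_ev H P hp)).trans (pb_comp (v := fun x => b (Ψ x)) (at_comp s2 s1)
    (H.sπ (P.maps hp.2).1))).trans (pb_comp s1 s2)

theorem bb_fd : ContDiffAt ℝ ∞ (bb r0 Ψ π b W) p ∧ bb r0 Ψ π b W p ∈ D ∧
    fderiv ℝ (bb r0 Ψ π b W) p =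
      (fderiv ℝ π (b (Ψ p))).comp ((fderiv ℝ b (Ψ p)).comp (fderiv ℝ Ψ p)) := by
  have s1 := H.sΨ hp.1
  have s2 := P.smooth.contDiffAt (P.open'.mem_nhds hp.2)
  have s3 := H.sπ (P.maps hp.2).1
  have e := bb_ev H P hp
  have s4 : ContDiffAt ℝ ∞ (fun x => b (Ψ x)) p := at_comp s2 s1
  refine ⟨(at_comp (f := fun x => b (Ψ x)) s3 s4).congr_of_eventuallyEq e,
    e.eq_of_nhds ▸ (P.maps hp.2).2, ?_⟩
  rw [e.fderiv_eq, (fd_comp (f := fun x => b (Ψ x)) s3 s4).eq_of_nhds, (fd_comp s2 s1).eq_of_nhds]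

theorem bb_det (d : 0 < LinearMap.det (fderiv ℝ b (Ψ p) : R4 →ₗ[ℝ] R4)) :
    0 < LinearMap.det (fderiv ℝ (bb r0 Ψ π b W) p : R4 →ₗ[ℝ] R4) := by
  rw [(bb_fd H P hp).2.2, ContinuousLinearMap.toLinearMap_comp, ContinuousLinearMap.toLinearMap_comp,
    LinearMap.det_comp, LinearMap.det_comp]
  exact mul_pos (H.detπ (P.maps hp.2).1) (mul_pos d (H.det _ hp.1))

theorem bb_gq {N : P354XV.Nat} (hN : N.Is) (l : Lv g D) (s : W ⊆ O)
    (hX : ContDiffAt ℝ ∞ c.X p) (q : Gq N p (pb b (pb π g)) (fun x => f x • eT) (Ψ p)) :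
    Gq N p (pb (bb r0 Ψ π b W) g) c.X p := by
  have l2 := (l.pull (H.pull l)).pull P
  refine P354YA.gq_congr (bb_pb H P hp).symm (gq_rel hN (H.inv.pull l2 fun _ => Iff.rfl) l2 hp
    (H.det _ hp.1) (hX.differentiableAt (by simp)) ?_ ?_ q)
  · exact ((H.sm.contDiffAt (H.inv.o'.mem_nhds (s hp.2))).smul
      contDiffAt_const).differentiableAt (by simp)
  · exact (H.inv.o.eventually_mem hp.1).mono fun x hx => H.str x hx

end

end Vale.Agent.P354YI
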