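import Vale.Agent.P354MG.Asm
import Vale.Agent.P354PA.Par
import Vale.Agent.P354LC.Lcf
import Vale.Agent.P354BO.Q2

/-! WNE: the windows from the bounds in the chart of the estimates. -/

open Set Filter Topology

noncomputable section

namespace Vale.Agent.P354YI

open Vale.Agent.P354XG (E6)
open Vale.Agent.P354XD (pj nq)
open Vale.Agent.P354XO (Om sc)
open Vale.Agent.P354Z (Est An uu)
open Vale.Agent.P354YA (eta)
open Vale.Agent.P354CQ (glu hp' bb mem_cut of1 t_walk glu_early glu_near ac_uu ac_r)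
open Vale.Agent.P354RN (shr)
open Vale.Agent.P354LC (hp_1 hp_ne ph_hp r_ge)
open Vale.Agent.P354PA (Pa Ta S1)
open Vale.Agent.P354MG (Fx Va Qn Ge Et Un Np Wn WNE)

theorem ex_unit {y : E6} (h : y.2.2 ≠ 0) : ∃ w ≠ 0, nq (sc w y) = 1 := by
  have p : 0 < nq y := P354XD.nq_pos h
  refine ⟨((√(nq y))⁻¹ : ℝ), Complex.ofReal_ne_zero.2 (inv_ne_zero (Real.sqrt_pos.2 p).ne'), ?_⟩
  rw [P354XO.nq_sc, Complex.normSq_ofReal, ← mul_inv, Real.mul_self_sqrt p.le, inv_mul_cancel₀ p.ne']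

/-- The point of the straight chart, and the bound of the shift of the time. -/
def wx (f : Fx) (y : E6) : E6 := hp' f.z.M f.A f.B (shr f.H y)
def ms (f : Fx) : ℝ := 4 * f.z.M ^ 2 / f.a.r1

variable {f : Fx} {v : Va} {q : Qn} {Rb Λ Ct ρ : ℝ} {x x' y : E6} {E : Est} {k : ℕ}

theorem wx_t (o : f.Ok) {Rs : ℝ} (hy : y ∈ Om (f.Dh Rs v.Lv)) : |(wx f y).1 - y.1| ≤ f.cH := by
  have := o.nu.hcH y.2.1 (o.nu.r1.2.1.trans hy.1.2.1).le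
  rwa [wx, hp_1, show (shr f.H y).1 - f.A (shr f.H y).2.1 + 4 * f.z.M ^ 2 / (shr f.H y).2.1 - y.1 =
    f.H y.2.1 - f.A y.2.1 + 4 * f.z.M ^ 2 / y.2.1 by simp only [shr]; ring]

section
variable (G : Ge f v q Rb)
include G

theorem ms_nn : 0 ≤ ms f := G.su.m0.1

theorem wx_mem (o : f.Ok) (hy : y ∈ Om (f.Dh q.c.Rs v.Lv)) : wx f y ∈ f.X1 v q := by
  obtain ⟨⟨a1, a2, a3, a4⟩, a5⟩ := hy
  have t := G.su.nm.tz.near ((wx f y).1, y.2.1) a2 a3.le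
  have b := o.nu.bb y.2.1 (o.nu.r1.2.1.trans a2).le
  have c := (abs_le.1 (wx_t o ⟨⟨a1, a2, a3, a4⟩, a5⟩)).1
  refine ⟨⟨⟨⟨a2, ?_⟩, ?_⟩, a3⟩, hp_ne (x := shr f.H y) a5⟩
  · have e : (wx f y).1 + P354CQ.fz f.z f.A y.2.1 = y.1 + f.H y.2.1 + P354NU.nu f.z y.2.1 := by
      rw [wx, hp_1]; simp only [shr, P354CQ.fz, P354NU.nu]; ring
    show (f.n q).τ ((wx f y).1, y.2.1) ∈ v.Lv
    rw [t.trans e]; exact a4
  · show f.a.bt y.2.1 + 4 * f.z.M ^ 2 / y.2.1 - 1 < (wx f y).1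
    linarith [o.nu.hti', show f.t0 < y.1 from a1]

theorem ac_t (hx : x ∈ f.X1 v q) :
    (f.ac v q x).1 ≤ (glu (P354CQ.Ra (f.c q)) (f.na v) (f.al v) x).1 ∧
      (glu (P354CQ.Ra (f.c q)) (f.na v) (f.al v) x).1 ≤ (f.ac v q x).1 + ms f := by
  have r : f.a.r1 ≤ (f.ac v q x).2.1 := (r_ge G.su (of1 hx)).1
  have p : 0 < f.a.r1 := G.su.num.1
  rw [← ac_uu, uu]
  exact ⟨le_add_of_nonneg_right (div_nonneg (by positivity) (p.le.trans r)), add_le_add le_rfl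
    (div_le_div_of_nonneg_left (by positivity) p r)⟩

theorem ac_rd (hx : x ∈ f.X1 v q) : |(f.ac v q x).2.1 - x.2.1| ≤ 1 / 1000 :=
  (G.su.r_near (of1 hx) hx.1.2).trans (G.su.nm.k1 G.su.e0).2.2.2

theorem ac_top (hx : x ∈ f.X1 v q) (t : x.1 < f.ti + 2) : (f.ac v q x).1 ≤ f.ti + 3 := by
  refine (ac_t G hx).1.trans ?_
  rcases le_total x.1 f.ti with j | j
  · linarith [(glu_early (R := P354CQ.Ra (f.c q)) (α := f.al v) G.su.id j).1]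
  · have l := (abs_le.1 (G.su.lb.glu_late G.su.dk G.su.id (of1 hx) j)).2
    have e1 : q.e ≤ 1 / 1000 := G.su.nm.e1
    have e0 : 0 ≤ q.e := G.su.e0
    have : (f.n q).e * (x.1 - (f.n q).ti) ≤ 1 / 1000 * 2 :=
      mul_le_mul e1 (show x.1 - f.ti ≤ 2 by linarith) (sub_nonneg.2 j) (by norm_num)
    linarith

theorem ac_two (hx : x ∈ f.X1 v q) (hx' : x' ∈ f.X1 v q) {b : ℝ} (t : |x.1 - x'.1| ≤ b) :
    |(f.ac v q x).1 - (f.ac v q x').1| ≤ 2 * b + 1 + ms f := by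
  have h := G.su
  obtain ⟨a1, a2, a3, a4⟩ := h.nm.rad
  obtain ⟨a5, a6, -, -⟩ := h.num
  obtain ⟨k0, k3, k1, k2⟩ := h.nm.k1 h.e0
  have r1 : (f.n q).r1 < x.2.1 := hx.1.1.1.1
  have r2 : (f.n q).r1 < x'.2.1 := hx'.1.1.1.1
  have r3 : x.2.1 < (f.c q).Rs := hx.1.2
  have r4 : x'.2.1 < (f.c q).Rs := hx'.1.2
  have d : |x.2.1 - x'.2.1| ≤ (f.c q).Rs := abs_le.2 ⟨by linarith, by linarith⟩
  have w := t_walk h.box (h.dk.walk (d := (f.c q).Rs) le_rfl) (p := (x.1, x.2.1))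
    (q := (x'.1, x'.2.1)) (mem_cut (of1 hx) r3).1 (mem_cut (of1 hx') r4).1 d hx.2 hx'.2
  have b0 := (abs_nonneg _).trans t
  have n1 : ‖((x.1, x.2.1) : ℝ × ℝ) - (x'.1, x'.2.1)‖ ≤ b + (f.c q).Rs :=
    max_le (le_add_of_le_of_nonneg t (by linarith)) (le_add_of_nonneg_of_le b0 d)
  have L0 := mul_nonneg h.nm.tz.L0 k0
  have w1 := w.trans (add_le_add_left (mul_le_mul_of_nonneg_left n1 (by nlinarith)) _)
  have w2 : _ ≤ b / 1000 + 1 / 8 := w1.trans (by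
    nlinarith [h.nm.kL, mul_nonneg k0 (show 0 ≤ (f.c q).Rs by linarith)])
  obtain ⟨w3, w4⟩ := abs_le.1 w2
  obtain ⟨t1, t2⟩ := abs_le.1 t
  obtain ⟨u1, u2⟩ := ac_t G hx
  obtain ⟨u3, u4⟩ := ac_t G hx'
  dsimp only at w3 w4
  exact abs_le.2 ⟨by linarith, by linarith⟩

/-- The time of the chart y. -/
theorem ac_y (o : f.Ok) (hy : y ∈ Om (f.Dh q.c.Rs v.Lv)) (r : y.2.1 ≤ f.z.R1 + 1)
    (t : |(f.phi v (pj (wx f y))).1 - (v.y (pj (shr f.H y))).1| ≤ Ct) :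
    |(f.ac v q (wx f y)).1 - (v.y (pj (shr f.H y))).1| ≤ |Ct| + ms f := by
  have m := wx_mem G o hy
  obtain ⟨u1, u2⟩ := ac_t G m
  rw [glu_near (x := wx f y) (R := P354CQ.Ra (f.c q))
    (show y.2.1 ≤ f.z.R1 + 9 / 4 by linarith)] at u1 u2
  rw [← G.lf _ (mem_cut (of1 m) (show y.2.1 < f.z.R1 + 9 / 4 + 1 / 2 by linarith))] at t
  obtain ⟨t1, t2⟩ := abs_le.1 (t.trans (le_abs_self _))
  have e : (pj (f.na v (wx f y))).1 = (f.na v (wx f y)).1 := rfl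
  have := ms_nn G
  exact abs_le.2 ⟨by linarith, by linarith⟩

/-- The correspondence. -/
theorem cor (o : f.Ok) (o1 : E.O1 = f.O1 v q) (e : Et f v q E Λ)
    (hy : y ∈ Un (f.Dh q.c.Rs v.Lv) ρ) : ∃ z ∈ S1 E (ρ + 1 / 2), z.1 = (f.ac v q (wx f y)).1 ∧
      eta f.z.M f.z.a k v.g (shr f.H y) ≤ (|Λ| ^ (k + 4) + 1) ^ 2 * E.eta k z := by
  have m := wx_mem G o hy.1
  have c := G.su.cone G.su.op1 fun _ j => j.1.1
  have m1 : f.ac v q (wx f y) ∈ f.O1 v q := mem_image_of_mem _ m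
  obtain ⟨w, w0, w1⟩ := ex_unit (c.pos _ m1).2
  have p : sc 1 (f.P (wx f y)) = shr f.H y := by
    rw [P354XO.sc_ap, one_smul]; exact ph_hp _
  have l := (e k _ m 1 one_ne_zero w w0 (p ▸ hy.2.1) ⟨by linarith, by linarith⟩).2
  have r := (abs_le.1 (ac_rd G m)).2
  have r' : (wx f y).2.1 ≤ ρ := hy.2.2
  refine ⟨sc w _, ⟨o1 ▸ c.hom _ m1 w w0, w1, show (f.ac v q (wx f y)).2.1 ≤ _ by linarith⟩, rfl,
    (p ▸ l).trans (mul_le_mul_of_nonneg_right ?_ (add_nonneg (P354BO.q2_nonneg _ _ _ _)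
      (P354BO.q2_nonneg _ _ _ _)))⟩
  rw [← sq_abs, abs_pow]
  exact pow_le_pow_left₀ (by positivity) (by linarith) 2

end

theorem ar1 {N X e e' Q : ℝ} (n : 0 ≤ N) (x : 1 ≤ X) (h : 0 ≤ e) (k : e ≤ e') (q : 0 ≤ Q) :
    2 * N * (e + X * Q) ≤ (2 * N + 1) * X * (e' + Q) := by
  have : e + X * Q ≤ X * (e' + Q) := by nlinarith
  nlinarith [mul_le_mul_of_nonneg_left this n]

theorem ar2 {N X e A Q p : ℝ} (n : 0 ≤ N) (x : 1 ≤ X) (k : e ≤ X * A) (q : 0 ≤ Q)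
    (l : p ≤ 2 * N * (e + X * Q)) : e + p ≤ (2 * N + 1) * X * (A + Q) := by
  nlinarith [mul_le_mul_of_nonneg_left k n, mul_nonneg (zero_le_one.trans x) q]

theorem ar3 {N X A Q s t : ℝ} (n : 0 ≤ N) (a : 0 ≤ A) (q : 0 ≤ Q) (s0 : 0 ≤ s)
    (h : s ≤ X) (k : t ≤ X) : s * A + t * Q ≤ X * (A + Q) ∧
      N * (X * (A + Q)) ≤ (2 * N + 1) * X * (A + Q) ∧ X * (A + Q) ≤ (2 * N + 1) * X * (A + Q) := by
  have := mul_nonneg (s0.trans h) (add_nonneg a q)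
  have := mul_nonneg n this
  exact ⟨by nlinarith, by nlinarith, by nlinarith⟩

/-- The constants. -/
structure Wk (f : Fx) (c0 Λ Ct : ℝ) (k m : ℕ) (D b b2 T X c1 : ℝ) : Prop where
  hD : D = |Λ| ^ (k + 4) + 1
  hb : b = |Ct| + ms f
  h2 : b2 = 2 * (2 * f.cH) + 1 + ms f
  hT : f.a.bt f.z.R1 ≤ T ∧ f.ti + 3 ≤ T
  hm : 2 * b + 2 < m
  p1 : ∀ s, s ≤ T ∨ s ≤ b2 ∨ s ≤ b + b + b2 → D * 2 ^ s ≤ X
  p2 : D ^ 2 * m + 1 ≤ X
  c : 1 ≤ c1 ∧ b2 ≤ c1 ∧ c0 + 2 * b + b2 ≤ c1 ∧ c0 + b + T - f.t0 ≤ c1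

theorem ex_wk (f : Fx) (c0 Λ Ct : ℝ) (k : ℕ) :
    ∃ m D b b2 T X c1, Wk f c0 Λ Ct k m D b b2 T X c1 := by
  obtain ⟨D, hD⟩ : ∃ D, D = |Λ| ^ (k + 4) + 1 := ⟨_, rfl⟩
  obtain ⟨b, hb⟩ : ∃ b, b = |Ct| + ms f := ⟨_, rfl⟩
  obtain ⟨b2, h2⟩ : ∃ b2, b2 = 2 * (2 * f.cH) + 1 + ms f := ⟨_, rfl⟩
  obtain ⟨T, hT⟩ : ∃ T, T = max (f.a.bt f.z.R1) (f.ti + 3) := ⟨_, rfl⟩
  obtain ⟨m, hm⟩ := exists_nat_gt (2 * b + 2)
  have D0 : 0 ≤ D := by rw [hD]; positivity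
  refine ⟨m, D, b, b2, T, D * 2 ^ max T (max b2 (b + b + b2)) + (D ^ 2 * m + 1),
    max 1 (max b2 (max (c0 + 2 * b + b2) (c0 + b + T - f.t0))), hD, hb, h2,
    ⟨hT ▸ le_max_left _ _, hT ▸ le_max_right _ _⟩, hm, fun s j => le_add_of_le_of_nonneg
      (mul_le_mul_of_nonneg_left (Real.rpow_le_rpow_of_exponent_le one_le_two
        (by simpa only [le_max_iff] using j)) D0) (by positivity),
    le_add_of_nonneg_left (by positivity), ?_⟩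
  simp only [← max_le_iff, le_refl]

section
variable {c0 CN D b b2 T X c1 e0 E' : ℝ} {m : ℕ} (K : Wk f c0 Λ Ct k m D b b2 T X c1)
include K

theorem Wk.D1 : 1 ≤ D := K.hD ▸ le_add_of_nonneg_left (by positivity)
theorem Wk.X1 : 1 ≤ X := le_trans (le_add_of_nonneg_left (by positivity)) K.p2

variable (o : f.Ok) (G : Ge f v q Rb) (o1 : E.O1 = f.O1 v q) (et : Et f v q E Λ)
  (ht : ∀ x ∈ Om (f.Dh q.c.Rs v.Lv), x.2.1 ≤ f.z.R1 + 1 →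
    |(f.phi v (pj (hp' f.z.M f.A f.B (shr f.H x)))).1 - (v.y (pj (shr f.H x))).1| ≤ Ct)
include o G o1 et ht

theorem Wk.cr (hy : y ∈ Un (f.Dh q.c.Rs v.Lv) (f.z.R1 + 1)) : ∃ z ∈ S1 E ((f.c q).R1 + 4),
    |z.1 - (v.y (pj (shr f.H y))).1| ≤ b ∧
      eta f.z.M f.z.a k v.g (shr f.H y) ≤ D ^ 2 * E.eta k z := by
  obtain ⟨z, z1, z2, z3⟩ := cor (k := k) G o o1 et hy
  exact ⟨z, ⟨z1.1, z1.2.1, z1.2.2.trans (show f.z.R1 + 1 + 1 / 2 ≤ f.z.R1 + 4 by linarith)⟩,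
    z2 ▸ K.hb ▸ ac_y G o hy.1 hy.2.2 (ht y hy.1 hy.2.2), K.hD ▸ z3⟩

variable (q1 : q.b.c0 = c1) (q2 : q.b.L0 = k)
include q1 q2

theorem Wk.ta {t Q t' : ℝ} (h : E.Tail (f.c q) t Q) (j : t - c1 + b ≤ t' - c0) :
    Ta (Un (f.Dh q.c.Rs v.Lv) (f.z.R1 + 1)) (fun x => (v.y (pj (shr f.H x))).1)
      (fun x => eta f.z.M f.z.a k v.g (shr f.H x)) c0 t' (D ^ 2 * m * Q) :=
  ((P354PA.tail_iff _ E t Q).1 h).tr (sq_nonneg D) K.hm
    (by rw [show (f.c q).c0 = c1 from q1]; exact j) fun y hy _ => by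
    rw [show (f.c q).L0 = k from q2]; exact K.cr o G o1 et ht hy

variable (e1 : 0 ≤ e0)
  (N : Np f.z.M f.z.a f.H k (f.Dh q.c.Rs v.Lv) v.g f.z.R1 f.t0 c0 CN e0 E' v.y v.pq (v.M, v.a))
include e1 N

theorem Wk.par {t Q : ℝ} (j : t ≤ T) (h : E.Tail (f.c q) t Q) :
    |v.M - f.z.M| + |v.a - f.z.a| ≤ 2 * |CN| * (e0 + X * Q) := by
  have q0 := ((P354PA.tail_iff _ E t Q).1 h).nn
  have n := (N.ini _ (K.ta o G o1 et ht q1 q2 h (by linarith [K.c.2.2.2]))).trans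
    (mul_le_mul (le_abs_self CN) (add_le_add le_rfl (mul_le_mul_of_nonneg_right
      ((le_add_of_nonneg_right zero_le_one).trans K.p2) q0)) (by positivity) (abs_nonneg _))
  linarith [show |v.M - f.z.M| ≤ _ from (norm_fst_le _).trans n,
    show |v.a - f.z.a| ≤ _ from (norm_snd_le _).trans n]

theorem Wk.wn (e2 : e0 ≤ E.e0) (hρ : f.z.R1 + 3 ≤ ρ) (hx : x ∈ f.X1 v q) {A Q : ℝ}
    (hp : E.Past (f.c q) (E.eta k) ρ (f.ac v q x).1 A) (hq : E.Tail (f.c q) (f.ac v q x).1 Q) :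
    Wn f v q.c.Rs k e0 (ρ + 1 / 4) x.1 ((2 * |CN| + 1) * X * (A + Q)) := by
  have q0 := ((P354PA.tail_iff _ E _ Q).1 hq).nn
  have pa := P354PA.past_of (c := f.c q) hρ hp
  have A0 := pa.nn (e1.trans e2)
  have D0 := zero_le_one.trans K.D1
  have X0 := zero_le_one.trans K.X1
  have N0 := abs_nonneg CN
  have c1 : (f.c q).c0 = _ := q1
  obtain ⟨-, c2, c3, -⟩ := K.c
  have b0 : 0 ≤ b := K.hb ▸ add_nonneg (abs_nonneg _) (ms_nn G)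
  have near : ∀ y ∈ Om (f.Dh q.c.Rs v.Lv), |y.1 - x.1| ≤ f.cH →
      |(f.ac v q (wx f y)).1 - (f.ac v q x).1| ≤ b2 := fun y hy j =>
    K.h2 ▸ ac_two G (wx_mem G o hy) hx (by
      linarith [abs_sub_le (wx f y).1 y.1 x.1, wx_t o hy])
  refine ⟨by positivity, fun t => ?_, fun _ y hy j => ?_, fun _ t ht' j => ?_⟩
  · have t1 : (f.ac v q x).1 ≤ T := (ac_top G hx t).trans K.hT.2
    refine ar2 N0 K.X1 ((e2.trans pa.1).trans ?_) q0 (K.par o G o1 et ht q1 q2 e1 N t1 hq)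
    rw [mul_comm X]
    exact mul_le_mul_of_nonneg_left ((le_mul_of_one_le_left (by positivity) K.D1).trans
      (K.p1 _ (.inl t1))) A0
  · obtain ⟨z, z1, z2, z3⟩ := cor (k := k) G o o1 et hy
    obtain ⟨n1, n2⟩ := abs_le.1 (near y hy.1 j)
    have l := hp.2 z z1.1 z1.2.1 (by linarith [z1.2.2]) (by linarith)
    rw [← K.hD] at z3
    refine z3.trans ((mul_le_mul_of_nonneg_left l (sq_nonneg D)).trans ?_)
    rw [← mul_pow]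
    have s := ar3 N0 A0 q0 (by positivity) (K.p1 ((f.ac v q x).1 - z.1)
      (.inr (.inl (by linarith)))) X0
    exact pow_le_pow_left₀ (by positivity) (le_trans (le_of_eq (by ring)) (s.1.trans s.2.2)) 2
  · have m0 : ((t, f.z.R1, 1, 0) : E6) ∈ Om (f.Dh q.c.Rs v.Lv) := ⟨ht', by simp⟩
    have r0 : f.z.R1 ≤ f.z.R1 + 1 := by linarith
    obtain ⟨n1, n2⟩ := abs_le.1 (near _ m0 j)
    obtain ⟨n3, n4⟩ := abs_le.1 (K.hb ▸ ac_y G o m0 r0 (ht _ m0 r0))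
    have s := ar3 N0 A0 q0 (by positivity)
      (K.p1 ((f.ac v q x).1 - (v.y (pj (shr f.H (t, f.z.R1, 1, 0)))).1 + b)
        (.inr (.inr (by linarith)))) ((le_add_of_nonneg_right zero_le_one).trans K.p2)
    exact ((N.fin _ m0 rfl _ _ (pa.tr A0 D0 b0
      (e2.trans (le_mul_of_one_le_left (e1.trans e2) K.D1)) (by linarith)
      fun y hy _ => K.cr o G o1 et ht hy) (K.ta o G o1 et ht q1 q2 hq (by linarith))).trans
      (mul_le_mul (le_abs_self CN) s.1 (by positivity) N0)).trans s.2.1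

end

theorem wne : WNE := by
  intro f o c0 _ k Λ CN Ct
  obtain ⟨m, D, b, b2, T, X, c1, K⟩ := ex_wk f c0 Λ Ct k
  refine ⟨c1, K.c.1, (2 * |CN| + 1) * X, one_le_mul_of_one_le_of_one_le
    (le_add_of_nonneg_left (by positivity)) K.X1, fun L Rs => ⟨1, one_pos,
      fun v q Rb e0 E' E q1 q2 _ q4 _ G o1 eM ea e1 e2 et N ht => ?_⟩⟩
  subst q4
  refine ⟨fun Q h => ?_, fun ρ hρ x hx r A Q hp hq =>
    ⟨by linarith [(abs_le.1 (ac_rd G hx)).1], K.wn o G o1 et ht q1 q2 e1 N e2 hρ hx hp hq⟩⟩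
  rw [eM, ea]
  exact (K.par o G o1 et ht q1 q2 e1 N K.hT.1 h).trans
    (ar1 (abs_nonneg _) K.X1 e1 e2 ((P354PA.tail_iff _ E _ Q).1 h).nn)

end Vale.Agent.P354YI
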